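import Vale.Agent.P159.H37.Gau

/-!
P159 / language file, basic lemmas (helper37): quadratic forms, masses, the channel `Ech`
(normalisation, joint law form, tower property).
-/

namespace Vale.Agent.P159.H37

open Finset Matrix MeasureTheory
open Vale.Agent.P159.TM.H104 (EM Ex Cv K3 Lg li nh Gr)

section forms

variable {V : Type*} [Fintype V] {I : Type*} [Fintype I]

lemma qf_eq (M : Matrix V V ℝ) (u : V → ℝ) : qf M u = u ⬝ᵥ M *ᵥ u := by
  unfold qf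
  simp only [dotProduct, mulVec, Finset.mul_sum, mul_assoc]

lemma bf_eq (M : Matrix V V ℝ) (u v : V → ℝ) : bf M u v = u ⬝ᵥ M *ᵥ v := by
  unfold bf
  simp only [dotProduct, mulVec, Finset.mul_sum, mul_assoc]

lemma bf_self (M : Matrix V V ℝ) (u : V → ℝ) : bf M u u = qf M u := rfl

lemma bf_comm {M : Matrix V V ℝ} (hM : Mᵀ = M) (u v : V → ℝ) : bf M u v = bf M v u := by
  unfold bf
  rw [Finset.sum_comm]
  refine Finset.sum_congr rfl fun y _ => Finset.sum_congr rfl fun x _ => ?_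
  have : M x y = M y x := by
    conv_lhs => rw [← hM]
    rfl
  rw [this]; ring

lemma bf_add_left (M : Matrix V V ℝ) (u u' v : V → ℝ) : bf M (u + u') v = bf M u v + bf M u' v := by
  simp only [bf_eq, add_dotProduct]

lemma bf_add_right (M : Matrix V V ℝ) (u v v' : V → ℝ) : bf M u (v + v') = bf M u v + bf M u v' := by
  simp only [bf_eq, mulVec_add, dotProduct_add]

lemma bf_smul_left (M : Matrix V V ℝ) (c : ℝ) (u v : V → ℝ) : bf M (c • u) v = c * bf M u v := by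
  simp only [bf_eq, smul_dotProduct, smul_eq_mul]

lemma bf_smul_right (M : Matrix V V ℝ) (c : ℝ) (u v : V → ℝ) : bf M u (c • v) = c * bf M u v := by
  simp only [bf_eq, mulVec_smul, dotProduct_smul, smul_eq_mul]

lemma qf_smul (M : Matrix V V ℝ) (c : ℝ) (u : V → ℝ) : qf M (c • u) = c ^ 2 * qf M u := by
  rw [← bf_self, bf_smul_left, bf_smul_right, bf_self]; ring

lemma qf_neg (M : Matrix V V ℝ) (u : V → ℝ) : qf M (-u) = qf M u := by
  have := qf_smul M (-1) u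
  simpa using this

lemma qf_zero_vec (M : Matrix V V ℝ) : qf M 0 = 0 := by
  simp [qf]

lemma qf_add_vec {M : Matrix V V ℝ} (hM : Mᵀ = M) (u v : V → ℝ) :
    qf M (u + v) = qf M u + 2 * bf M u v + qf M v := by
  rw [← bf_self, bf_add_left, bf_add_right, bf_add_right, bf_self, bf_self, bf_comm hM v u]
  ring

lemma qf_sub_vec {M : Matrix V V ℝ} (hM : Mᵀ = M) (u v : V → ℝ) :
    qf M (u - v) = qf M u - 2 * bf M u v + qf M v := by
  rw [sub_eq_add_neg, qf_add_vec hM, qf_neg]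
  have : bf M u (-v) = -bf M u v := by
    have := bf_smul_right M (-1) u v
    simpa using this
  rw [this]; ring

lemma qf_add_mat (M M' : Matrix V V ℝ) (u : V → ℝ) : qf (M + M') u = qf M u + qf M' u := by
  simp only [qf_eq, add_mulVec, dotProduct_add]

lemma qf_gram (P : Matrix I V ℝ) (u : V → ℝ) : qf (Pᵀ * P) u = ∑ i, (P *ᵥ u) i ^ 2 := by
  rw [qf_eq, ← mulVec_mulVec, dotProduct_mulVec, vecMul_transpose]
  simp only [dotProduct, sq]

lemma qf_smul_one [DecidableEq V] (t : ℝ) (u : V → ℝ) :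
    qf (t • (1 : Matrix V V ℝ)) u = t * ∑ x, u x ^ 2 := by
  rw [qf_eq, smul_mulVec, one_mulVec, dotProduct_smul, smul_eq_mul]
  simp only [dotProduct, sq]

lemma li_re (u : V → ℝ) (h : V → ℤ) : li u h = u ⬝ᵥ re h := rfl

/-- the background `F` is the source `M F` -/
lemma li_mass {M : Matrix V V ℝ} (hM : Mᵀ = M) (F : V → ℝ) (h : V → ℤ) :
    li (M *ᵥ F) h = bf M (re h) F := by
  rw [li_re, bf_eq, dotProduct_comm]

lemma li_obs (P : Matrix I V ℝ) (g : I → ℝ) (h : V → ℤ) :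
    li (Pᵀ *ᵥ g) h = ∑ i, (P *ᵥ re h) i * g i := by
  rw [li_re, mulVec_transpose, ← dotProduct_mulVec]
  simp only [dotProduct, mul_comm]

end forms

section masses

variable {V : Type*} [Fintype V]

lemma em_of_le {μ ν : (V → ℤ) → ℝ} (hμ : EM μ) (h0 : ∀ h, 0 ≤ ν h) (h1 : ∀ h, ν h ≤ μ h)
    (hp : ∃ h, 0 < ν h) : EM ν :=
  ⟨h0, hp, fun C => Summable.of_nonneg_of_le (fun h => mul_nonneg (h0 h) (Real.exp_pos _).le)
    (fun h => mul_le_mul_of_nonneg_right (h1 h) (Real.exp_pos _).le) (hμ.sum C)⟩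

lemma em_post {I : Type*} [Fintype I] {μ : (V → ℤ) → ℝ} (hμ : EM μ) (P : Matrix I V ℝ) :
    EM (post μ P) := by
  refine em_of_le hμ (fun h => mul_nonneg (hμ.nn h) (Real.exp_pos _).le) (fun h => ?_) ?_
  · unfold post
    have h1 : Real.exp (-((∑ i, (P *ᵥ re h) i ^ 2) / 2)) ≤ 1 := by
      rw [Real.exp_le_one_iff]
      have : 0 ≤ ∑ i, (P *ᵥ re h) i ^ 2 := Finset.sum_nonneg fun _ _ => sq_nonneg _
      linarith
    nlinarith [hμ.nn h]
  · obtain ⟨h, hh⟩ := hμ.pos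
    exact ⟨h, mul_pos hh (Real.exp_pos _)⟩

/-- bounded weights with a coercive mass form have all exponential moments -/
lemma em_wM {w : (V → ℤ) → ℝ} {Wb : ℝ} (hw0 : ∀ h, 0 ≤ w h) (hwb : ∀ h, w h ≤ Wb)
    (hp : ∃ h, 0 < w h) {M : Matrix V V ℝ} {m0 : ℝ} (hm0 : 0 < m0)
    (hM : ∀ u : V → ℝ, m0 * ∑ x, u x ^ 2 ≤ qf M u) : EM (wM w M) := by
  have h1 : EM (TM.H104.bw w fun _ : V => m0) := TM.H104.em_bw (fun _ => hm0) hw0 hwb hp
  refine em_of_le h1 (fun h => mul_nonneg (hw0 h) (Real.exp_pos _).le) (fun h => ?_) ?_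
  · unfold wM TM.H104.bw
    refine mul_le_mul_of_nonneg_left ?_ (hw0 h)
    unfold TM.H870.gr
    refine Real.exp_le_exp.2 (neg_le_neg ?_)
    have h2 := hM (re h)
    have h3 : ∑ x, m0 / 2 * ((h x : ℝ) - (0 : V → ℝ) x) ^ 2 = m0 * (∑ x, re h x ^ 2) / 2 := by
      rw [Finset.mul_sum, Finset.sum_div]
      refine Finset.sum_congr rfl fun x _ => ?_
      simp only [Pi.zero_apply, sub_zero, re]
      ring
    rw [h3]
    linarith
  · obtain ⟨h, hh⟩ := hp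
    exact ⟨h, mul_pos hh (Real.exp_pos _)⟩

lemma ev_wM {w : (V → ℤ) → ℝ} (hw : Ev w) (M : Matrix V V ℝ) : Ev (wM w M) := by
  intro h
  unfold wM
  have : re (-h) = -re h := by funext x; simp [re]
  rw [hw h, this, qf_neg]

lemma ev_post {I : Type*} [Fintype I] {μ : (V → ℤ) → ℝ} (hμ : Ev μ) (P : Matrix I V ℝ) :
    Ev (post μ P) := by
  intro h
  unfold post
  have : re (-h) = -re h := by funext x; simp [re]
  rw [hμ h, this, mulVec_neg]
  simp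

/-- posterior of a massive weight -/
lemma post_wM {I : Type*} [Fintype I] (w : (V → ℤ) → ℝ) (M' : Matrix V V ℝ) (P : Matrix I V ℝ) :
    post (wM w M') P = wM w (M' + Pᵀ * P) := by
  funext h
  unfold post wM
  rw [mul_assoc, ← Real.exp_add, qf_add_mat, qf_gram]
  congr 2
  ring

/-- partition function in the background `F` = tilted partition function with source `M F` -/
lemma ZM_eq (w : (V → ℤ) → ℝ) {M : Matrix V V ℝ} (hM : Mᵀ = M) (F : V → ℝ) :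
    ZM w M F = Real.exp (-(qf M F / 2)) * Zs (wM w M) (M *ᵥ F) := by
  unfold ZM Zs TM.H104.T
  rw [← tsum_mul_left]
  refine tsum_congr fun h => ?_
  unfold wM
  rw [one_mul, li_mass hM, qf_sub_vec hM, mul_assoc, ← mul_assoc, mul_comm _ (w h), mul_assoc,
    ← Real.exp_add, ← Real.exp_add]
  congr 2
  ring

lemma ZM_pos {w : (V → ℤ) → ℝ} {M : Matrix V V ℝ} (hM : Mᵀ = M) (hE : EM (wM w M)) (F : V → ℝ) :
    0 < ZM w M F := by
  rw [ZM_eq w hM]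
  exact mul_pos (Real.exp_pos _) (TM.H104.T_one_pos hE _)

/-- the tilted partition function is even -/
lemma Zs_neg {μ : (V → ℤ) → ℝ} (hμ : Ev μ) (J : V → ℝ) : Zs μ (-J) = Zs μ J := by
  unfold Zs TM.H104.T
  rw [← (Equiv.neg (V → ℤ)).tsum_eq]
  refine tsum_congr fun h => ?_
  simp only [Equiv.neg_apply]
  rw [hμ h]
  congr 2
  simp [li]

end masses

/-! ### the channel -/

section channel

variable {V : Type*} [Fintype V]

/-- measurable functions of the source of at most exponential growth -/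
structure EGr (Φ : (V → ℝ) → ℝ) : Prop where
  meas : Measurable Φ
  bdd : ∃ C : ℝ, 0 ≤ C ∧ ∀ J, |Φ J| ≤ C * Real.exp (C * ∑ x, |J x|)

lemma EGr.mk' {Φ : (V → ℝ) → ℝ} (hm : Measurable Φ) {A B : ℝ}
    (h : ∀ J, |Φ J| ≤ A * Real.exp (B * ∑ x, |J x|)) : EGr Φ := by
  refine ⟨hm, max (max A 0) B, (le_max_right A 0).trans (le_max_left _ _), fun J => ?_⟩
  refine (h J).trans (mul_le_mul ((le_max_left _ _).trans (le_max_left _ _))
    (Real.exp_le_exp.2 ?_) (Real.exp_pos _).le ((le_max_right A 0).trans (le_max_left _ _)))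
  exact mul_le_mul_of_nonneg_right (le_max_right _ _) (Finset.sum_nonneg fun _ _ => abs_nonneg _)

lemma EGr.const (c : ℝ) : EGr fun _ : V → ℝ => c := by
  refine EGr.mk' measurable_const (A := |c|) (B := 0) fun J => ?_
  simp

lemma EGr.abs {Φ : (V → ℝ) → ℝ} (hΦ : EGr Φ) : EGr fun J => |Φ J| := by
  obtain ⟨C, _, h⟩ := hΦ.bdd
  exact EGr.mk' hΦ.meas.abs fun J => by rw [abs_abs]; exact h J

lemma EGr.add {Φ Ψ : (V → ℝ) → ℝ} (hΦ : EGr Φ) (hΨ : EGr Ψ) : EGr fun J => Φ J + Ψ J := by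
  obtain ⟨A, hA, h⟩ := hΦ.bdd
  obtain ⟨B, hB, h'⟩ := hΨ.bdd
  refine EGr.mk' (hΦ.meas.add hΨ.meas) (A := A + B) (B := max A B) fun J => ?_
  have hs : 0 ≤ ∑ x, |J x| := Finset.sum_nonneg fun _ _ => abs_nonneg _
  refine (abs_add_le _ _).trans ?_
  rw [add_mul]
  refine add_le_add ((h J).trans ?_) ((h' J).trans ?_)
  · exact mul_le_mul_of_nonneg_left (Real.exp_le_exp.2
      (mul_le_mul_of_nonneg_right (le_max_left _ _) hs)) hA
  · exact mul_le_mul_of_nonneg_left (Real.exp_le_exp.2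
      (mul_le_mul_of_nonneg_right (le_max_right _ _) hs)) hB

lemma EGr.mul {Φ Ψ : (V → ℝ) → ℝ} (hΦ : EGr Φ) (hΨ : EGr Ψ) : EGr fun J => Φ J * Ψ J := by
  obtain ⟨A, hA, h⟩ := hΦ.bdd
  obtain ⟨B, hB, h'⟩ := hΨ.bdd
  refine EGr.mk' (hΦ.meas.mul hΨ.meas) (A := A * B) (B := A + B) fun J => ?_
  rw [abs_mul]
  refine (mul_le_mul (h J) (h' J) (abs_nonneg _) (by positivity)).trans (le_of_eq ?_)
  rw [add_mul, Real.exp_add]
  ring

lemma EGr.cmul (c : ℝ) {Φ : (V → ℝ) → ℝ} (hΦ : EGr Φ) : EGr fun J => c * Φ J :=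
  (EGr.const c).mul hΦ

lemma EGr.neg {Φ : (V → ℝ) → ℝ} (hΦ : EGr Φ) : EGr fun J => -Φ J := by
  have := hΦ.cmul (-1)
  simpa only [neg_one_mul] using this

lemma EGr.sub {Φ Ψ : (V → ℝ) → ℝ} (hΦ : EGr Φ) (hΨ : EGr Ψ) : EGr fun J => Φ J - Ψ J := by
  simpa only [sub_eq_add_neg] using hΦ.add hΨ.neg

variable {I : Type*} [Fintype I]

private lemma abs_lin_le (J₁ : V → ℝ) (P : Matrix I V ℝ) :
    ∃ D : ℝ, 0 ≤ D ∧ ∀ g : I → ℝ, ∑ x, |(J₁ + Pᵀ *ᵥ g) x| ≤ D + D * ∑ i, |g i| := by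
  have hD : 0 ≤ ∑ x, ∑ i, |P i x| :=
    Finset.sum_nonneg fun _ _ => Finset.sum_nonneg fun _ _ => abs_nonneg _
  refine ⟨max (∑ x, |J₁ x|) (∑ x, ∑ i, |P i x|), le_max_of_le_right hD, fun g => ?_⟩
  have hg : 0 ≤ ∑ i, |g i| := Finset.sum_nonneg fun _ _ => abs_nonneg _
  have h1 : ∑ x, |(J₁ + Pᵀ *ᵥ g) x| ≤ ∑ x, |J₁ x| + (∑ x, ∑ i, |P i x|) * ∑ i, |g i| := by
    rw [Finset.sum_mul, ← Finset.sum_add_distrib]
    refine Finset.sum_le_sum fun x _ => ?_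
    rw [Pi.add_apply]
    refine (abs_add_le _ _).trans (add_le_add le_rfl ?_)
    have h2 : |(Pᵀ *ᵥ g) x| ≤ ∑ i, |P i x| * |g i| := by
      simp only [mulVec, dotProduct, transpose_apply]
      refine (Finset.abs_sum_le_sum_abs _ _).trans (le_of_eq ?_)
      exact Finset.sum_congr rfl fun i _ => abs_mul _ _
    refine h2.trans ?_
    rw [Finset.sum_mul]
    refine Finset.sum_le_sum fun i _ => mul_le_mul_of_nonneg_left ?_ (abs_nonneg _)
    exact Finset.single_le_sum (f := fun i => |g i|) (fun _ _ => abs_nonneg _) (Finset.mem_univ i)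
  refine h1.trans (add_le_add (le_max_left _ _) ?_)
  exact mul_le_mul_of_nonneg_right (le_max_right _ _) hg

lemma measurable_obs (J₁ : V → ℝ) (P : Matrix I V ℝ) :
    Measurable fun g : I → ℝ => J₁ + Pᵀ *ᵥ g := by
  refine measurable_pi_lambda _ fun x => ?_
  simp only [Pi.add_apply, mulVec, dotProduct]
  fun_prop

/-- a function of exponential growth of the observed source is integrable against `exp (<a, g>)` -/
lemma integrable_obs {Φ : (V → ℝ) → ℝ} (hΦ : EGr Φ) (J₁ : V → ℝ) (P : Matrix I V ℝ) (a : I → ℝ) :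
    Integrable (fun g : I → ℝ => Real.exp (∑ i, a i * g i) * Φ (J₁ + Pᵀ *ᵥ g)) (gau I) := by
  obtain ⟨C, hC, h⟩ := hΦ.bdd
  obtain ⟨D, hD, h'⟩ := abs_lin_le J₁ P
  have ha : 0 ≤ ∑ i, |a i| := Finset.sum_nonneg fun _ _ => abs_nonneg _
  refine ((integrable_exp_norm (I := I) (C * D + ∑ i, |a i|)).const_mul
    (C * Real.exp (C * D))).mono' ?_ (Filter.Eventually.of_forall fun g => ?_)
  · refine Measurable.aestronglyMeasurable (Measurable.mul (by fun_prop) ?_)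
    exact hΦ.meas.comp (measurable_obs J₁ P)
  · rw [Real.norm_eq_abs, abs_mul, abs_of_pos (Real.exp_pos _)]
    have hg : 0 ≤ ∑ i, |g i| := Finset.sum_nonneg fun _ _ => abs_nonneg _
    have h1 : ∑ i, a i * g i ≤ (∑ i, |a i|) * ∑ i, |g i| := by
      rw [Finset.sum_mul]
      refine Finset.sum_le_sum fun i _ => (le_abs_self _).trans ?_
      rw [abs_mul]
      refine mul_le_mul_of_nonneg_left ?_ (abs_nonneg _)
      exact Finset.single_le_sum (f := fun i => |g i|) (fun _ _ => abs_nonneg _) (Finset.mem_univ i)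
    have h2 : |Φ (J₁ + Pᵀ *ᵥ g)| ≤ C * Real.exp (C * (D + D * ∑ i, |g i|)) := by
      refine (h _).trans (mul_le_mul_of_nonneg_left (Real.exp_le_exp.2 ?_) hC)
      exact mul_le_mul_of_nonneg_left (h' g) hC
    calc Real.exp (∑ i, a i * g i) * |Φ (J₁ + Pᵀ *ᵥ g)|
        ≤ Real.exp ((∑ i, |a i|) * ∑ i, |g i|) * (C * Real.exp (C * (D + D * ∑ i, |g i|))) :=
          mul_le_mul (Real.exp_le_exp.2 h1) h2 (abs_nonneg _) (Real.exp_pos _).le
      _ = C * Real.exp (C * D) * Real.exp ((C * D + ∑ i, |a i|) * ∑ i, |g i|) := by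
          have e1 : C * (D + D * ∑ i, |g i|) = C * D + C * D * ∑ i, |g i| := by ring
          have e2 : (C * D + ∑ i, |a i|) * ∑ i, |g i| =
            C * D * (∑ i, |g i|) + (∑ i, |a i|) * ∑ i, |g i| := by ring
          rw [e1, e2, Real.exp_add, Real.exp_add]
          ring

/-- one term of the channel: completing the square -/
lemma ch_term (μ' : (V → ℤ) → ℝ) (J₁ : V → ℝ) (P : Matrix I V ℝ) (Φ : (V → ℝ) → ℝ) (h : V → ℤ) :
    ∫ g, Φ (J₁ + Pᵀ *ᵥ g) * (post μ' P h * Real.exp (li (J₁ + Pᵀ *ᵥ g) h)) ∂(gau I) =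
      μ' h * Real.exp (li J₁ h) * ∫ g, Φ (J₁ + Pᵀ *ᵥ (P *ᵥ re h + g)) ∂(gau I) := by
  have e1 : ∀ g : I → ℝ, Φ (J₁ + Pᵀ *ᵥ g) * (post μ' P h * Real.exp (li (J₁ + Pᵀ *ᵥ g) h)) =
      (post μ' P h * Real.exp (li J₁ h)) *
        (Real.exp (∑ i, (P *ᵥ re h) i * g i) * Φ (J₁ + Pᵀ *ᵥ g)) := by
    intro g
    rw [TM.H104.li_add, Real.exp_add, li_obs]
    ring
  simp_rw [e1]
  rw [integral_const_mul, gau_exp_mul (P *ᵥ re h) fun g => Φ (J₁ + Pᵀ *ᵥ g)]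
  unfold post
  have e2 : ∀ A B C D : ℝ, A * Real.exp (-(D / 2)) * B * (Real.exp (D / 2) * C) = A * B * C := by
    intro A B C D
    have : Real.exp (-(D / 2)) * Real.exp (D / 2) = 1 := by
      rw [← Real.exp_add]; simp
    calc A * Real.exp (-(D / 2)) * B * (Real.exp (D / 2) * C)
        = A * B * C * (Real.exp (-(D / 2)) * Real.exp (D / 2)) := by ring
      _ = A * B * C := by rw [this, mul_one]
  rw [e2]
  congr 2
  funext g
  rw [add_comm g]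

/-- **joint law form of the numerator**: `h ~ μ'` tilted by `J₁`, `J = J₁ + Pᵀ (P h + g)` -/
lemma ch_num {μ' : (V → ℤ) → ℝ} (hμ : EM μ') (J₁ : V → ℝ) (P : Matrix I V ℝ)
    {Φ : (V → ℝ) → ℝ} (hΦ : EGr Φ) :
    HasSum (fun h : V → ℤ => μ' h * Real.exp (li J₁ h) *
        ∫ g, Φ (J₁ + Pᵀ *ᵥ (P *ᵥ re h + g)) ∂(gau I))
      (∫ g, Φ (J₁ + Pᵀ *ᵥ g) * Zs (post μ' P) (J₁ + Pᵀ *ᵥ g) ∂(gau I)) := by
  have hpost := em_post hμ P
  have e0 : ∀ g : I → ℝ, Φ (J₁ + Pᵀ *ᵥ g) * Zs (post μ' P) (J₁ + Pᵀ *ᵥ g) =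
      ∑' h : V → ℤ, Φ (J₁ + Pᵀ *ᵥ g) * (post μ' P h * Real.exp (li (J₁ + Pᵀ *ᵥ g) h)) := by
    intro g
    unfold Zs TM.H104.T
    rw [← tsum_mul_left]
    refine tsum_congr fun h => ?_
    rw [one_mul]
  simp_rw [e0]
  have hint : ∀ h : V → ℤ, Integrable (fun g : I → ℝ => Φ (J₁ + Pᵀ *ᵥ g) *
      (post μ' P h * Real.exp (li (J₁ + Pᵀ *ᵥ g) h))) (gau I) := by
    intro h
    refine ((integrable_obs hΦ J₁ P (P *ᵥ re h)).const_mul
      (post μ' P h * Real.exp (li J₁ h))).congr (Filter.Eventually.of_forall fun g => ?_)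
    simp only
    rw [TM.H104.li_add, Real.exp_add, li_obs]
    ring
  have hsum : Summable fun h : V → ℤ => ∫ g, ‖Φ (J₁ + Pᵀ *ᵥ g) *
      (post μ' P h * Real.exp (li (J₁ + Pᵀ *ᵥ g) h))‖ ∂(gau I) := by
    have e1 : ∀ h : V → ℤ, ∫ g, ‖Φ (J₁ + Pᵀ *ᵥ g) *
        (post μ' P h * Real.exp (li (J₁ + Pᵀ *ᵥ g) h))‖ ∂(gau I) =
        μ' h * Real.exp (li J₁ h) * ∫ g, |Φ (J₁ + Pᵀ *ᵥ (P *ᵥ re h + g))| ∂(gau I) := by
      intro h
      rw [← ch_term μ' J₁ P (fun J => |Φ J|) h]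
      refine integral_congr_ae (Filter.Eventually.of_forall fun g => ?_)
      simp only
      rw [Real.norm_eq_abs, abs_mul, abs_of_nonneg (mul_nonneg (hpost.nn h) (Real.exp_pos _).le)]
    simp_rw [e1]
    obtain ⟨C, hC, hb⟩ := hΦ.bdd
    obtain ⟨D, hD, h'⟩ := abs_lin_le J₁ P
    -- bound of `P h`
    obtain ⟨D', hD', h''⟩ : ∃ D' : ℝ, 0 ≤ D' ∧ ∀ h : V → ℤ,
        ∑ i, |(P *ᵥ re h) i| ≤ D' * nh h := by
      refine ⟨∑ i, ∑ x, |P i x|, Finset.sum_nonneg fun _ _ => Finset.sum_nonneg fun _ _ =>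
        abs_nonneg _, fun h => ?_⟩
      rw [Finset.sum_mul]
      refine Finset.sum_le_sum fun i _ => ?_
      simp only [mulVec, dotProduct]
      refine (Finset.abs_sum_le_sum_abs _ _).trans ?_
      rw [Finset.sum_mul]
      refine Finset.sum_le_sum fun x _ => ?_
      rw [abs_mul]
      refine mul_le_mul_of_nonneg_left ?_ (abs_nonneg _)
      exact Finset.single_le_sum (f := fun x => |(h x : ℝ)|) (fun _ _ => abs_nonneg _)
        (Finset.mem_univ x)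
    set E : ℝ := ∫ g : I → ℝ, Real.exp (C * D * ∑ i, |g i|) ∂(gau I) with hE
    have hb2 : ∀ h : V → ℤ, ∫ g, |Φ (J₁ + Pᵀ *ᵥ (P *ᵥ re h + g))| ∂(gau I) ≤
        C * Real.exp (C * D) * E * Real.exp (C * D * D' * nh h) := by
      intro h
      have h3 : ∀ g : I → ℝ, |Φ (J₁ + Pᵀ *ᵥ (P *ᵥ re h + g))| ≤
          C * Real.exp (C * D) * Real.exp (C * D * D' * nh h) *
            Real.exp (C * D * ∑ i, |g i|) := by
        intro g
        refine (hb _).trans ?_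
        have h4 : ∑ x, |(J₁ + Pᵀ *ᵥ (P *ᵥ re h + g)) x| ≤
            D + D * (D' * nh h) + D * ∑ i, |g i| := by
          refine (h' _).trans ?_
          have h5 : ∑ i, |(P *ᵥ re h + g) i| ≤ D' * nh h + ∑ i, |g i| := by
            refine le_trans ?_ (add_le_add (h'' h) le_rfl)
            rw [← Finset.sum_add_distrib]
            exact Finset.sum_le_sum fun i _ => abs_add_le _ _
          nlinarith [mul_le_mul_of_nonneg_left h5 hD]
        have h6 := mul_le_mul_of_nonneg_left (Real.exp_le_exp.2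
          (mul_le_mul_of_nonneg_left h4 hC)) hC
        refine h6.trans (le_of_eq ?_)
        have e : C * (D + D * (D' * nh h) + D * ∑ i, |g i|) =
          C * D + C * D * D' * nh h + C * D * ∑ i, |g i| := by ring
        rw [e, Real.exp_add, Real.exp_add]
        ring
      have h7 : ∫ g, |Φ (J₁ + Pᵀ *ᵥ (P *ᵥ re h + g))| ∂(gau I) ≤
          ∫ g : I → ℝ, C * Real.exp (C * D) * Real.exp (C * D * D' * nh h) *
            Real.exp (C * D * ∑ i, |g i|) ∂(gau I) :=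
        integral_mono_of_nonneg (Filter.Eventually.of_forall fun g => abs_nonneg _)
          ((integrable_exp_norm (C * D)).const_mul _) (Filter.Eventually.of_forall h3)
      refine h7.trans (le_of_eq ?_)
      rw [integral_const_mul]
      ring
    have hE0 : 0 ≤ E := integral_nonneg fun g => (Real.exp_pos _).le
    refine Summable.of_nonneg_of_le (fun h => mul_nonneg (mul_nonneg (hμ.nn h)
      (Real.exp_pos _).le) (integral_nonneg fun g => abs_nonneg _)) (fun h => ?_)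
      ((hμ.sum (‖J₁‖ + C * D * D')).mul_left (C * Real.exp (C * D) * E))
    have h8 : Real.exp (li J₁ h) ≤ Real.exp (‖J₁‖ * nh h) :=
      Real.exp_le_exp.2 ((le_abs_self _).trans (TM.H104.abs_li J₁ h))
    calc μ' h * Real.exp (li J₁ h) * ∫ g, |Φ (J₁ + Pᵀ *ᵥ (P *ᵥ re h + g))| ∂(gau I)
        ≤ μ' h * Real.exp (‖J₁‖ * nh h) *
          (C * Real.exp (C * D) * E * Real.exp (C * D * D' * nh h)) := by
          refine mul_le_mul (mul_le_mul_of_nonneg_left h8 (hμ.nn h)) (hb2 h)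
            (integral_nonneg fun g => abs_nonneg _)
            (mul_nonneg (hμ.nn h) (Real.exp_pos _).le)
      _ = C * Real.exp (C * D) * E * (μ' h * Real.exp ((‖J₁‖ + C * D * D') * nh h)) := by
          rw [add_mul, Real.exp_add]
          ring
  have h9 := hasSum_integral_of_summable_integral_norm hint hsum
  simp_rw [ch_term μ' J₁ P Φ] at h9
  exact h9

/-- **normalisation of the channel** -/
lemma ch_norm {μ' : (V → ℤ) → ℝ} (hμ : EM μ') (J₁ : V → ℝ) (P : Matrix I V ℝ) :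
    ∫ g, Zs (post μ' P) (J₁ + Pᵀ *ᵥ g) ∂(gau I) = Zs μ' J₁ := by
  have h := ch_num hμ J₁ P (EGr.const (V := V) 1)
  simp only [integral_const, probReal_univ, smul_eq_mul, mul_one, one_mul] at h
  rw [← h.tsum_eq]
  unfold Zs TM.H104.T
  refine tsum_congr fun h => ?_
  rw [one_mul]

/-- **joint law form of the channel** -/
lemma Ech_eq {μ' : (V → ℤ) → ℝ} (hμ : EM μ') (J₁ : V → ℝ) (P : Matrix I V ℝ)
    {Φ : (V → ℝ) → ℝ} (hΦ : EGr Φ) :
    Ech μ' J₁ P Φ = Ex μ' J₁ fun h => ∫ g, Φ (J₁ + Pᵀ *ᵥ (P *ᵥ re h + g)) ∂(gau I) := by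
  unfold Ech
  rw [ch_norm hμ, ← (ch_num hμ J₁ P hΦ).tsum_eq]
  unfold Ex Zs
  congr 1
  unfold TM.H104.T
  refine tsum_congr fun h => ?_
  ring

lemma Zs_pos {μ : (V → ℤ) → ℝ} (hμ : EM μ) (J : V → ℝ) : 0 < Zs μ J := TM.H104.T_one_pos hμ J

lemma continuous_Zs {μ : (V → ℤ) → ℝ} (hμ : EM μ) : Continuous (Zs μ) :=
  TM.H104.continuous_T hμ (Gr.const 1)

/-- integrability of `Φ Z` in the channel -/
lemma ch_int {μ' : (V → ℤ) → ℝ} (hμ : EM μ') (J₁ : V → ℝ) (P : Matrix I V ℝ)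
    {Φ : (V → ℝ) → ℝ} (hΦ : EGr Φ) :
    Integrable (fun g : I → ℝ => Φ (J₁ + Pᵀ *ᵥ g) * Zs (post μ' P) (J₁ + Pᵀ *ᵥ g)) (gau I) := by
  have hpost := em_post hμ P
  have hΨ : EGr fun J => |Φ J| + 1 := hΦ.abs.add (EGr.const 1)
  have h1 := ch_num hμ J₁ P hΨ
  have h2 : Integrable (fun g : I → ℝ => (|Φ (J₁ + Pᵀ *ᵥ g)| + 1) *
      Zs (post μ' P) (J₁ + Pᵀ *ᵥ g)) (gau I) := by
    by_contra hc
    have h3 := integral_undef hc
    rw [h3] at h1
    obtain ⟨h, hh⟩ := hμ.pos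
    have h4 : 0 < μ' h * Real.exp (li J₁ h) *
        ∫ g, (|Φ (J₁ + Pᵀ *ᵥ (P *ᵥ re h + g))| + 1) ∂(gau I) := by
      refine mul_pos (mul_pos hh (Real.exp_pos _)) ?_
      have hi : Integrable (fun g : I → ℝ => |Φ (J₁ + Pᵀ *ᵥ (P *ᵥ re h + g))| + 1) (gau I) := by
        have := integrable_obs hΨ (J₁ + Pᵀ *ᵥ (P *ᵥ re h)) P 0
        refine this.congr (Filter.Eventually.of_forall fun g => ?_)
        simp only [Pi.zero_apply, zero_mul, Finset.sum_const_zero, Real.exp_zero, one_mul]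
        rw [add_assoc, ← mulVec_add]
      have h5 : ∫ _g : I → ℝ, (1 : ℝ) ∂(gau I) ≤
          ∫ g, (|Φ (J₁ + Pᵀ *ᵥ (P *ᵥ re h + g))| + 1) ∂(gau I) :=
        integral_mono (integrable_const _) hi fun g => by
          simp only
          linarith [abs_nonneg (Φ (J₁ + Pᵀ *ᵥ (P *ᵥ re h + g)))]
      have h6 : ∫ _g : I → ℝ, (1 : ℝ) ∂(gau I) = 1 := by simp
      linarith
    have h7 := le_hasSum h1 h fun k _ => mul_nonneg (mul_nonneg (hμ.nn k) (Real.exp_pos _).le)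
      (integral_nonneg fun g => add_nonneg (abs_nonneg _) zero_le_one)
    exact absurd h7 (not_le.2 h4)
  refine h2.mono' ?_ (Filter.Eventually.of_forall fun g => ?_)
  · exact ((hΦ.meas.comp (measurable_obs J₁ P)).mul
      ((continuous_Zs hpost).measurable.comp (measurable_obs J₁ P))).aestronglyMeasurable
  · rw [Real.norm_eq_abs, abs_mul, abs_of_pos (Zs_pos hpost _)]
    exact mul_le_mul_of_nonneg_right (by linarith) (Zs_pos hpost _).le

lemma Ech_const {μ' : (V → ℤ) → ℝ} (hμ : EM μ') (J₁ : V → ℝ) (P : Matrix I V ℝ) (c : ℝ) :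
    Ech μ' J₁ P (fun _ => c) = c := by
  unfold Ech
  rw [integral_const_mul, ch_norm hμ, mul_div_cancel_right₀ _ (Zs_pos hμ J₁).ne']

lemma Ech_nonneg {μ' : (V → ℤ) → ℝ} (hμ : EM μ') (J₁ : V → ℝ) (P : Matrix I V ℝ)
    {Φ : (V → ℝ) → ℝ} (h0 : ∀ J, 0 ≤ Φ J) : 0 ≤ Ech μ' J₁ P Φ :=
  div_nonneg (integral_nonneg fun g => mul_nonneg (h0 _) (Zs_pos (em_post hμ P) _).le)
    (integral_nonneg fun g => (Zs_pos (em_post hμ P) _).le)

lemma Ech_add {μ' : (V → ℤ) → ℝ} (hμ : EM μ') (J₁ : V → ℝ) (P : Matrix I V ℝ)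
    {Φ Ψ : (V → ℝ) → ℝ} (hΦ : EGr Φ) (hΨ : EGr Ψ) :
    Ech μ' J₁ P (fun J => Φ J + Ψ J) = Ech μ' J₁ P Φ + Ech μ' J₁ P Ψ := by
  unfold Ech
  rw [← add_div, ← integral_add (ch_int hμ J₁ P hΦ) (ch_int hμ J₁ P hΨ)]
  congr 2
  funext g
  ring

lemma Ech_cmul (μ' : (V → ℤ) → ℝ) (J₁ : V → ℝ) (P : Matrix I V ℝ) (c : ℝ)
    (Φ : (V → ℝ) → ℝ) : Ech μ' J₁ P (fun J => c * Φ J) = c * Ech μ' J₁ P Φ := by
  unfold Ech
  rw [← mul_div_assoc, ← integral_const_mul]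
  congr 2
  funext g
  ring

lemma Ech_sub {μ' : (V → ℤ) → ℝ} (hμ : EM μ') (J₁ : V → ℝ) (P : Matrix I V ℝ)
    {Φ Ψ : (V → ℝ) → ℝ} (hΦ : EGr Φ) (hΨ : EGr Ψ) :
    Ech μ' J₁ P (fun J => Φ J - Ψ J) = Ech μ' J₁ P Φ - Ech μ' J₁ P Ψ := by
  have h1 := Ech_add hμ J₁ P hΦ hΨ.neg
  have h2 := Ech_cmul μ' J₁ P (-1) Ψ
  simp only [neg_one_mul] at h2
  simp only [sub_eq_add_neg, h1, h2]

lemma Ech_mono {μ' : (V → ℤ) → ℝ} (hμ : EM μ') (J₁ : V → ℝ) (P : Matrix I V ℝ)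
    {Φ Ψ : (V → ℝ) → ℝ} (hΦ : EGr Φ) (hΨ : EGr Ψ) (h : ∀ J, Φ J ≤ Ψ J) :
    Ech μ' J₁ P Φ ≤ Ech μ' J₁ P Ψ := by
  have h1 := Ech_sub hμ J₁ P hΨ hΦ
  have h2 : 0 ≤ Ech μ' J₁ P fun J => Ψ J - Φ J := Ech_nonneg hμ J₁ P fun J => sub_nonneg.2 (h J)
  linarith

/-- the law of the source is even when the prior is even and `J₁ = 0` -/
lemma Ech_neg {μ' : (V → ℤ) → ℝ} (hE : Ev μ') (P : Matrix I V ℝ) (Φ : (V → ℝ) → ℝ) :
    Ech μ' 0 P (fun J => Φ (-J)) = Ech μ' 0 P Φ := by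
  unfold Ech
  congr 1
  rw [← gau_integral_neg fun g => Φ (0 + Pᵀ *ᵥ g) * Zs (post μ' P) (0 + Pᵀ *ᵥ g)]
  refine integral_congr_ae (Filter.Eventually.of_forall fun g => ?_)
  simp only [zero_add, mulVec_neg]
  rw [Zs_neg (ev_post hE P)]

variable {I₂ : Type*} [Fintype I₂]

lemma post_fromRows (μ : (V → ℤ) → ℝ) (P : Matrix I V ℝ) (P₂ : Matrix I₂ V ℝ) :
    post μ (fromRows P P₂) = post (post μ P) P₂ := by
  funext h
  unfold post
  rw [mul_assoc, ← Real.exp_add, Fintype.sum_sum_type]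
  simp only [fromRows_mulVec, Sum.elim_inl, Sum.elim_inr]
  congr 2
  ring

/-- **tower property**: observing `P` and then `P₂` -/
theorem Ech_tower {μ' : (V → ℤ) → ℝ} (hμ : EM μ') (J₀ : V → ℝ) (P : Matrix I V ℝ)
    (P₂ : Matrix I₂ V ℝ) {Φ : (V → ℝ) → ℝ} (hΦ : EGr Φ) :
    Ech μ' J₀ (fromRows P P₂) Φ = Ech μ' J₀ P fun J₁ => Ech (post μ' P) J₁ P₂ Φ := by
  have hp := em_post hμ P
  unfold Ech
  rw [ch_norm hμ, ch_norm hμ]
  congr 1
  have h1 : ∀ g : I → ℝ, (∫ g₂, Φ (J₀ + Pᵀ *ᵥ g + P₂ᵀ *ᵥ g₂) *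
      Zs (post (post μ' P) P₂) (J₀ + Pᵀ *ᵥ g + P₂ᵀ *ᵥ g₂) ∂(gau I₂)) /
      (∫ g₂, Zs (post (post μ' P) P₂) (J₀ + Pᵀ *ᵥ g + P₂ᵀ *ᵥ g₂) ∂(gau I₂)) *
      Zs (post μ' P) (J₀ + Pᵀ *ᵥ g) =
      ∫ g₂, Φ (J₀ + Pᵀ *ᵥ g + P₂ᵀ *ᵥ g₂) *
      Zs (post (post μ' P) P₂) (J₀ + Pᵀ *ᵥ g + P₂ᵀ *ᵥ g₂) ∂(gau I₂) := by
    intro g
    rw [ch_norm hp, div_mul_cancel₀ _ (Zs_pos hp _).ne']
  simp_rw [h1]
  have hint := ch_int hμ J₀ (fromRows P P₂) hΦ
  rw [post_fromRows] at hint ⊢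
  have e1 : ∀ g : I ⊕ I₂ → ℝ, J₀ + (fromRows P P₂)ᵀ *ᵥ g =
      J₀ + Pᵀ *ᵥ (fun i => g (Sum.inl i)) + P₂ᵀ *ᵥ (fun i => g (Sum.inr i)) := by
    intro g
    rw [transpose_fromRows, add_assoc]
    congr 1
    have : g = Sum.elim (fun i => g (Sum.inl i)) (fun i => g (Sum.inr i)) := by
      funext i; cases i <;> rfl
    conv_lhs => rw [this]
    rw [fromCols_mulVec_sumElim]
  simp_rw [e1] at hint ⊢
  have hmp := gau_sum (I₁ := I) (I₂ := I₂)
  have e2 : ∀ Ψ : (V → ℝ) → ℝ, ∫ g : I ⊕ I₂ → ℝ, Ψ (J₀ + Pᵀ *ᵥ (fun i => g (Sum.inl i)) +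
        P₂ᵀ *ᵥ (fun i => g (Sum.inr i))) ∂(gau (I ⊕ I₂)) =
      ∫ p : (I → ℝ) × (I₂ → ℝ), Ψ (J₀ + Pᵀ *ᵥ p.1 + P₂ᵀ *ᵥ p.2) ∂((gau I).prod (gau I₂)) :=
    fun Ψ => hmp.integral_comp (MeasurableEquiv.measurableEmbedding _)
      fun p : (I → ℝ) × (I₂ → ℝ) => Ψ (J₀ + Pᵀ *ᵥ p.1 + P₂ᵀ *ᵥ p.2)
  rw [e2 fun J => Φ J * Zs (post (post μ' P) P₂) J]
  rw [integral_prod]
  exact (hmp.integrable_comp_emb (MeasurableEquiv.measurableEmbedding _) (g := fun p :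
    (I → ℝ) × (I₂ → ℝ) => Φ (J₀ + Pᵀ *ᵥ p.1 + P₂ᵀ *ᵥ p.2) *
      Zs (post (post μ' P) P₂) (J₀ + Pᵀ *ᵥ p.1 + P₂ᵀ *ᵥ p.2))).1 hint

end channel

end Vale.Agent.P159.H37
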