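import Vale.Agent.P159.H37.Sf3
import Vale.Agent.P159.H253.Rec3

/-!
P159 (helper37), final glue of S, part 4: the amplitude theorem from the flow and one statement per
level, with the start (record scales) and the price bound of 253 along the chain supplied.
-/

open Filter Topology Finset

set_option linter.all false

namespace Vale.Agent.P159.H37.Sf

open Vale.Agent.P159.TM.Spec (V)
open Vale.Agent.P159.H552.Dx7 (kk nx invS)
open Vale.Agent.P159.H801 (itw T3 Fl Wn itw_succ itw_zero itw_ge itw_tend rp_cmp SFlow xa Bw)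
open Vale.Agent.P159.H264 (kap)
open Vale.Agent.P159.H686 (Sml al)
open Vale.Agent.P159.H770 (wTD Ed)
open Vale.Agent.P159.H817 (eD)
open Vale.Agent.P159.H27 (Rb BelR Slo Rb_pos)
open Vale.Agent.P159.H773 (sd Pth de cT0)
open Vale.Agent.P159.H972 (tn lg Par Good YBn)
open Vale.Agent.P159.H253.Rec (RecAt ga ua rec_chain rec_start)

noncomputable section

/-- **what the level `j` may assume**: the relation of all windows below (errors `≤ 1/2`), the lower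
slopes, and the price bound (253) with a constant `C1` independent of the level and the ratio -/
structure KnR (b β C1 : ℝ) (i : ℕ) (a : ℕ → ℝ) (k w : ℕ → ℕ) (n0 j : ℕ) : Prop
    extends Kn b β i a k w n0 j where
  price : ∀ R : ℕ, Rb k w n0 0 ≤ R → R ≤ Rb k w n0 j → RecAt b β C1 R ∧
    |ga b R - cT0 (sd i R - 2) b R| ≤ cT0 (sd i R - 2) b R / 2 ∧
    ∀ s : ℕ, 1 ≤ s → s ≤ R → ua b s ≤ C1 * ((R : ℝ) / s) ^ β * cT0 (sd i R - 2) b R

/-- the price bound at the start gives it at all levels -/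
theorem knR {b β C0 : ℝ} (hb : 0 < b) (hβ0 : 0 ≤ β) (hβ1 : β ≤ 1) (hC0 : 1 ≤ C0) :
    ∃ (A0 C1 : ℝ), 8 ≤ A0 ∧ 1 ≤ C1 ∧ ∀ (i : ℕ) (a : ℕ → ℝ) (k w : ℕ → ℕ) (n0 j : ℕ),
      A0 ≤ 2 ^ i → 2 ≤ n0 → RecAt b β C0 (Rb k w n0 0) → Kn b β i a k w n0 j →
      KnR b β C1 i a k w n0 j := by
  obtain ⟨A0, C1, hA0, hC1, h⟩ := rec_chain (b := b) (β := β) (C0 := C0) hb hβ1 hC0
    (Ce := de 1) (Fm := 1 / 2) de1_nonneg (by norm_num) hβ0
  refine ⟨A0, C1, hA0, hC1, fun i a k w n0 j hi hn0 hst hK => ?_⟩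
  obtain ⟨κ, hS⟩ := hK.slo
  refine { toKn := hK, price := fun R h1 h2 => ?_ }
  refine h (sd i) _ a (fun _ => 1 / 2) k w n0 κ j hS hK.rel ?_ (fun R _ _ => ?_) hst R h1 h2
  · have h3 : 2 ^ 2 ≤ Rb k w n0 0 := by
      unfold Rb kk
      rw [itw_zero]
      exact Nat.pow_le_pow_right (by norm_num) (by omega)
    exact h3
  · have h3 : (2 : ℝ) ^ i * R ≤ sd i R := by exact_mod_cast H773.sd_ge i R
    exact (mul_le_mul_of_nonneg_right hi (Nat.cast_nonneg _)).trans h3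

section flow

variable {P : Par} {b σ c c1 q2 qx : ℝ} {a y ε xs : ℕ → ℝ} {c' r q A : ℝ} {N : ℕ}

/-- the base distances have bounded ratios from some level on -/
lemma start_rec {k w : ℕ → ℕ} (hb : 0 ≤ b) (hk : ∀ᶠ n in atTop, k (n + 1) ≤ k n + 1)
    {α β c0 : ℝ} (hα0 : 0 ≤ α) (hαβ : α < β) (hβ1 : β ≤ 1) (hc0 : 0 < c0)
    (h : ∀ᶠ r : ℕ in atTop, c0 * (r : ℝ) ^ (-α) ≤ ga b r) :
    ∃ C0 : ℝ, 1 ≤ C0 ∧ ∀ n1, ∃ n0, n1 ≤ n0 ∧ RecAt b β C0 (Rb k w n0 0) := by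
  obtain ⟨C, hC, H⟩ := rec_start (b := b) (α := β) (β := α) hb hα0 hαβ hβ1 hc0 h
  obtain ⟨M, hM⟩ := eventually_atTop.1 hk
  refine ⟨4 * C, by linarith, fun n1 => ?_⟩
  have hge : ∀ n, n ≤ 2 ^ kk k (M + n) := fun n => by
    have h2 : kk k (M + n) < 2 ^ kk k (M + n) := Nat.lt_two_pow_self
    have h3 : M + n ≤ kk k (M + n) := Nat.le_add_right _ _
    omega
  obtain ⟨n, hn1, hn2⟩ := H 4 (fun n => 2 ^ kk k (M + n)) (by norm_num)
    (fun n => Nat.one_le_two_pow)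
    (tendsto_atTop_mono hge tendsto_id)
    (fun n => by
      have h4 := hM (M + n) (Nat.le_add_right _ _)
      have h5 : kk k (M + (n + 1)) ≤ 2 + kk k (M + n) := by
        unfold kk
        rw [← add_assoc]
        omega
      have h6 : 2 ^ kk k (M + (n + 1)) ≤ 2 ^ 2 * 2 ^ kk k (M + n) := by
        rw [← pow_add]
        exact Nat.pow_le_pow_right (by norm_num) h5
      have h7 : (2 : ℕ) ^ 2 = 4 := by norm_num
      rw [h7] at h6
      exact_mod_cast h6) n1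
  refine ⟨M + n, by omega, ?_⟩
  have e : Rb k w (M + n) 0 = 2 ^ kk k (M + n) := by
    unfold Rb
    rw [itw_zero]
  rw [e]
  exact hn2

/-- **THE AMPLITUDE THEOREM FROM THE FLOW, A SOFT LOWER BOUND AND ONE STATEMENT PER LEVEL** (the
level may use the price bound with a universal constant `C1`) -/
theorem s_final_rec (hb : 0 < b) (hσ : σ ≤ 1 / 4)
    (h : SFlow P b σ c c1 q2 qx a y ε xs c' r q A N) {ck c3 c4 α β c0 : ℝ} (hck : 0 < ck)
    (hck1 : ck ≤ P.thp) (h3 : 0 < c3) (h4 : 0 < c4) (hα0 : 0 ≤ α) (hαβ : α < β)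
    (hβ : 1 / 4 < β) (hβ1 : β ≤ 1) (hc0 : 0 < c0)
    (hlow : ∀ᶠ r : ℕ in atTop, c0 * (r : ℝ) ^ (-α) ≤ ga b r)
    (hL : ∀ C1 : ℝ, 1 ≤ C1 → ∃ i1 : ℕ, ∀ i, i1 ≤ i →
      ∃ (η : ∀ R, Ed (sd i R) → ℤ) (φ : ∀ R, V (sd i R) → ℝ), Pth i η ∧
      ∃ N1 : ℕ, ∀ n0, N1 ≤ n0 →
        ∀ j, KnR b β C1 i a (kf ck y) (fun n => P.w (ε n)) n0 j →
        ∀ n n', n = itw (fun n => P.w (ε n)) n0 j → n' = n + P.w (ε n) →
        LvOut b i η φ c3 c4 (y n) (a n) n n' (2 ^ (n + kf ck y n)) (2 ^ (n' + kf ck y n'))) :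
    ∃ A : ℝ, 0 < A ∧ Tendsto (fun r : ℕ => Vale.Agent.P159.corrInf b ((r : ℤ), 0) /
      ((r : ℝ) ^ (-(1 / 4) : ℝ) * Real.log r ^ (1 / 8 : ℝ))) atTop (𝓝 A) := by
  obtain ⟨ha, hav⟩ := sf_a h
  obtain ⟨hk1, hk1'⟩ := sf_k1 h hck
  obtain ⟨C0, hC0, hR⟩ := start_rec (w := fun n => P.w (ε n)) hb.le hk1' hα0 hαβ hβ1 hc0 hlow
  obtain ⟨A0, C1, hA0, hC1, hK⟩ := knR (b := b) (β := β) (C0 := C0) hb (by linarith) hβ1 hC0
  obtain ⟨i1, hi1⟩ := hL C1 hC1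
  obtain ⟨i2, hi2⟩ := (tendsto_pow_atTop_atTop_of_one_lt (one_lt_two (α := ℝ))).eventually_ge_atTop
    A0 |>.exists_forall_of_atTop
  refine s_glue hb h.t3 (sf_wt h hσ) hk1 (sf_k3 h hσ hck hck1) ha
    (c5 := (q2 - 1) / 2) (by have := h.q21; linarith) hav h3 h4 hβ
    (Rc := RecAt b β C0) (i1 := max i1 i2) hR fun i hi => ?_
  obtain ⟨η, φ, hη, N1, hN1⟩ := hi1 i ((le_max_left _ _).trans hi)
  refine ⟨η, φ, hη, max N1 2, fun n0 hn0 hr j hKn => ?_⟩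
  have h1 := hN1 n0 ((le_max_left _ _).trans hn0) j
    (hK i a _ _ n0 j (hi2 i ((le_max_right _ _).trans hi)) ((le_max_right _ _).trans hn0) hr hKn)
    (itw (fun n => P.w (ε n)) n0 j) (itw (fun n => P.w (ε n)) n0 (j + 1)) rfl (itw_succ _ _ _)
  exact h1

end flow

end

end Vale.Agent.P159.H37.Sf
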