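import Vale.Agent.P159.H37.Fp2
import Vale.Agent.P159.H253.Sm3
import Vale.Agent.P159.H686.Rp2

/-!
P159 (helper37), far pairs, part 3: the massless ratio `CT N b η` of a pair of cores in general
position is comparable with the two point function on the axis at the same scale.
-/

set_option linter.all false

open MeasureTheory Filter Topology
open scoped BigOperators

namespace Vale.Agent.P159.H37.Fp

open Vale.Agent.P159 Vale.Agent.P159.TM.H331 Vale.Agent.P159.H773 Vale.Agent.P159.H253.Rec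
open Vale.Agent.P159.H253.Sm (CT_tr CT_classZ cuZ_trD sum_trD cz cz_nat)
open Vale.Agent.P159.H770 (Ed)
open Vale.Agent.P159.H883 (CT)
open Vale.Agent.P159.H474.Cb (trD)
open Vale.Agent.P159.TM.Spec (V)
open Vale.Agent.P159.H513 (cuZ)

variable {b α C1 : ℝ}

section path

variable {N : ℕ} [NeZero N] {p q : V N} {v1 v2 : ℤ} {L : ℕ} {η : V N × Bool → ℤ}

lemma path_cuZ (h : H817.IsPath p q v1 v2 L η) (x : V N) :
    cuZ η x = (if x = p then 1 else 0) - if x = q then 1 else 0 := by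
  have h1 := h.cu x
  have h2 : ((cuZ η x : ℤ) : ℝ) =
      (((if x = p then 1 else 0) - (if x = q then 1 else 0) : ℤ) : ℝ) := by
    unfold cuZ
    push_cast
    exact h1
  exact_mod_cast h2

lemma path_ver (h : H817.IsPath p q v1 v2 L η) : ∑ x : V N, η (x, true) = v1 := by
  have h1 := h.ver
  exact_mod_cast h1

lemma path_hor (h : H817.IsPath p q v1 v2 L η) : ∑ x : V N, η (x, false) = -v2 := by
  have h1 := h.hor
  exact_mod_cast h1

/-- the end point is determined by the flux -/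
theorem path_end (h : H817.IsPath p q v1 v2 L η) : q = p + ((v1 : ZMod N), (v2 : ZMod N)) := by
  have hs1 : ∀ f : V N → ZMod N, ∑ x : V N, f (x + (1, 0)) = ∑ x : V N, f x := fun f =>
    Equiv.sum_comp (Equiv.addRight ((1, 0) : V N)) f
  have hs2 : ∀ f : V N → ZMod N, ∑ x : V N, f (x + (0, 1)) = ∑ x : V N, f x := fun f =>
    Equiv.sum_comp (Equiv.addRight ((0, 1) : V N)) f
  have k1 : ∑ x : V N, ((η (x, true) : ℤ) : ZMod N) = (v1 : ZMod N) := by
    rw [← path_ver h]; push_cast; rfl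
  have k2 : ∑ x : V N, ((η (x, false) : ℤ) : ZMod N) = -(v2 : ZMod N) := by
    have := path_hor h
    have h3 : ((∑ x : V N, η (x, false) : ℤ) : ZMod N) = ((-v2 : ℤ) : ZMod N) := by rw [this]
    push_cast at h3
    exact h3
  have c1 : ∑ x : V N, x.1 * ((cuZ η x : ℤ) : ZMod N) = p.1 - q.1 := by
    simp only [path_cuZ h]
    push_cast
    simp only [mul_sub, Finset.sum_sub_distrib, mul_ite, mul_one, mul_zero, Finset.sum_ite_eq',
      Finset.mem_univ, if_true]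
  have c2 : ∑ x : V N, x.2 * ((cuZ η x : ℤ) : ZMod N) = p.2 - q.2 := by
    simp only [path_cuZ h]
    push_cast
    simp only [mul_sub, Finset.sum_sub_distrib, mul_ite, mul_one, mul_zero, Finset.sum_ite_eq',
      Finset.mem_univ, if_true]
  have d1 : ∑ x : V N, x.1 * ((cuZ η x : ℤ) : ZMod N) = -∑ x : V N, ((η (x, true) : ℤ) : ZMod N) := by
    have a1 := hs1 fun y => (y.1 - 1) * ((η (y, true) : ℤ) : ZMod N)
    have a2 := hs2 fun y => y.1 * ((η (y, false) : ℤ) : ZMod N)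
    simp only [Prod.fst_add, add_sub_cancel_right, add_zero] at a1 a2
    have e : ∀ x : V N, x.1 * ((cuZ η x : ℤ) : ZMod N) =
        x.1 * ((η (x, false) : ℤ) : ZMod N) + x.1 * ((η (x + (1, 0), true) : ℤ) : ZMod N) -
        x.1 * ((η (x + (0, 1), false) : ℤ) : ZMod N) - x.1 * ((η (x, true) : ℤ) : ZMod N) := by
      intro x
      unfold cuZ
      push_cast
      ring
    simp only [e, Finset.sum_add_distrib, Finset.sum_sub_distrib]
    rw [a1, a2]
    simp only [sub_mul, one_mul, Finset.sum_sub_distrib]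
    ring
  have d2 : ∑ x : V N, x.2 * ((cuZ η x : ℤ) : ZMod N) = ∑ x : V N, ((η (x, false) : ℤ) : ZMod N) := by
    have a1 := hs1 fun y => y.2 * ((η (y, true) : ℤ) : ZMod N)
    have a2 := hs2 fun y => (y.2 - 1) * ((η (y, false) : ℤ) : ZMod N)
    simp only [Prod.snd_add, add_sub_cancel_right, add_zero] at a1 a2
    have e : ∀ x : V N, x.2 * ((cuZ η x : ℤ) : ZMod N) =
        x.2 * ((η (x, false) : ℤ) : ZMod N) + x.2 * ((η (x + (1, 0), true) : ℤ) : ZMod N) -
        x.2 * ((η (x + (0, 1), false) : ℤ) : ZMod N) - x.2 * ((η (x, true) : ℤ) : ZMod N) := by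
      intro x
      unfold cuZ
      push_cast
      ring
    simp only [e, Finset.sum_add_distrib, Finset.sum_sub_distrib]
    rw [a1, a2]
    simp only [sub_mul, one_mul, Finset.sum_sub_distrib]
    ring
  rw [d1, k1] at c1
  rw [d2, k2] at c2
  ext
  · show q.1 = p.1 + (v1 : ZMod N)
    linear_combination c1
  · show q.2 = p.2 + (v2 : ZMod N)
    linear_combination c2

end path

section tor

variable {M : ℕ}

lemma CT_pth (hb : 0 ≤ b) (P Q : St M) : CT (M + 2) b (pth P Q) = cT M b P Q := by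
  rw [CT_eq_ZN, cT_pth hb]

/-- the massless ratio of any path is the two point function of the neutral torus -/
theorem CT_gen (hb : 0 ≤ b) {p q : V (M + 2)} {v1 v2 : ℤ} {L : ℕ} {η : Ed (M + 2) → ℤ}
    (h : H817.IsPath (N := M + 2) p q v1 v2 L η) {P Q : St M}
    (h1 : ((Q.1 : ℕ) : ℤ) - ((P.1 : ℕ) : ℤ) = v1) (h2 : ((Q.2 : ℕ) : ℤ) - ((P.2 : ℕ) : ℤ) = v2) :
    CT (M + 2) b η = cT M b P Q := by
  have hq := path_end h
  set P' : V (M + 2) := cz (M + 2) (((P.1 : ℕ) : ℤ), ((P.2 : ℕ) : ℤ)) with hP'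
  set Q' : V (M + 2) := cz (M + 2) (((Q.1 : ℕ) : ℤ), ((Q.2 : ℕ) : ℤ)) with hQ'
  have eP : P' = P := cz_nat P.1.2 P.2.2
  have eQ : Q' = Q := cz_nat Q.1.2 Q.2.2
  have hPQ : Q' = P' + ((v1 : ZMod (M + 2)), (v2 : ZMod (M + 2))) := by
    rw [hP', hQ']
    unfold cz
    ext
    · show ((((Q.1 : ℕ) : ℤ)) : ZMod (M + 2)) = ((((P.1 : ℕ) : ℤ)) : ZMod (M + 2)) + (v1 : ZMod (M + 2))
      rw [← h1]
      push_cast
      ring
    · show ((((Q.2 : ℕ) : ℤ)) : ZMod (M + 2)) = ((((P.2 : ℕ) : ℤ)) : ZMod (M + 2)) + (v2 : ZMod (M + 2))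
      rw [← h2]
      push_cast
      ring
  rw [← CT_pth hb, ← CT_tr (p - P') η]
  refine CT_classZ (fun v => ?_) ?_ ?_
  · rw [cuZ_trD, path_cuZ h]
    have h3 : cuZ (pth P Q) v = (if v = P' then 1 else 0) - (if v = Q' then 1 else 0) := by
      have h4 := (pth_dsl P Q).curl v
      rw [eP, eQ]
      exact h4
    rw [h3]
    have e1 : (v + (p - P') = p) = (v = P') := by
      apply propext
      constructor
      · intro h5
        have : v = p - (p - P') := eq_sub_of_add_eq h5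
        rw [this]; abel
      · intro h5
        rw [h5]; abel
    have e2 : (v + (p - P') = q) = (v = Q') := by
      apply propext
      rw [hq, hPQ]
      constructor
      · intro h5
        have : v = p + ((v1 : ZMod (M + 2)), (v2 : ZMod (M + 2))) - (p - P') := eq_sub_of_add_eq h5
        rw [this]; abel
      · intro h5
        rw [h5]; abel
    simp only [e1, e2]
  · rw [sum_trD, path_hor h]
    refine Eq.symm ((sum_pth_false P Q).trans ?_)
    rw [h2]
  · rw [sum_trD, path_ver h]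
    refine Eq.symm ((sum_pth_true P Q).trans ?_)
    rw [h1]

/-- **plane versus neutral torus**, general position -/
theorem C_sub_cT_gen (hb : 0 ≤ b) {D : ℕ} (hD : 4 ≤ D) (hM : 4 * D + 2 ≤ M) {v : ℤ × ℤ}
    (hv : XY.nm v = D) : ∃ P Q : St M, ((Q.1 : ℕ) : ℤ) - ((P.1 : ℕ) : ℤ) = v.1 ∧
      ((Q.2 : ℕ) : ℤ) - ((P.2 : ℕ) : ℤ) = v.2 ∧
      |XY.C b v - cT M b P Q| ≤ Real.exp (1 / (16 * b + 1) / 2) *
        (((4 * D : ℕ) + (((M + 1 - 4 * D) / 2 : ℕ) : ℝ)) / (4 * D : ℕ)) ^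
          (-(1 / (16 * b + 1)) : ℝ) * mm b (D / 4) ^ 2 := by
  obtain ⟨x, y⟩ := v
  have hxy : x.natAbs ≤ D ∧ y.natAbs ≤ D := by
    unfold XY.nm at hv
    simp only at hv
    omega
  obtain ⟨hx, hy⟩ := hxy
  set d : ℕ := (M + 1 - 4 * D) / 2 with hd
  have hd1 : 1 ≤ d := by omega
  set p : ℤ × ℤ := (((d + 2 * D : ℕ) : ℤ), ((d + 2 * D : ℕ) : ℤ)) with hp
  set q : ℤ × ℤ := (((d + 2 * D : ℕ) : ℤ) + x, ((d + 2 * D : ℕ) : ℤ) + y) with hq
  have hpi : p ∈ inner (M + 1) := by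
    rw [mem_inner_iff, hp]
    push_cast
    omega
  have hqi : q ∈ inner (M + 1) := by
    rw [mem_inner_iff, hq]
    push_cast
    omega
  have h1 := C_sub_abs (M := M) hb ⟨p, hpi⟩ ⟨q, hqi⟩
  have e1 : q - p = (x, y) := by
    rw [hp, hq]
    ext
    · simp
    · simp
  have e3 : expect (blockEnergy (M + 1) b)
      (fun θ : inner (M + 1) → T => cosT (θ ⟨p, hpi⟩ + θ ⟨q, hqi⟩)) =
      EW b (inner (M + 1)) fun ω => cosT (ω p + ω q) := by
    rw [EW_block]
    congr 1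
    funext φ
    rw [ext_on _ hpi, ext_on _ hqi]
  refine ⟨ci ⟨p, hpi⟩, ci ⟨q, hqi⟩, ?_, ?_, ?_⟩
  · unfold ci
    simp only [hp, hq]
    omega
  · unfold ci
    simp only [hp, hq]
    omega
  rw [e3] at h1
  simp only at h1
  rw [e1] at h1
  refine h1.trans ?_
  refine two_charge (b := b) (z := 0) (R := 4 * D) (d := d) (ρ := D / 4) hb (by omega) hd1 ?_ ?_ ?_ ?_
  · rw [tr_zero]
    intro v hv
    rw [mem_inner_iff] at hv ⊢
    push_cast at hv ⊢
    omega
  · intro v hv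
    rw [mem_tr, XY.mem_box] at hv
    rw [mem_tr, mem_inner_iff]
    simp only [hp, Prod.fst_sub, Prod.snd_sub, zero_add] at hv ⊢
    push_cast at hv ⊢
    omega
  · intro v hv
    rw [mem_tr, XY.mem_box] at hv
    rw [mem_tr, mem_inner_iff]
    simp only [hq, Prod.fst_sub, Prod.snd_sub, zero_add] at hv ⊢
    push_cast at hv ⊢
    omega
  · rw [nm_sub_comm, e1, hv]
    omega

/-- plane versus the massless ratio of a path -/
theorem CT_sub_C (hb : 0 ≤ b) {D : ℕ} (hD : 4 ≤ D) {A : ℝ} (hA : 8 ≤ A) (hM : A * D ≤ M + 2)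
    {p q : V (M + 2)} {v1 v2 : ℤ} {L : ℕ} {η : Ed (M + 2) → ℤ}
    (h : H817.IsPath (N := M + 2) p q v1 v2 L η) (hv : XY.nm (v1, v2) = D) :
    |XY.C b (v1, v2) - CT (M + 2) b η| ≤ 16 * A ^ (-(1 / (16 * b + 1)) : ℝ) * ua b (D / 4) := by
  have hr' : (4 : ℝ) ≤ D := by exact_mod_cast hD
  have h8 : 8 * D ≤ M + 2 := by
    have : (8 : ℝ) * D ≤ M + 2 := by nlinarith
    exact_mod_cast this
  obtain ⟨P, Q, k1, k2, h1⟩ := C_sub_cT_gen (M := M) hb hD (by omega) hv
  rw [← CT_gen hb h k1 k2] at h1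
  refine h1.trans (mul_le_mul_of_nonneg_right ?_ (sq_nonneg _))
  set c : ℝ := 1 / (16 * b + 1) with hc
  have hc0 : 0 < c := by positivity
  have hc1 : c ≤ 1 := by
    rw [hc, div_le_one (by positivity)]
    linarith
  have e1 : Real.exp (c / 2) ≤ 2 := by
    have h2 : Real.exp (c / 2) ≤ Real.exp (1 / 2) := Real.exp_le_exp.2 (by linarith)
    have h3 : Real.exp (1 / 2) * Real.exp (1 / 2) = Real.exp 1 := by
      rw [← Real.exp_add]; norm_num
    have h4 := Real.exp_one_lt_d9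
    have h5 : 0 < Real.exp (1 / 2) := Real.exp_pos _
    nlinarith
  have e2 : A / 8 ≤ ((4 * D : ℕ) + (((M + 1 - 4 * D) / 2 : ℕ) : ℝ)) / (4 * D : ℕ) := by
    have h2 : M + 2 ≤ 2 * (4 * D + (M + 1 - 4 * D) / 2) := by omega
    have h3 : (M : ℝ) + 2 ≤ 2 * ((4 * D : ℕ) + (((M + 1 - 4 * D) / 2 : ℕ) : ℝ)) := by
      exact_mod_cast h2
    have h4 : (0 : ℝ) < (4 * D : ℕ) := by push_cast; linarith
    rw [div_le_div_iff₀ (by norm_num) h4]
    push_cast at h3 ⊢
    nlinarith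
  have e3 := Real.rpow_le_rpow_of_nonpos (by linarith : (0 : ℝ) < A / 8) e2
    (by linarith : -c ≤ 0)
  have e4 : (A / 8) ^ (-c) ≤ 8 * A ^ (-c) := by
    rw [Real.div_rpow (by linarith) (by norm_num), Real.rpow_neg (by norm_num : (0 : ℝ) ≤ 8),
      div_inv_eq_mul, mul_comm]
    refine mul_le_mul_of_nonneg_right ?_ (Real.rpow_nonneg (by linarith) _)
    calc (8 : ℝ) ^ c ≤ 8 ^ (1 : ℝ) := Real.rpow_le_rpow_of_exponent_le (by norm_num) hc1
      _ = 8 := Real.rpow_one 8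
  have e5 : 0 ≤ A ^ (-c) := Real.rpow_nonneg (by linarith) _
  calc Real.exp (c / 2) * (((4 * D : ℕ) + (((M + 1 - 4 * D) / 2 : ℕ) : ℝ)) / (4 * D : ℕ)) ^ (-c) ≤
        2 * (8 * A ^ (-c)) :=
        mul_le_mul e1 (e3.trans e4) (Real.rpow_nonneg (by positivity) _) (by norm_num)
    _ = _ := by ring

/-- the wired number at a comparable scale -/
lemma ua_far (hα0 : 0 ≤ α) (hα1 : α ≤ 1) (hC1 : 1 ≤ C1) (hb : 0 ≤ b) {R D : ℕ} (hR : 1 ≤ R)
    (hD : 4 ≤ D) (h : RecAt b α C1 R) {B : ℝ} (hB : 1 ≤ B) (hRD : (R : ℝ) ≤ B * D) :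
    ua b (D / 4) ≤ 7 * B * C1 * ga b R := by
  have hC0 : (0 : ℝ) ≤ C1 := by linarith
  have hR0 : (0 : ℝ) < R := by exact_mod_cast hR
  rcases le_total (D / 4) R with h1 | h1
  · have hq : 1 ≤ D / 4 := by omega
    have hq0 : (0 : ℝ) < ((D / 4 : ℕ) : ℝ) := by exact_mod_cast hq
    have hq7 : (D : ℝ) ≤ 7 * ((D / 4 : ℕ) : ℝ) := by
      have : D ≤ 7 * (D / 4) := by omega
      exact_mod_cast this
    have h2 := h.2 (D / 4) hq h1
    have h4 : (R : ℝ) / ((D / 4 : ℕ) : ℝ) ≤ 7 * B := by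
      rw [div_le_iff₀ hq0]
      nlinarith
    have h3 : ((R : ℝ) / ((D / 4 : ℕ) : ℝ)) ^ α ≤ 7 * B := by
      calc ((R : ℝ) / ((D / 4 : ℕ) : ℝ)) ^ α ≤ (7 * B) ^ α :=
            Real.rpow_le_rpow (by positivity) h4 hα0
        _ ≤ (7 * B) ^ (1 : ℝ) := Real.rpow_le_rpow_of_exponent_le (by linarith) hα1
        _ = 7 * B := Real.rpow_one _
    calc ua b (D / 4) ≤ C1 * ((R : ℝ) / ((D / 4 : ℕ) : ℝ)) ^ α * ga b R := h2
      _ ≤ C1 * (7 * B) * ga b R :=
          mul_le_mul_of_nonneg_right (mul_le_mul_of_nonneg_left h3 hC0) h.1.le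
      _ = _ := by ring
  · have h2 := h.2 R hR le_rfl
    rw [div_self hR0.ne', Real.one_rpow, mul_one] at h2
    calc ua b (D / 4) ≤ ua b R := ua_anti hb h1
      _ ≤ 1 * (C1 * ga b R) := by rw [one_mul]; exact h2
      _ ≤ (7 * B) * (C1 * ga b R) :=
          mul_le_mul_of_nonneg_right (by linarith) (mul_nonneg hC0 h.1.le)
      _ = _ := by ring

/-- **far pairs**: on every torus of side at least `A0 R`, every pair of cores at a distance
comparable with `R`, in any direction, has the massless ratio comparable with `ga b R` -/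
theorem far_CT (hb : 0 ≤ b) (hα0 : 0 ≤ α) (hα1 : α ≤ 1) (hC1 : 1 ≤ C1) {B : ℝ} (hB : 1 ≤ B) :
    ∃ A0 : ℝ, 8 ≤ A0 ∧ ∀ (M R L : ℕ) (p q : V (M + 2)) (v1 v2 : ℤ) (η : Ed (M + 2) → ℤ),
      H817.IsPath (N := M + 2) p q v1 v2 L η → 8 * B ≤ R → RecAt b α C1 R →
      (XY.nm (v1, v2) : ℝ) ≤ B * R → (R : ℝ) ≤ B * XY.nm (v1, v2) → A0 * R ≤ (M : ℝ) + 2 →
      (12 * C1) ^ (-(8 * B + 1)) / 2 * ga b R ≤ CT (M + 2) b η ∧
        CT (M + 2) b η ≤ 8 * B * C1 * ga b R := by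
  set c : ℝ := 1 / (16 * b + 1) with hc
  have hc0 : 0 < c := by positivity
  set k0 : ℝ := (12 * C1) ^ (-(8 * B + 1)) with hk0
  have hCp : (0 : ℝ) < 12 * C1 := by linarith
  have hk0p : 0 < k0 := Real.rpow_pos_of_pos hCp _
  have hk01 : k0 ≤ 1 := Real.rpow_le_one_of_one_le_of_nonpos (by linarith) (by linarith)
  have hlim : Tendsto (fun A : ℝ => A ^ (-c)) atTop (𝓝 0) := tendsto_rpow_neg_atTop hc0
  have hP : 0 < 16 * (7 * B * C1) := by positivity
  obtain ⟨A1, hA1⟩ := eventually_atTop.1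
    (hlim.eventually (Iio_mem_nhds (show (0 : ℝ) < k0 / 2 / (16 * (7 * B * C1)) by positivity)))
  refine ⟨B * max A1 8, ?_, ?_⟩
  · have : 8 ≤ max A1 8 := le_max_right _ _
    nlinarith
  intro M R L p q v1 v2 η h hR hrec hD1 hD2 hM
  have hA8 : (8 : ℝ) ≤ max A1 8 := le_max_right _ _
  have hAe := hA1 (max A1 8) (le_max_left _ _)
  have hAe' : (max A1 8) ^ (-c) < k0 / 2 / (16 * (7 * B * C1)) := hAe
  rw [lt_div_iff₀ hP] at hAe'
  set D : ℕ := XY.nm (v1, v2) with hD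
  have hB0 : (0 : ℝ) < B := by linarith
  have hD8 : (8 : ℝ) ≤ D := by
    by_contra hcon
    have h1 : B * (D : ℝ) < B * 8 := mul_lt_mul_of_pos_left (not_le.1 hcon) hB0
    linarith
  have hD8' : 8 ≤ D := by exact_mod_cast hD8
  have hR8 : (8 : ℝ) ≤ R := by nlinarith
  have hR8' : 8 ≤ R := by exact_mod_cast hR8
  have hgp := hrec.1
  have e1 := CT_sub_C (b := b) (M := M) (η := η) hb (D := D) (by omega) hA8
    (by
      calc max A1 8 * D ≤ max A1 8 * (B * R) :=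
            mul_le_mul_of_nonneg_left hD1 (by linarith)
        _ = B * max A1 8 * R := by ring
        _ ≤ _ := hM) h hD.symm
  have e2 := ua_far hα0 hα1 hC1 hb (by omega) (by omega : 4 ≤ D) hrec hB hD2
  have e3 : 16 * (max A1 8) ^ (-c) * ua b (D / 4) ≤ k0 / 2 * ga b R := by
    have h1 : 0 ≤ (max A1 8) ^ (-c) := Real.rpow_nonneg (by linarith) _
    calc 16 * (max A1 8) ^ (-c) * ua b (D / 4) ≤
        16 * (max A1 8) ^ (-c) * (7 * B * C1 * ga b R) :=
          mul_le_mul_of_nonneg_left e2 (by positivity)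
      _ = (max A1 8) ^ (-c) * (16 * (7 * B * C1)) * ga b R := by ring
      _ ≤ k0 / 2 * ga b R := mul_le_mul_of_nonneg_right hAe'.le hgp.le
  obtain ⟨l1, l2⟩ := abs_le.1 (e1.trans e3)
  -- lower bound of the plane
  have f1 := H686.RP.C_ge_axis hb (v1, v2)
  have f2 := ga_ext hb hα0 hα1 hC1 hR8' hrec (B := 2 * B) (by linarith) (n := 2 * D)
    (by push_cast; linarith)
  have f3 : k0 * ga b R ≤ XY.C b (v1, v2) := by
    have : (-(4 * (2 * B) + 1)) = -(8 * B + 1) := by ring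
    rw [this] at f2
    exact f2.trans f1
  -- upper bound of the plane
  have g1 : XY.C b (v1, v2) ≤ 7 * B * C1 * ga b R := by
    have h1 : ga b D ≤ ua b (D / 4) := ga_le_ua hb _ _ (by omega)
    exact ((H556.mms hb (v1, v2)).trans h1).trans e2
  have hBC : k0 / 2 ≤ B * C1 := by nlinarith
  constructor
  · linarith
  · nlinarith

end tor

end Vale.Agent.P159.H37.Fp
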