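import Vale.Agent.P159.H37.Lq2
import Vale.Agent.P159.H145.Lw3

/-!
P159 (helper37), S: the output of one level (145's `LvOutQ`) from the field `loc` and the size of the
weights on the tori of the window.
-/

open Filter Topology Finset Matrix MeasureTheory

set_option linter.all false

namespace Vale.Agent.P159.H37.Sf

open Vale.Agent.P159.TM.Spec (V)
open Vale.Agent.P159.TM.SpecC (wT)
open Vale.Agent.P159.H801 (SFlow)
open Vale.Agent.P159.H686 (Lcl Cmp Stp wdS)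
open Vale.Agent.P159.H708 (Bx WtOK)
open Vale.Agent.P159.H770 (wTD Ed)
open Vale.Agent.P159.H773 (sd nuF PsF cMn)
open Vale.Agent.P159.H817 (eD)
open Vale.Agent.P159.H972 (tn lg Par)
open Vale.Agent.P159.H145.Lw (LvOutQ LvQ)

noncomputable section

/-- the window radius `64 * 2 ^ (n + k / 16)` is admissible -/
lemma sf_D {P : Par} {b σ c c1 q2 qx : ℝ} {a y ε xs : ℕ → ℝ} {c' r q A : ℝ} {N : ℕ}
    (h : SFlow P b σ c c1 q2 qx a y ε xs c' r q A N) {ck : ℝ} (hck : 0 < ck) (hck1 : ck ≤ 1)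
    (m : ℕ) : ∀ᶠ n in atTop,
    ((2 ^ (n + kf ck y n / 16 + m) : ℕ) : ℝ) ≤ y n ^ (-(ck / 8)) * 2 ^ n := by
  filter_upwards [sf_big h (p := ck / 16) (M := 2 * 2 ^ m) (by positivity) (by positivity),
    eventually_ge_atTop N] with n hn hN
  have hy := h.fl.y0 n
  have hl0 := sf_lb0 h hN
  have h1 : (kf ck y n : ℝ) ≤ ck * Real.logb 2 (1 / y n) + 1 := lg_le (by positivity)
  have h2 : (2 : ℝ) ^ (ck / 16 * Real.logb 2 (1 / y n)) = y n ^ (-(ck / 16)) := by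
    rw [mul_comm, Real.rpow_mul two_pos.le, Real.rpow_logb two_pos (by norm_num) (by positivity),
      one_div, Real.inv_rpow hy.le, Real.rpow_neg hy.le]
  have h3 : (2 : ℝ) ^ (kf ck y n / 16) ≤ 2 * y n ^ (-(ck / 16)) := by
    have h4 : ((kf ck y n / 16 : ℕ) : ℝ) ≤ 1 + ck / 16 * Real.logb 2 (1 / y n) := by
      have h5 : 16 * ((kf ck y n / 16 : ℕ) : ℝ) ≤ kf ck y n := by
        have : 16 * (kf ck y n / 16) ≤ kf ck y n := by omega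
        exact_mod_cast this
      linarith
    calc (2 : ℝ) ^ (kf ck y n / 16) = (2 : ℝ) ^ (((kf ck y n / 16 : ℕ) : ℝ)) :=
          (Real.rpow_natCast _ _).symm
      _ ≤ 2 ^ (1 + ck / 16 * Real.logb 2 (1 / y n)) :=
          Real.rpow_le_rpow_of_exponent_le one_lt_two.le h4
      _ = 2 * y n ^ (-(ck / 16)) := by rw [Real.rpow_add two_pos, Real.rpow_one, h2]
  have h6 : y n ^ (-(ck / 8)) = y n ^ (-(ck / 16)) * y n ^ (-(ck / 16)) := by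
    rw [← Real.rpow_add hy]
    congr 1
    ring
  have h7 : (0 : ℝ) < y n ^ (-(ck / 16)) := Real.rpow_pos_of_pos hy _
  push_cast
  rw [pow_add, pow_add, h6]
  have h8 : (0 : ℝ) < 2 ^ n := by positivity
  have h9 : (0 : ℝ) < 2 ^ m := by positivity
  calc (2 : ℝ) ^ n * 2 ^ (kf ck y n / 16) * 2 ^ m ≤
        2 ^ n * (2 * y n ^ (-(ck / 16))) * 2 ^ m := by gcongr
    _ = y n ^ (-(ck / 16)) * (2 * 2 ^ m) * 2 ^ n := by ring
    _ ≤ y n ^ (-(ck / 16)) * y n ^ (-(ck / 16)) * 2 ^ n := by gcongr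

/-- **THE OUTPUT OF ONE LEVEL FROM THE FIELD `loc`** -/
theorem lvOutQ_ev {b1 : ℝ} (hb1 : 0 < b1) (b2 pf : ℝ) (Q : ℕ) :
    Vale.Agent.P159.H801.Ev b1 b2 pf Q fun P _ => ∀ {b σ c c1 q2 qx : ℝ} {a y ε xs : ℕ → ℝ}
      {c' r q A : ℝ} {N : ℕ},
      SFlow P b σ c c1 q2 qx a y ε xs c' r q A N → 0 < b → 0 < σ → σ ≤ 1 / 4 → 0 ≤ c →
      4 * c ≤ σ → ∀ ck : ℝ, 0 < ck → 2 * P.th ≤ ck → ck ≤ P.thp → ∀ c3 : ℝ, 0 < c3 →
      32 * c3 ≤ ck → ∀ c4 : ℝ, ∀ i : ℕ, 6 ≤ i → ∀ᶠ n in atTop,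
      ∀ (η : ∀ R, Ed (sd i R) → ℤ) (φ : ∀ R, V (sd i R) → ℝ) (D : ℕ), 1 ≤ D →
      (D : ℝ) ≤ y n ^ (-(ck / 8)) * 2 ^ n →
      ∀ ηw bw : ℝ, 0 ≤ ηw → ηw ≤ 1 / 4000 → bw ≤ Real.exp (-(4 * y n ^ (-c3))) →
      (∀ R, 2 ^ (n + kf ck y n) ≤ R → R ≤ 2 ^ (n + P.w (ε n) + kf ck y (n + P.w (ε n))) →
        WtOK b (tn n) ηw bw (sd i R)) →
      ∀ (G : (Bx D ⊕ Bx D → ℝ) → ℝ) (δ qq bb Λ : ℝ) (K : ℕ → Prop), 0 ≤ δ →
      δ ≤ y n ^ (1 + c4) → 0 ≤ qq → qq ≤ Real.exp (-y n ^ (-c3)) → 0 ≤ bb →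
      bb ≤ Real.exp (-y n ^ (-c3)) → 1 ≤ Λ → Λ ≤ Real.exp (y n ^ (-c3) / 8) →
      (∀ R, 2 ^ (n + kf ck y n) ≤ R → R ≤ 2 ^ (n + P.w (ε n) + kf ck y (n + P.w (ε n))) → K R →
        ∃ Gd : Set (V (sd i R) → ℝ),
        Lcl (nuF b (sd i) (tn n) R)
          (PsF b (sd i) (fun R => wTD (sd i R) b (η R)) φ (tn n) R)
          (cMn b (sd i) (fun R => wTD (sd i R) b (η R)) R)
          (cMn b (sd i) (fun R => wTD (sd i R) b (η R)) (2 ^ (n + kf ck y n)) *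
            Real.exp (-(a n / 2 * (eD (sd i R) R -
              eD (sd i (2 ^ (n + kf ck y n))) (2 ^ (n + kf ck y n))))))
          (wdS (sd i) D R (gS i n (n + P.w (ε n) + kf ck y (n + P.w (ε n))) R)) G Gd Λ δ qq bb) →
      LvOutQ b i η φ c3 c4 (y n) (a n) n (n + P.w (ε n)) (2 ^ (n + kf ck y n))
        (2 ^ (n + P.w (ε n) + kf ck y (n + P.w (ε n)))) K := by
  refine (cs_level hb1 b2 pf Q).mono fun P _ hAdm H => ?_
  intro b σ c c1 q2 qx a y ε xs c' r q A N h hb hσ0 hσ hc hc4 ck hck hck2 hck1 c3 hc3 hc3k c4 i hi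
  filter_upwards [H h hb hσ0 hσ hc hc4 ck hck hck2 hck1 c3 hc3 hc3k i hi,
    sf_win h hσ hck hck1 0] with n hn hwin
  intro η φ D hD1 hD ηw bw hηw0 hηw hbw hWt G δ qq bb Λ K hδ0 hδ hq0 hq hb0 hbb hΛ1 hΛ hloc
  obtain ⟨τ, κP, hτ0, hτ1, hκ0, hκ1, hcmp, hstp⟩ := hn
    (fun R => wTD (sd i R) b (η R)) φ (fun R => H883.bw_wTD hb _) D hD1 hD ηw bw hηw0 hηw hbw hWt
  have hy := h.fl.y0 n
  have hZ : 0 < y n ^ (-c3) := Real.rpow_pos_of_pos hy _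
  have hbw1 : bw ≤ Real.exp (-y n ^ (-c3)) :=
    hbw.trans (Real.exp_le_exp.2 (by linarith))
  have hbw0 : 0 ≤ bw := by
    obtain ⟨Bd, -, -, h3⟩ := hWt _ le_rfl (Nat.pow_le_pow_right (by norm_num) hwin.2.2.1)
    exact measureReal_nonneg.trans h3
  refine ⟨D, fun R => wdS (sd i) D R (gS i n (n + P.w (ε n) + kf ck y (n + P.w (ε n))) R), G, δ,
    qq, bb, Λ, 1 / 40, τ, ηw, κP, bw, ?_, ?_⟩
  · exact ⟨hδ0, hδ, hq0, hq, hb0, hbb, hΛ1, hΛ, by norm_num, le_rfl, hτ0, hτ1, hηw0,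
      by linarith, hκ0, hκ1, hbw0, hbw1⟩
  · exact ⟨fun R h1 h2 h3 => hloc R h1 h2 h3, fun R h1 h2 _ => hcmp R h1 h2, fun _ => hstp⟩

end

end Vale.Agent.P159.H37.Sf
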