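import Vale.Agent.P159.H37.Lq1
import Vale.Agent.P159.H859.Idl4

/-!
P159 (helper37), S: the fields `cmp` and `stp` of one level along the flow, windows shifted by the
ideal corrections `gsR`; the only input is the size of the weights on the tori of the window.
-/

open Filter Topology Finset Matrix MeasureTheory

set_option linter.all false

namespace Vale.Agent.P159.H37.Sf

open Vale.Agent.P159.TM.Spec (V)
open Vale.Agent.P159.TM.SpecC (wT)
open Vale.Agent.P159.H801 (SFlow)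
open Vale.Agent.P159.H864 (yt)
open Vale.Agent.P159.H686 (Cmp Stp wdS)
open Vale.Agent.P159.H708 (Bx WtOK cmp_lvl)
open Vale.Agent.P159.H773 (sd nuF PsF cMn)
open Vale.Agent.P159.H883 (BW)
open Vale.Agent.P159.H859.Idl (gsR Prm rhoS rhoS_pow s0 s0_pos qf_gsR)
open Vale.Agent.P159.H972 (tn lg Par Good YBn FL)

noncomputable section

/-- the ideal correction of the pair `R` in the window with the base exponents `n`, top `2 ^ K1` -/
def gS (i n K1 : ℕ) (R : ℕ) : V (sd i R) → ℝ :=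
  gsR (sd i R) (sd i (2 ^ K1)) (2 ^ K1) (2 ^ (n + 3 * (Nat.log 2 R - n) / 4)) R

lemma rpow_le_two_pow {y c : ℝ} (hy : 0 < y) : y ^ (-c) ≤ 2 ^ (lg c y) := by
  have h1 := le_lg c y
  have h2 : (2 : ℝ) ^ (c * Real.logb 2 (1 / y)) = y ^ (-c) := by
    rw [mul_comm, Real.rpow_mul two_pos.le, Real.rpow_logb two_pos (by norm_num) (by positivity),
      one_div, Real.inv_rpow hy.le, Real.rpow_neg hy.le]
  rw [← h2, ← Real.rpow_natCast]
  exact Real.rpow_le_rpow_of_exponent_le one_lt_two.le h1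

/-- the size of the shifts of the window -/
def rhoK (K : ℕ) : ℝ := 140 * √(s0 * (1 / 2) ^ (K / 4))

lemma rhoK_pos (K : ℕ) : 0 < rhoK K := by
  have := s0_pos
  unfold rhoK
  positivity

lemma rhoK_sq (K : ℕ) : rhoK K ^ 2 = 19600 * (s0 * (1 / 2) ^ (K / 4)) := by
  have := s0_pos
  unfold rhoK
  rw [mul_pow, Real.sq_sqrt (by positivity)]
  norm_num

lemma prm_of {i n k K1 R : ℕ} (hi : 6 ≤ i) (hk : 32 ≤ k) (h1 : 2 ^ (n + k) ≤ R)
    (h2 : R ≤ 2 ^ K1) : Prm (sd i R) (sd i (2 ^ K1)) (2 ^ (n + 3 * (Nat.log 2 R - n) / 4)) R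
      (2 ^ K1) := by
  have hR0 : R ≠ 0 := by
    have : 0 < 2 ^ (n + k) := by positivity
    omega
  have hj : n + k ≤ Nat.log 2 R := (Nat.le_log_iff_pow_le one_lt_two hR0).2 h1
  obtain ⟨j, hj'⟩ : ∃ j, Nat.log 2 R = n + j := ⟨Nat.log 2 R - n, by omega⟩
  have hjk : k ≤ j := by omega
  have e : Nat.log 2 R - n = j := by omega
  rw [e]
  have hlogR : 2 ^ (n + j) ≤ R := by
    rw [← hj']
    exact Nat.pow_log_le_self 2 hR0
  have h64 : 64 ≤ 2 ^ i := by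
    calc 64 = 2 ^ 6 := by norm_num
      _ ≤ 2 ^ i := Nat.pow_le_pow_right (by norm_num) hi
  refine ⟨?_, ?_, ?_, ?_, ?_⟩
  · calc 4 = 2 ^ 2 := by norm_num
      _ ≤ 2 ^ (n + 3 * j / 4) := Nat.pow_le_pow_right (by norm_num) (by omega)
  · refine le_trans ?_ hlogR
    calc 256 * 2 ^ (n + 3 * j / 4) = 2 ^ (8 + (n + 3 * j / 4)) := by rw [pow_add 2 8]; norm_num
      _ ≤ 2 ^ (n + j) := Nat.pow_le_pow_right (by norm_num) (by omega)
  · exact (Nat.mul_le_mul_right R h64).trans (H773.sd_ge i R)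
  · exact (Nat.mul_le_mul_right _ h64).trans (H773.sd_ge i _)
  · omega

/-- the size of the shift of every pair of the window -/
lemma rhoS_le {n k R : ℕ} (h1 : 2 ^ (n + k) ≤ R) :
    rhoS (2 ^ (n + 3 * (Nat.log 2 R - n) / 4)) R ^ 4 ≤ rhoK k ^ 4 := by
  have hs0 := s0_pos
  have hR0 : R ≠ 0 := by
    have : 0 < 2 ^ (n + k) := by positivity
    omega
  have hj : n + k ≤ Nat.log 2 R := (Nat.le_log_iff_pow_le one_lt_two hR0).2 h1
  obtain ⟨j, hj'⟩ : ∃ j, Nat.log 2 R = n + j := ⟨Nat.log 2 R - n, by omega⟩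
  have hjk : k ≤ j := by omega
  have e : Nat.log 2 R - n = j := by omega
  rw [e]
  have hlogR : 2 ^ (n + j) ≤ R := by
    rw [← hj']
    exact Nat.pow_log_le_self 2 hR0
  have hRp : (0 : ℝ) < R := by
    have : 0 < R := by omega
    exact_mod_cast this
  have h2 : (((2 ^ (n + 3 * j / 4) : ℕ)) : ℝ) / R ≤ (1 / 2) ^ (k / 4) := by
    rw [div_le_iff₀ hRp]
    have h3 : (2 : ℝ) ^ (n + j) ≤ R := by exact_mod_cast hlogR
    have h4 : (2 : ℝ) ^ (n + 3 * j / 4) * 2 ^ (k / 4) ≤ 2 ^ (n + j) := by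
      rw [← pow_add]
      exact pow_le_pow_right₀ one_lt_two.le (by omega)
    have h5 : (0 : ℝ) < 2 ^ (k / 4) := by positivity
    have h6 : ((1 : ℝ) / 2) ^ (k / 4) * R = R / 2 ^ (k / 4) := by
      rw [one_div, inv_pow]
      field_simp
    rw [h6, le_div_iff₀ h5]
    push_cast
    linarith
  have h0 : 0 ≤ (((2 ^ (n + 3 * j / 4) : ℕ)) : ℝ) / R := by positivity
  rw [rhoS_pow]
  have h3 : rhoK k ^ 4 = 384160000 * (s0 ^ 2 * (((1 : ℝ) / 2) ^ (k / 4)) ^ 2) := by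
    have : rhoK k ^ 4 = (rhoK k ^ 2) ^ 2 := by ring
    rw [this, rhoK_sq]
    ring
  rw [h3]
  have h4 := pow_le_pow_left₀ h0 h2 2
  have h5 : 0 ≤ s0 ^ 2 := sq_nonneg _
  nlinarith [mul_le_mul_of_nonneg_left h4 h5]

lemma FL_cast {N M : ℕ} [NeZero N] [NeZero M] {b t a η : ℝ} (h : N = M) (hF : FL b t a η N) :
    FL b t a η M := by
  subst h
  exact hF

/-- numbers of `τ` -/
lemma tau_num {Z X Y bb : ℝ} (hZ : 10 ≤ Z) (hbb : bb ≤ Real.exp (-(4 * Z))) (hX : Z + 7 ≤ X)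
    (hY : Z + 2 ≤ Y) :
    32 * bb + 48 * Real.exp (1 - X) + 2 * Real.exp (-Y) ≤ Real.exp (-Z) := by
  have hz := Real.exp_pos (-Z)
  have e1 : Real.exp (-(4 * Z)) ≤ Real.exp (-Z) / 128 := by
    have h1 : Real.exp (-(4 * Z)) = Real.exp (-Z) * Real.exp (-(3 * Z)) := by
      rw [← Real.exp_add]; congr 1; ring
    have h2 : Real.exp (-(3 * Z)) ≤ Real.exp (-5) := Real.exp_le_exp.2 (by linarith)
    have h3 : Real.exp (-5) ≤ 1 / 128 := by
      rw [Real.exp_neg, inv_eq_one_div]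
      refine one_div_le_one_div_of_le (by norm_num) ?_
      have h4 : Real.exp 5 = Real.exp 1 ^ 5 := by rw [← Real.exp_nat_mul]; norm_num
      rw [h4]
      have h5 := Real.exp_one_gt_d9
      calc (128 : ℝ) ≤ 2.7 ^ 5 := by norm_num
        _ ≤ Real.exp 1 ^ 5 := pow_le_pow_left₀ (by norm_num) (by linarith) 5
    rw [h1]
    nlinarith
  have e2 : Real.exp (1 - X) ≤ Real.exp (-Z) / 192 := by
    have h1 : Real.exp (1 - X) ≤ Real.exp (-Z) * Real.exp (-6) := by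
      rw [← Real.exp_add]; exact Real.exp_le_exp.2 (by linarith)
    have h3 : Real.exp (-6) ≤ 1 / 192 := by
      rw [Real.exp_neg, inv_eq_one_div]
      refine one_div_le_one_div_of_le (by norm_num) ?_
      have h4 : Real.exp 6 = Real.exp 1 ^ 6 := by rw [← Real.exp_nat_mul]; norm_num
      rw [h4]
      have h5 := Real.exp_one_gt_d9
      calc (192 : ℝ) ≤ 2.7 ^ 6 := by norm_num
        _ ≤ Real.exp 1 ^ 6 := pow_le_pow_left₀ (by norm_num) (by linarith) 6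
    nlinarith
  have e3 : Real.exp (-Y) ≤ Real.exp (-Z) / 4 := by
    have h1 : Real.exp (-Y) ≤ Real.exp (-Z) * Real.exp (-2) := by
      rw [← Real.exp_add]; exact Real.exp_le_exp.2 (by linarith)
    have h3 : Real.exp (-2) ≤ 1 / 4 := by
      rw [Real.exp_neg, inv_eq_one_div]
      refine one_div_le_one_div_of_le (by norm_num) ?_
      have h4 : Real.exp 2 = Real.exp 1 ^ 2 := by rw [← Real.exp_nat_mul]; norm_num
      rw [h4]
      have h5 := Real.exp_one_gt_d9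
      calc (4 : ℝ) ≤ 2.7 ^ 2 := by norm_num
        _ ≤ Real.exp 1 ^ 2 := pow_le_pow_left₀ (by norm_num) (by linarith) 2
    nlinarith
  linarith

section flow

variable {P : Par} {b σ c c1 q2 qx : ℝ} {a y ε xs : ℕ → ℝ} {c' r q A : ℝ} {N : ℕ}

/-- powers: `y^(-p)` is eventually larger than every constant -/
lemma sf_big (h : SFlow P b σ c c1 q2 qx a y ε xs c' r q A N) {p M : ℝ} (hp : 0 < p) (hM : 0 < M) :
    ∀ᶠ n in atTop, M ≤ y n ^ (-p) := by
  filter_upwards [h.fl.ev_pow hp (e := 1 / M) (by positivity)] with n hn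
  have hy := h.fl.y0 n
  have h1 : 0 < y n ^ p := Real.rpow_pos_of_pos hy _
  rw [Real.rpow_neg hy.le, ← one_div, le_div_iff₀ h1]
  rw [le_div_iff₀ hM] at hn
  linarith

lemma sf_ey (h : SFlow P b σ c c1 q2 qx a y ε xs c' r q A N) (hσ : σ ≤ 1 / 4) {n : ℕ}
    (hn : N ≤ n) : ε n ≤ y n := by
  refine (h.up n hn).trans ?_
  calc y n ^ (2 - 3 * σ) ≤ y n ^ (1 : ℝ) :=
        Real.rpow_le_rpow_of_exponent_ge (h.fl.y0 n) (h.y1 n hn) (by linarith)
    _ = y n := Real.rpow_one _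

/-- negative powers of `ε` and `y` -/
lemma sf_neg (h : SFlow P b σ c c1 q2 qx a y ε xs c' r q A N) (hσ : σ ≤ 1 / 4) {n : ℕ}
    (hn : N ≤ n) {p : ℝ} (hp : 0 ≤ p) : y n ^ (-p) ≤ ε n ^ (-p) :=
  Real.rpow_le_rpow_of_nonpos (sf_eps h hn) (sf_ey h hσ hn) (by linarith)

lemma sf_neg2 (h : SFlow P b σ c c1 q2 qx a y ε xs c' r q A N) (hσ0 : 0 ≤ σ) {n : ℕ}
    (hn : N ≤ n) {p : ℝ} (hp : 0 ≤ p) : ε n ^ (-p) ≤ y n ^ (-(2 * p)) := by
  have hy := h.fl.y0 n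
  have h1 : y n ^ (2 : ℝ) ≤ ε n :=
    (Real.rpow_le_rpow_of_exponent_ge hy (h.y1 n hn) (by linarith)).trans (h.lo n hn)
  have h2 := Real.rpow_le_rpow_of_nonpos (Real.rpow_pos_of_pos hy 2) h1 (by linarith : -p ≤ 0)
  rw [← Real.rpow_mul hy.le] at h2
  have e : (2 : ℝ) * -p = -(2 * p) := by ring
  rwa [e] at h2

lemma sf_e0 (h : SFlow P b σ c c1 q2 qx a y ε xs c' r q A N) (hσ : σ ≤ 1 / 4) {E : ℝ} (hE : 0 < E) :
    ∀ᶠ n in atTop, ε n ≤ E := by
  filter_upwards [h.fl.ev_pow one_pos hE, eventually_ge_atTop N] with n h1 hn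
  rw [Real.rpow_one] at h1
  exact (sf_ey h hσ hn).trans h1

/-- flatness on the tori of the window -/
lemma sf_FL (h : SFlow P b σ c c1 q2 qx a y ε xs c' r q A N) (hA : P.Adm) (hσ : σ ≤ 1 / 4) :
    ∀ᶠ n in atTop, a n ≤ 2 ∧ 17 * ε n ^ P.pf ≤ 1 ∧
      ∀ r, P.TT n (ε n) r → FL b (tn n) (a n) (17 * ε n ^ P.pf) (2 ^ r) := by
  have hπ := Real.pi_lt_four
  have h1 := h.lim.eventually (gt_mem_nhds (show Real.pi / 2 < 2 by linarith))
  filter_upwards [h1, sf_e0 h hσ (E := (1 / 17) ^ (1 / P.pf)) (by positivity),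
    eventually_ge_atTop N] with n g1 g2 hn
  have hε := sf_eps h hn
  refine ⟨g1.le, ?_, fun r hr => h.flc n (ε n) hε (h.es n hn) (h.good n hn) (ε n) le_rfl
    (h.es n hn) r hr⟩
  have h2 := Real.rpow_le_rpow hε.le g2 hA.pf0.le
  rw [← Real.rpow_mul (by norm_num), one_div_mul_cancel hA.pf0.ne', Real.rpow_one] at h2
  linarith

/-- **sizes of the window** -/
lemma sf_win (h : SFlow P b σ c c1 q2 qx a y ε xs c' r q A N) (hσ : σ ≤ 1 / 4)
    {ck : ℝ} (hck : 0 < ck) (hck1 : ck ≤ P.thp) (w0 : ℕ) : ∀ᶠ n in atTop,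
    32 ≤ kf ck y n ∧ w0 ≤ P.w (ε n) ∧
    n + kf ck y n ≤ n + P.w (ε n) + kf ck y (n + P.w (ε n)) ∧
    (4 * (lg (ck / 8) (y n) : ℝ) ≤ (2 - 1) * (P.w (ε n) : ℝ)) ∧
    2 * y n ^ (-(ck / 8)) < 2 ^ kf ck y n := by
  have hth := P.thp0
  have h1 := (lb_tend h.fl.y0 h.fl.yt).eventually_ge_atTop (32 / ck)
  have h2 := (sf_wt h hσ).eventually_ge_atTop (max w0 1)
  filter_upwards [h1, h2, (sf_k1 h hck).1, sf_big h (p := ck / 8) (M := 3) (by positivity)
    (by norm_num), eventually_ge_atTop N] with n g1 g2 g3 g4 hn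
  have hy := h.fl.y0 n
  have hl0 := sf_lb0 h hn
  have hL : 32 ≤ ck * Real.logb 2 (1 / y n) := by
    have := mul_le_mul_of_nonneg_left g1 hck.le
    rwa [mul_div_cancel₀ _ hck.ne'] at this
  refine ⟨?_, (le_max_left _ _).trans g2, ?_, ?_, ?_⟩
  · have := le_lg ck (y n)
    have h3 : (32 : ℝ) ≤ (kf ck y n : ℝ) := hL.trans this
    exact_mod_cast h3
  · have h3 := (le_max_right w0 1).trans g2
    omega
  · have h3 : (lg (ck / 8) (y n) : ℝ) ≤ ck / 8 * Real.logb 2 (1 / y n) + 1 :=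
      lg_le (by positivity)
    have h4 := sf_w h hσ hn
    have h5 : ck * Real.logb 2 (1 / y n) ≤ P.thp * Real.logb 2 (1 / y n) :=
      mul_le_mul_of_nonneg_right hck1 hl0
    have h6 : P.thp * (5 / 4 * Real.logb 2 (1 / y n)) ≤
        P.thp * ((2 - 3 * σ) * Real.logb 2 (1 / y n)) :=
      mul_le_mul_of_nonneg_left (mul_le_mul_of_nonneg_right (by linarith) hl0) hth.le
    nlinarith
  · have h3 := rpow_le_two_pow (c := ck) hy
    have h4 : y n ^ (-ck) = y n ^ (-(ck / 8)) * y n ^ (-(7 * ck / 8)) := by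
      rw [← Real.rpow_add hy]
      congr 1
      ring
    have h5 : y n ^ (-(ck / 8)) ≤ y n ^ (-(7 * ck / 8)) :=
      Real.rpow_le_rpow_of_exponent_ge hy (h.y1 n hn) (by linarith)
    have h6 : (0 : ℝ) < y n ^ (-(ck / 8)) := Real.rpow_pos_of_pos hy _
    have h7 : 2 * y n ^ (-(ck / 8)) < y n ^ (-(ck / 8)) * y n ^ (-(7 * ck / 8)) := by
      nlinarith
    calc 2 * y n ^ (-(ck / 8)) < y n ^ (-ck) := by rw [h4]; exact h7
      _ ≤ _ := h3

end flow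

/-- **THE FIELDS `cmp` AND `stp` OF ONE LEVEL** -/
theorem cs_level {b1 : ℝ} (hb1 : 0 < b1) (b2 pf : ℝ) (Q : ℕ) :
    Vale.Agent.P159.H801.Ev b1 b2 pf Q fun P _ => ∀ {b σ c c1 q2 qx : ℝ} {a y ε xs : ℕ → ℝ} {c' r q A : ℝ} {N : ℕ},
      SFlow P b σ c c1 q2 qx a y ε xs c' r q A N → 0 < b → 0 < σ → σ ≤ 1 / 4 → 0 ≤ c →
      4 * c ≤ σ → ∀ ck : ℝ, 0 < ck → 2 * P.th ≤ ck → ck ≤ P.thp → ∀ c3 : ℝ, 0 < c3 →
      32 * c3 ≤ ck → ∀ i : ℕ, 6 ≤ i → ∀ᶠ n in atTop,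
      ∀ (wD : ∀ R, (V (sd i R) → ℤ) → ℝ) (φ : ∀ R, V (sd i R) → ℝ), (∀ R, BW (wD R)) →
      ∀ D : ℕ, 1 ≤ D → (D : ℝ) ≤ y n ^ (-(ck / 8)) * 2 ^ n →
      ∀ η bb : ℝ, 0 ≤ η → η ≤ 1 / 4000 → bb ≤ Real.exp (-(4 * y n ^ (-c3))) →
      (∀ R, 2 ^ (n + kf ck y n) ≤ R → R ≤ 2 ^ (n + P.w (ε n) + kf ck y (n + P.w (ε n))) →
        WtOK b (tn n) η bb (sd i R)) →
      ∃ τ κP : ℝ, 0 ≤ τ ∧ τ ≤ Real.exp (-y n ^ (-c3)) ∧ 0 ≤ κP ∧ κP ≤ 1 / 30 ∧
      (∀ R, 2 ^ (n + kf ck y n) ≤ R → R ≤ 2 ^ (n + P.w (ε n) + kf ck y (n + P.w (ε n))) →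
        Cmp (nuF b (sd i) (tn n) (2 ^ (n + kf ck y n))) (nuF b (sd i) (tn n) R)
          (wdS (sd i) D (2 ^ (n + kf ck y n))
            (gS i n (n + P.w (ε n) + kf ck y (n + P.w (ε n))) (2 ^ (n + kf ck y n))))
          (wdS (sd i) D R (gS i n (n + P.w (ε n) + kf ck y (n + P.w (ε n))) R)) (1 / 40) τ) ∧
      Stp (nuF b (sd i) (tn n) (2 ^ (n + P.w (ε n) + kf ck y (n + P.w (ε n)))))
        (nuF b (sd i) (tn (n + P.w (ε n))) (2 ^ (n + P.w (ε n) + kf ck y (n + P.w (ε n)))))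
        (PsF b (sd i) wD φ (tn n) (2 ^ (n + P.w (ε n) + kf ck y (n + P.w (ε n)))))
        (PsF b (sd i) wD φ (tn (n + P.w (ε n)))
          (2 ^ (n + P.w (ε n) + kf ck y (n + P.w (ε n)))))
        (cMn b (sd i) wD (2 ^ (n + P.w (ε n) + kf ck y (n + P.w (ε n)))))
        (wdS (sd i) D (2 ^ (n + P.w (ε n) + kf ck y (n + P.w (ε n))))
          (gS i n (n + P.w (ε n) + kf ck y (n + P.w (ε n)))
            (2 ^ (n + P.w (ε n) + kf ck y (n + P.w (ε n)))))) κP η bb := by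
  refine (cmp_lvl hb1 b2 pf Q).mono fun P _ hAdm hP => ?_
  obtain ⟨-, H⟩ := hP
  intro b σ c c1 q2 qx a y ε xs c' r q A N h hb hσ0 hσ hc hc4 ck hck hck2 hck1 c3 hc3 hc3k i hi
  have hthp1 : P.thp ≤ 1 / 96 := by
    have := hAdm.hx
    have := hAdm.x11
    have := P.th0
    linarith
  obtain ⟨E0, hE0, H0⟩ := H (1 / b) (ck / 8) (ck / 8) (ck / 2) (by positivity) (by positivity)
    (by positivity) (by linarith) (by linarith)
  obtain ⟨w0, hw0, HS⟩ := stp_lv hb one_pos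
  have hs0 := s0_pos
  filter_upwards [sf_sz h hAdm hσ0 hσ hc hc4 hck hck1 hck2 (show 1 ≤ i by omega),
    sf_FL h hAdm hσ, sf_win h hσ hck hck1 w0, sf_e0 h hσ hE0,
    sf_big h hc3 (M := 10) (by norm_num),
    sf_big h (p := ck / 4 - c3) (M := 156800 * s0) (by linarith) (by positivity),
    sf_big h (p := ck / 4) (M := 78400 * s0 * 25920000) (by linarith) (by positivity)]
    with n hsz hfl hwin hE hZ10 hX1 hX2
  obtain ⟨hn, hε, hes, hG, hne, hY2, hR⟩ := hsz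
  obtain ⟨ha2, hη17, hFL⟩ := hfl
  obtain ⟨hk32, hww, hK01, hkd, hD2⟩ := hwin
  intro wD φ hbw D hD1 hD η bb hη0 hη hbb hWt
  have hy := h.fl.y0 n
  have hy1 := h.y1 n hn
  set w : ℕ := P.w (ε n) with hw
  set k : ℕ := kf ck y n with hk
  set K1 : ℕ := n + w + kf ck y (n + w) with hK1
  set Z : ℝ := y n ^ (-c3) with hZ
  have hZ0 : 0 < Z := by linarith
  have hsd : ∀ R, sd i R = 2 ^ (i + Nat.clog 2 R) := fun R => by
    unfold sd
    rw [pow_add]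
  have hR01 : 2 ^ (n + k) ≤ 2 ^ K1 := Nat.pow_le_pow_right (by norm_num) hK01
  have hFLsd : ∀ R, 2 ^ (n + k) ≤ R → R ≤ 2 ^ K1 →
      FL b (tn n) (a n) (17 * ε n ^ P.pf) (sd i R) := by
    intro R h1 h2
    exact FL_cast (hsd R).symm (hFL _ (hR R h1 h2).1)
  -- the shifts
  have hqf : ∀ R, 2 ^ (n + k) ≤ R → R ≤ 2 ^ K1 → H37.qf (H963.An (wT b (sd i R))
      (tn n • (1 : Matrix (V (sd i R)) (V (sd i R)) ℝ)) (tn n) 0) (gS i n K1 R) ≤ rhoK k ^ 4 := by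
    intro R h1 h2
    refine le_trans ?_ (rhoS_le h1)
    exact qf_gsR (prm_of hi hk32 h1 h2) hb (H972.tn_pos n) (hFLsd R h1 h2) ha2 hη17
  have hρ2 : 1 / (2 * rhoK k ^ 2) = 2 ^ (k / 4) / (39200 * s0) := by
    rw [rhoK_sq, _root_.one_div_pow]
    field_simp
    ring
  have hk4 : y n ^ (-(ck / 4)) ≤ 2 * 2 ^ (k / 4) := by
    have h1 := le_lg ck (y n)
    have h2 : (2 : ℝ) ^ (ck / 4 * Real.logb 2 (1 / y n)) = y n ^ (-(ck / 4)) := by
      rw [mul_comm, Real.rpow_mul two_pos.le, Real.rpow_logb two_pos (by norm_num) (by positivity),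
        one_div, Real.inv_rpow hy.le, Real.rpow_neg hy.le]
    have h3 : ck / 4 * Real.logb 2 (1 / y n) ≤ ((1 + k / 4 : ℕ) : ℝ) := by
      have h4 : (k : ℝ) ≤ 4 * ((1 + k / 4 : ℕ) : ℝ) := by
        have : k ≤ 4 * (1 + k / 4) := by omega
        exact_mod_cast this
      have h5 : ck * Real.logb 2 (1 / y n) ≤ k := h1
      linarith
    rw [← h2]
    calc (2 : ℝ) ^ (ck / 4 * Real.logb 2 (1 / y n)) ≤ (2 : ℝ) ^ (((1 + k / 4 : ℕ) : ℝ)) :=
          Real.rpow_le_rpow_of_exponent_le one_lt_two.le h3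
      _ = 2 ^ (1 + k / 4) := Real.rpow_natCast _ _
      _ = 2 * 2 ^ (k / 4) := by rw [pow_add, pow_one]
  have hX : Z + 7 ≤ 1 / (2 * rhoK k ^ 2) := by
    rw [hρ2, le_div_iff₀ (by positivity)]
    have h1 : y n ^ (-(ck / 4)) = y n ^ (-(ck / 4 - c3)) * Z := by
      rw [hZ, ← Real.rpow_add hy]
      congr 1
      ring
    have h2 : 156800 * s0 * Z ≤ y n ^ (-(ck / 4)) := by
      rw [h1]
      exact mul_le_mul_of_nonneg_right hX1 hZ0.le
    have h3 : (Z + 7) * (39200 * s0) ≤ 2 * Z * (39200 * s0) :=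
      mul_le_mul_of_nonneg_right (by linarith) (by positivity)
    linarith
  have hρ1 : rhoK k ≤ 1 / 7200 := by
    have h1 : 25920000 ≤ 1 / (2 * rhoK k ^ 2) := by
      rw [hρ2, le_div_iff₀ (by positivity)]
      linarith
    have h2 := rhoK_pos k
    rw [le_div_iff₀ (by positivity)] at h1
    by_contra hcon
    have h3 : 1 / 7200 < rhoK k := not_le.1 hcon
    have h4 : (1 / 7200 : ℝ) ^ 2 < rhoK k ^ 2 := pow_lt_pow_left₀ h3 (by norm_num) two_ne_zero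
    norm_num at h4
    linarith
  have hY : Z + 2 ≤ ε n ^ (-(ck / 8 / 2)) := by
    have h1 := sf_neg h hσ hn (p := ck / 8 / 2) (by positivity)
    refine le_trans ?_ h1
    have h2 : y n ^ (-(2 * c3)) ≤ y n ^ (-(ck / 8 / 2)) :=
      Real.rpow_le_rpow_of_exponent_ge hy hy1 (by linarith)
    have h3 : y n ^ (-(2 * c3)) = Z * Z := by
      rw [hZ, ← Real.rpow_add hy]
      congr 1
      ring
    rw [h3] at h2
    nlinarith
  have hbb1 : bb ≤ 1 / 5000 := by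
    refine hbb.trans ?_
    have h1 : Real.exp (-(4 * Z)) ≤ Real.exp (-40) := Real.exp_le_exp.2 (by linarith)
    have h2 : Real.exp (-40) ≤ 1 / 5000 := by
      rw [Real.exp_neg, inv_eq_one_div]
      refine one_div_le_one_div_of_le (by norm_num) ?_
      have h4 : Real.exp 40 = Real.exp 1 ^ 40 := by rw [← Real.exp_nat_mul]; norm_num
      rw [h4]
      have h5 := Real.exp_one_gt_d9
      calc (5000 : ℝ) ≤ 2.7 ^ 40 := by norm_num
        _ ≤ Real.exp 1 ^ 40 := pow_le_pow_left₀ (by norm_num) (by linarith) 40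
    linarith
  have hbb0 : 0 ≤ bb := by
    obtain ⟨Bd, -, -, h3⟩ := hWt (2 ^ (n + k)) le_rfl hR01
    exact measureReal_nonneg.trans h3
  -- the field `cmp`
  have hcmp := H0 b i n (2 ^ (n + k)) (2 ^ K1) D (ε n) (ε n ^ (-c) * y n) η bb (rhoK k)
    (gS i n K1) hb hε hE hes hG hne hY2 (by omega) hR01
    (by
      refine hD.trans (mul_le_mul_of_nonneg_right ?_ (by positivity))
      exact sf_neg h hσ hn (by positivity))
    (by
      push_cast
      rw [pow_add, mul_comm]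
      refine mul_le_mul_of_nonneg_left ?_ (by positivity)
      have h1 := sf_neg2 h hσ0.le hn (p := ck / 2) (by positivity)
      have e : -(2 * (ck / 2)) = -ck := by ring
      rw [e] at h1
      exact h1.trans (rpow_le_two_pow hy))
    hη0 (by linarith) (rhoK_pos k) hρ1 (fun R h1 h2 => (hR R h1 h2).1)
    (fun R h1 h2 => (hR R h1 h2).2) (fun R _ _ => dom_Anm' hb (H972.tn_pos n)) hWt hqf
  -- the field `stp`
  obtain ⟨Bd, m1, m2, m3⟩ := hWt (2 ^ K1) hR01 le_rfl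
  obtain ⟨κP, hκ0, hκ1, hstp⟩ := HS i n w D (lg (ck / 8) (y n)) (2 ^ K1) (by omega) hww
    (by
      have h1 : (D : ℝ) ≤ ((2 ^ (n + lg (ck / 8) (y n)) : ℕ) : ℝ) := by
        push_cast
        rw [pow_add, mul_comm]
        exact hD.trans (mul_le_mul_of_nonneg_right (rpow_le_two_pow hy) (by positivity))
      exact_mod_cast h1)
    hkd hD1
    (by
      have h1 : (2 : ℝ) * D < ((2 ^ (n + k) : ℕ) : ℝ) := by
        push_cast
        rw [pow_add]
        have h2 : (0 : ℝ) < 2 ^ n := by positivity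
        calc (2 : ℝ) * D ≤ 2 ^ n * (2 * y n ^ (-(ck / 8))) := by linarith
          _ < 2 ^ n * 2 ^ k := mul_lt_mul_of_pos_left hD2 h2
      have h2 : 2 * D < 2 ^ (n + k) := by exact_mod_cast h1
      exact h2.trans_le hR01)
    wD φ hbw Bd m1 η bb hη0 m2 m3 (gS i n K1 (2 ^ K1))
  refine ⟨32 * bb + 48 * Real.exp (1 - 1 / (2 * rhoK k ^ 2)) +
    2 * Real.exp (-(ε n ^ (-(ck / 8 / 2)))), κP, ?_, tau_num hZ10 hbb hX hY, hκ0, hκ1, hcmp, hstp⟩
  have g1 := Real.exp_pos (1 - 1 / (2 * rhoK k ^ 2))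
  have g2 := Real.exp_pos (-(ε n ^ (-(ck / 8 / 2))))
  positivity

end

end Vale.Agent.P159.H37.Sf
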