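import Vale.Agent.P159.H37.Lq4

/-!
P159 (helper37), S, the last glue, part 2: the eight fields of a pair, each as one statement along
the flow (`Win`), give `PairFam`; the form of the hypothesis of 801's `final0`.
-/

open Filter Topology Finset Matrix MeasureTheory

set_option linter.all false

namespace Vale.Agent.P159.H37.Sf

open Vale.Agent.P159.TM.Spec (V)
open Vale.Agent.P159.H801 (SFlow itw itw_ge)
open Vale.Agent.P159.H708 (Bx WtOK)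
open Vale.Agent.P159.H770 (wTD Ed)
open Vale.Agent.P159.H773 (sd nuF PsF cMn Pth)
open Vale.Agent.P159.H817 (eD Dec)
open Vale.Agent.P159.H972 (tn lg Par)
open Vale.Agent.P159.H145.Lw (LvOutQ LvQ KnW)
open Vale.Agent.P159.H145.Sp

noncomputable section

/-- **one statement per pair, along the flow**: for all large levels `n`, all `R` of the window with
the knowledge `KnW` at `R` -/
def Win (P : Par) (b β C2 A0 : ℝ) (Am i : ℕ) (ck : ℝ) (a y ε : ℕ → ℝ) (F : ℕ → ℕ → Prop) : Prop :=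
  ∀ᶠ n in atTop, ∀ n0 j, n = itw (fun n => P.w (ε n)) n0 j → ∀ R, 2 ^ (n + kf ck y n) ≤ R →
    R ≤ 2 ^ kE1 P ck y ε n →
    KnW b β C2 A0 Am i a (kf ck y) (fun n => P.w (ε n)) n0 j R → F n R

variable {P : Par} {b β C2 A0 : ℝ} {Am i : ℕ} {ck c3 c4 : ℝ} {a y ε : ℕ → ℝ}

lemma Win.mono {F G : ℕ → ℕ → Prop} (h : Win P b β C2 A0 Am i ck a y ε F)
    (hFG : ∀ᶠ n in atTop, ∀ R, 2 ^ (n + kf ck y n) ≤ R → R ≤ 2 ^ kE1 P ck y ε n → F n R → G n R) :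
    Win P b β C2 A0 Am i ck a y ε G := by
  unfold Win at h ⊢
  filter_upwards [h, hFG] with n h1 h2 n0 j hn R g1 g2 hK
  exact h2 R g1 g2 (h1 n0 j hn R g1 g2 hK)

lemma Win.and {F G : ℕ → ℕ → Prop} (h : Win P b β C2 A0 Am i ck a y ε F)
    (h' : Win P b β C2 A0 Am i ck a y ε G) :
    Win P b β C2 A0 Am i ck a y ε fun n R => F n R ∧ G n R := by
  unfold Win at h h' ⊢
  filter_upwards [h, h'] with n h1 h2 n0 j hn R g1 g2 hK
  exact ⟨h1 n0 j hn R g1 g2 hK, h2 n0 j hn R g1 g2 hK⟩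

lemma Win.of {F : ℕ → ℕ → Prop} (h : ∀ᶠ n in atTop, ∀ R, 2 ^ (n + kf ck y n) ≤ R →
    R ≤ 2 ^ kE1 P ck y ε n → F n R) : Win P b β C2 A0 Am i ck a y ε F := by
  unfold Win
  filter_upwards [h] with n h1 n0 j _ R g1 g2 _
  exact h1 R g1 g2

/-- **ALL PAIRS OF THE LARGE LEVELS FROM THE EIGHT FIELDS** -/
theorem pairLv_ev {η : ∀ R, Ed (sd i R) → ℤ} {φ : ∀ R, V (sd i R) → ℝ}
    (κ : ℕ → ℤ × ℤ → ℝ) (q : ℕ → ℕ) (D0 D1 : ℕ → Dec)
    (door : Win P b β C2 A0 Am i ck a y ε fun n R =>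
      DoorP b i η φ (tn n) (q n) R (gC i n (kE1 P ck y ε n) R) (Real.exp (-(4 * y n ^ (-c3))))
        (y n ^ (1 + c4) / 16))
    (cut : Win P b β C2 A0 Am i ck a y ε fun n R =>
      CutP b i η φ (tn n) n (kf ck y n) (q n) R (muK (sd i R) (lC n (kf ck y n)) (κ n))
        (gC i n (kE1 P ck y ε n) R) (Real.exp (-(4 * y n ^ (-c3)))) (y n ^ (1 + c4) / 16))
    (pla : Win P b β C2 A0 Am i ck a y ε fun n R =>
      PlaP b i η φ (tn n) n (kf ck y n) (q n) R (muK (sd i R) (lC n (kf ck y n)) (κ n))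
        (gC i n (kE1 P ck y ε n) R) (Real.exp (-(4 * y n ^ (-c3)))) (y n ^ (1 + c4) / 16))
    (mem : Win P b β C2 A0 Am i ck a y ε fun n R =>
      MemP b i (tn n) (T0 (κ n) n (kf ck y n) (q n) (DC n (kf ck y n)))
        (T1 (κ n) n (kf ck y n) (q n) (DC n (kf ck y n))) R (gC i n (kE1 P ck y ε n) R) (D0 n)
        (D1 n) (Real.exp (-(4 * y n ^ (-c3)))))
    (lam : Win P b β C2 A0 Am i ck a y ε fun n R =>
      LamP b i η φ (tn n) R (Real.exp (-(4 * y n ^ (-c3)))) (y n ^ (-c3) / 16))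
    (tr : Win P b β C2 A0 Am i ck a y ε fun n R =>
      QP b i η φ (tn n) R (Real.exp (-(2 * y n ^ (-c3)))) (Real.exp (y n ^ (-c3) / 4)))
    (br : Win P b β C2 A0 Am i ck a y ε fun n R =>
      BridgeP (T0 (κ n) n (kf ck y n) (q n) (DC n (kf ck y n)))
        (T1 (κ n) n (kf ck y n) (q n) (DC n (kf ck y n))) i n (kf ck y n) (q n) R
        (muK (sd i R) (lC n (kf ck y n)) (κ n)) (gC i n (kE1 P ck y ε n) R))
    (st : Win P b β C2 A0 Am i ck a y ε fun n R =>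
      StP i b (tn n) (a n) n (n + kf ck y n) (kE1 P ck y ε n) R (D0 n) (D1 n)
        (y n ^ (1 + c4) / 16)) :
    ∀ᶠ n in atTop, PairLv P b β C2 A0 Am i ck c3 c4 a y ε η φ n := by
  unfold Win at door cut pla mem lam tr br st
  filter_upwards [door, cut, pla, mem, lam, tr, br, st] with n h1 h2 h3 h4 h5 h6 h7 h8
  refine ⟨κ n, q n, D0 n, D1 n, fun n0 j hn R g1 g2 hK => ?_⟩
  exact ⟨h1 n0 j hn R g1 g2 hK, h2 n0 j hn R g1 g2 hK, h3 n0 j hn R g1 g2 hK,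
    h4 n0 j hn R g1 g2 hK, h5 n0 j hn R g1 g2 hK, h6 n0 j hn R g1 g2 hK, h7 n0 j hn R g1 g2 hK,
    h8 n0 j hn R g1 g2 hK⟩

/-! ### weaker numbers -/

section mono

variable {η : ∀ R, Ed (sd i R) → ℤ} {φ : ∀ R, V (sd i R) → ℝ} {t p p' s s' : ℝ}
  {n k q R k0 K1 : ℕ} {μ g : V (sd i R) → ℝ} {D0 D1 : Dec}

lemma DoorP.mono' (h : DoorP b i η φ t q R g p s) (hp : p ≤ p') (hs : s ≤ s') :
    DoorP b i η φ t q R g p' s' := by
  obtain ⟨G, mG, hG, h1⟩ := h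
  exact ⟨G, mG, hG.trans hp, fun F hF => (h1 F hF).trans hs⟩

lemma CutP.mono' (h : CutP b i η φ t n k q R μ g p s) (hp : p ≤ p') (hs : s ≤ s') :
    CutP b i η φ t n k q R μ g p' s' := by
  obtain ⟨G, mG, hG, h1⟩ := h
  exact ⟨G, mG, hG.trans hp, fun F hF => (h1 F hF).trans hs⟩

lemma PlaP.mono' (h : PlaP b i η φ t n k q R μ g p s) (hp : p ≤ p') (hs : s ≤ s') :
    PlaP b i η φ t n k q R μ g p' s' := by
  obtain ⟨G, mG, hG, h1⟩ := h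
  exact ⟨G, mG, hG.trans hp, fun F hF => (h1 F hF).trans hs⟩

lemma MemP.mono' {D : ℕ} {U0 U1 : (Bx D ⊕ Bx D → ℝ) → ℤ → ℤ → ℝ}
    (h : MemP b i t U0 U1 R g D0 D1 p) (hp : p ≤ p') : MemP b i t U0 U1 R g D0 D1 p' := by
  obtain ⟨G, mG, hG, h1⟩ := h
  exact ⟨G, mG, hG.trans hp, h1⟩

lemma LamP.mono' (hb : 0 < b) (h : LamP b i η φ t R p s) (hp : p ≤ p') (hs : s ≤ s') :
    LamP b i η φ t R p' s' := by
  obtain ⟨G, mG, hG, h1⟩ := h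
  refine ⟨G, mG, hG.trans hp, fun F hF => (h1 F hF).trans ?_⟩
  exact mul_le_mul_of_nonneg_right (Real.exp_le_exp.2 hs)
    (H773.cMn_pos (Nf := sd i) hb (fun R => H883.bw_wTD hb (η R)) R).le

lemma StP.mono' {a : ℝ} (h : StP i b t a n k0 K1 R D0 D1 s) (hs : s ≤ s') :
    StP i b t a n k0 K1 R D0 D1 s' := by
  obtain ⟨nd, Λc, ε₂, ε₃, L, S, B, E, ε₄, h1, h2, h3⟩ := h
  exact ⟨nd, Λc, ε₂, ε₃, L, S, B, E, ε₄, h1, h2, h3.trans hs⟩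

end mono

/-! ### the hypothesis of the final glue -/

/-- **S FROM ITS PAIRS**, in the order of constants of the final theorem: the conclusion is the
hypothesis `hS` of 801's `final0` (the bracket = the body of `SOut`) -/
theorem sOut_fam {b1 b2 pf : ℝ} (hb1 : 0 < b1) {b : ℝ} (h1 : b1 ≤ b) {Q : ℕ} {σ c qx β : ℝ}
    {Am : ℕ} (hAm : 1 ≤ Am) (hσ0 : 0 < σ) (hσ : σ ≤ 1 / 4) (hc : 0 ≤ c) (hc4 : 4 * c ≤ σ)
    (hS : Vale.Agent.P159.H801.Ev b1 b2 pf Q fun P c1 =>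
      ∀ (q2 : ℝ) (a y ε xs : ℕ → ℝ) (c' r q A : ℝ) (N : ℕ),
      SFlow P b σ c c1 q2 qx a y ε xs c' r q A N →
      ∃ ck c3 c4 : ℝ, 0 < ck ∧ 2 * P.th ≤ ck ∧ ck ≤ P.thp ∧ 0 < c3 ∧ 32 * c3 ≤ ck ∧ 0 < c4 ∧
        PairFam P b β Am ck c3 c4 a y ε ∧ WtFam P b ck c3 y ε) :
    Vale.Agent.P159.H801.Ev b1 b2 pf Q fun P c1 =>
      ∀ (q2 : ℝ) (a y ε xs : ℕ → ℝ) (c' r q A : ℝ) (N : ℕ),
      SFlow P b σ c c1 q2 qx a y ε xs c' r q A N →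
      ∃ ck c3 c4 : ℝ, 0 < ck ∧ ck ≤ P.thp ∧ 0 < c3 ∧ 0 < c4 ∧
        ∀ A0 C2 : ℝ, 8 ≤ A0 → 1 ≤ C2 → ∃ i1 : ℕ, ∀ i, i1 ≤ i →
          ∃ (η : ∀ R, Ed (sd i R) → ℤ) (φ : ∀ R, V (sd i R) → ℝ), Pth i η ∧
          ∃ N1 : ℕ, ∀ n0, N1 ≤ n0 →
            ∀ j n n', Kn b β i a (kf ck y) (fun n => P.w (ε n)) n0 j →
            n = itw (fun n => P.w (ε n)) n0 j → n' = n + P.w (ε n) →
            LvOutQ b i η φ c3 c4 (y n) (a n) n n' (2 ^ (n + kf ck y n)) (2 ^ (n' + kf ck y n'))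
              (KnW b β C2 A0 Am i a (kf ck y) (fun n => P.w (ε n)) n0 j) := by
  refine (hS.and (lv_all hb1 b2 pf Q)).mono fun P c1 _ h q2 a y ε xs c' r q A N hF => ?_
  obtain ⟨ck, c3, c4, g1, g2, g3, g4, g5, g6, g7, g8⟩ := h.1 q2 a y ε xs c' r q A N hF
  exact ⟨ck, c3, c4, g1, g3, g4, g6, h.2 hF (hb1.trans_le h1) hσ0 hσ hc hc4 ck g1 g2 g3 c3 g4 g5
    c4 g6 β Am hAm g7 g8⟩

end

end Vale.Agent.P159.H37.Sf
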