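import Vale.Agent.P159.H37.Lq5
import Vale.Agent.P159.H816.St2
import Vale.Agent.P159.H816.Tyin

/-!
P159 (helper37), S, the last glue, part 3: `WtFam` is a theorem (816's `sit_flow`); the final form of
the input of S with the constants `ck = thp / 4`, `c3 = c1 / 2`.
-/

open Filter Topology Finset Matrix MeasureTheory

set_option linter.all false

namespace Vale.Agent.P159.H37.Sf

open Vale.Agent.P159.TM.Spec (V)
open Vale.Agent.P159.H801 (SFlow itw itw_ge)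
open Vale.Agent.P159.H708 (Bx WtOK)
open Vale.Agent.P159.H770 (wTD Ed)
open Vale.Agent.P159.H773 (sd nuF PsF cMn Pth)
open Vale.Agent.P159.H972 (tn lg Par)
open Vale.Agent.P159.H145.Lw (LvOutQ LvQ KnW)
open Vale.Agent.P159.H145.Sp

noncomputable section

/-- **the size of the weights along the flow** -/
theorem wtFam_ev {b b1 b2 pf : ℝ} (hb1 : 0 < b1) (h1 : b1 ≤ b) (hpf : 0 < pf) (Q : ℕ) :
    Vale.Agent.P159.H801.Ev b1 b2 pf Q fun P c1 => 0 < c1 ∧ c1 ≤ P.th / 100 ∧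
      ∀ {σ c q2 qx : ℝ} {a y ε xs : ℕ → ℝ} {c' r q A : ℝ} {N : ℕ},
      SFlow P b σ c c1 q2 qx a y ε xs c' r q A N → 0 ≤ σ → σ ≤ 1 / 4 →
      ∀ ck : ℝ, 0 < ck → 2 * P.th ≤ ck → ck ≤ P.thp → ∀ c3 : ℝ, c3 < 2 * c1 →
      WtFam P b ck c3 y ε := by
  refine (H816.sit_flow (b2 := b2) hb1 h1 hpf Q).mono fun P c1 _ h => ?_
  obtain ⟨h0, h2, h3⟩ := h
  refine ⟨h0, h2, ?_⟩
  intro σ c q2 qx a y ε xs c' r q A N hF hσ0 hσ ck hck hck2 hck1 c3 hc3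
  refine ⟨1, fun i hi => ?_⟩
  filter_upwards [h3 hF hσ0 hσ ck hck hck2 hck1 i hi c3 hc3 4 1 1 (1 / 4000) 1 one_pos
    (by norm_num)] with n hn R g1 g2
  exact (hn.2 R g1 g2).2.2

/-- the order of the constants of S: `ck = thp / 4`, `c3 = c1 / 2` -/
theorem ev_cS (b1 b2 pf : ℝ) (Q : ℕ) :
    Vale.Agent.P159.H801.Ev b1 b2 pf Q fun P c1 => 0 < c1 ∧ c1 ≤ P.th / 1000 ∧ 0 < P.thp ∧
      P.thp ≤ P.x1 / 1000 ∧ 0 < P.th ∧ 4096 * P.th ≤ P.thp ∧ 0 < P.x1 := by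
  refine ((H816.ev_thp (b1 := b1) (b2 := b2) (pf := pf) Q
    (show (0 : ℝ) < 1 / 4096 by norm_num)).and (H816.ev_c1 (b1 := b1) (b2 := b2) (pf := pf) Q
    (show (0 : ℝ) < 1 / 1000 by norm_num))).mono fun P c1 _ h => ?_
  obtain ⟨⟨h1, h2, h3, h4, h5⟩, h6, h7⟩ := h
  exact ⟨h6, by linarith, h1, by linarith, h3, by linarith, h5⟩

/-- **S FROM ITS PAIRS, ONE INPUT**: with `ck = thp / 4`, `c3 = c1 / 2`; the only hypothesis is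
`PairFam` along every flow -/
theorem sOut_pairs {b1 b2 pf : ℝ} (hb1 : 0 < b1) {b : ℝ} (h1 : b1 ≤ b) (hpf : 0 < pf) {Q : ℕ}
    {σ c qx β : ℝ} {Am : ℕ} (hAm : 1 ≤ Am) (hσ0 : 0 < σ) (hσ : σ ≤ 1 / 4) (hc : 0 ≤ c)
    (hc4 : 4 * c ≤ σ)
    (hS : Vale.Agent.P159.H801.Ev b1 b2 pf Q fun P c1 =>
      ∀ (q2 : ℝ) (a y ε xs : ℕ → ℝ) (c' r q A : ℝ) (N : ℕ),
      SFlow P b σ c c1 q2 qx a y ε xs c' r q A N →
      ∃ c4 : ℝ, 0 < c4 ∧ PairFam P b β Am (P.thp / 4) (c1 / 2) c4 a y ε) :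
    Vale.Agent.P159.H801.Ev b1 b2 pf Q fun P c1 =>
      ∀ (q2 : ℝ) (a y ε xs : ℕ → ℝ) (c' r q A : ℝ) (N : ℕ),
      SFlow P b σ c c1 q2 qx a y ε xs c' r q A N →
      ∃ ck c3 c4 : ℝ, 0 < ck ∧ ck ≤ P.thp ∧ 0 < c3 ∧ 0 < c4 ∧
        ∀ A0 C2 : ℝ, 8 ≤ A0 → 1 ≤ C2 → ∃ i1 : ℕ, ∀ i, i1 ≤ i →
          ∃ (η : ∀ R, Ed (sd i R) → ℤ) (φ : ∀ R, V (sd i R) → ℝ), Pth i η ∧
          ∃ N1 : ℕ, ∀ n0, N1 ≤ n0 →
            ∀ j n n', Kn b β i a (kf ck y) (fun n => P.w (ε n)) n0 j →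
            n = itw (fun n => P.w (ε n)) n0 j → n' = n + P.w (ε n) →
            LvOutQ b i η φ c3 c4 (y n) (a n) n n' (2 ^ (n + kf ck y n)) (2 ^ (n' + kf ck y n'))
              (KnW b β C2 A0 Am i a (kf ck y) (fun n => P.w (ε n)) n0 j) := by
  refine sOut_fam hb1 h1 hAm hσ0 hσ hc hc4 ((hS.and ((wtFam_ev hb1 h1 hpf Q).and
    (ev_cS b1 b2 pf Q))).mono fun P c1 _ h => ?_)
  obtain ⟨h2, ⟨-, -, h3⟩, h4, h5, h6, h7, h8, h9, h10⟩ := h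
  intro q2 a y ε xs c' r q A N hF
  obtain ⟨c4, g1, g2⟩ := h2 q2 a y ε xs c' r q A N hF
  exact ⟨P.thp / 4, c1 / 2, c4, by linarith, by linarith, by linarith, by linarith, by linarith,
    g1, g2, h3 hF hσ0.le hσ (P.thp / 4) (by linarith) (by linarith) (by linarith) (c1 / 2)
      (by linarith)⟩

end

end Vale.Agent.P159.H37.Sf
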