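import Vale.Agent.P159.H37.Rxe
import Vale.Agent.P159.H972.Good

/-!
P159 (helper37), module RNGX, part g: field (iii) of the induction state in the letters of
helper972: `RNG P b m r e'` and `RNG P b (m - 1) r e'` for all admissible tori of level `m` and all
`e' ≥ ε / 2`, from the flat profile (field (v)) at level `n` on ONE torus `2 ^ (m + kE ε + 1)` and
the number `yt ≤ √ε` on the same torus.
-/

set_option linter.unusedSectionVars false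

namespace Vale.Agent.P159.H37

open Filter Topology
open Vale.Agent.P159.TM
open Vale.Agent.P159.TM.Spec (V GT Rng ThmA)
open Vale.Agent.P159.TM.H764 (EE Gh pw Hyp)
open Vale.Agent.P159.H963 (Gnh Pin)
open Vale.Agent.P159.H864 (yt)
open Vale.Agent.P159.H972 (Par lg tn RNG FL)

noncomputable section

/-! ### powers of small numbers -/

lemma small_rpow {s A B : ℝ} (hs : 0 < s) (hB : 0 < B) :
    ∃ e0, 0 < e0 ∧ ∀ e : ℝ, 0 < e → e ≤ e0 → A * e ^ s ≤ B := by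
  have h1 : Tendsto (fun e : ℝ => A * e ^ s) (𝓝[>] 0) (𝓝 0) := by
    have h2 : Tendsto (fun e : ℝ => e ^ s) (𝓝[>] 0) (𝓝 (0 ^ s)) :=
      (Real.continuousAt_rpow_const 0 s (Or.inr hs.le)).tendsto.mono_left nhdsWithin_le_nhds
    rw [Real.zero_rpow hs.ne'] at h2
    simpa using h2.const_mul A
  have h3 := h1.eventually (gt_mem_nhds hB)
  rw [eventually_nhdsWithin_iff, Metric.eventually_nhds_iff] at h3
  obtain ⟨d, hd, h4⟩ := h3
  refine ⟨d / 2, by positivity, fun e he he2 => (h4 ?_ he).le⟩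
  rw [Real.dist_eq, sub_zero, abs_of_pos he]
  linarith

lemma lg_lo {c e : ℝ} (he : 0 < e) : e ^ (-c) ≤ (2 : ℝ) ^ lg c e := by
  have h1 : c * Real.logb 2 (1 / e) ≤ lg c e := Nat.le_ceil _
  have h2 : e ^ (-c) = (2 : ℝ) ^ (c * Real.logb 2 (1 / e)) := by
    rw [mul_comm, Real.rpow_mul two_pos.le, Real.rpow_logb two_pos (by norm_num) (by positivity),
      one_div, Real.inv_rpow he.le, Real.rpow_neg he.le]
  rw [h2, ← Real.rpow_natCast]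
  exact Real.rpow_le_rpow_of_exponent_le one_le_two h1

lemma lg_hi {c e : ℝ} (hc : 0 ≤ c) (he : 0 < e) (he1 : e ≤ 1) :
    (2 : ℝ) ^ lg c e ≤ 2 * e ^ (-c) := by
  have h0 : 0 ≤ c * Real.logb 2 (1 / e) :=
    mul_nonneg hc (Real.logb_nonneg one_lt_two (by rw [le_div_iff₀ he]; linarith))
  have h1 : (lg c e : ℝ) ≤ c * Real.logb 2 (1 / e) + 1 := (Nat.ceil_lt_add_one h0).le
  have h2 : e ^ (-c) = (2 : ℝ) ^ (c * Real.logb 2 (1 / e)) := by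
    rw [mul_comm, Real.rpow_mul two_pos.le, Real.rpow_logb two_pos (by norm_num) (by positivity),
      one_div, Real.inv_rpow he.le, Real.rpow_neg he.le]
  rw [h2, ← Real.rpow_natCast]
  refine (Real.rpow_le_rpow_of_exponent_le one_le_two h1).trans (le_of_eq ?_)
  rw [Real.rpow_add two_pos, Real.rpow_one]
  ring

lemma lg_half1 {c ε ε' : ℝ} (hc : 0 ≤ c) (hc1 : c ≤ 1) (hε : 0 < ε) (h1 : ε / 2 ≤ ε') :
    lg c ε' ≤ lg c ε + 1 := by
  have h0 : 0 < ε' := by linarith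
  have h5 : Real.logb 2 (1 / ε') ≤ 1 + Real.logb 2 (1 / ε) := by
    have h6 : (1 : ℝ) + Real.logb 2 (1 / ε) = Real.logb 2 (2 * (1 / ε)) := by
      rw [Real.logb_mul two_ne_zero (by positivity), Real.logb_self_eq_one one_lt_two]
    rw [h6]
    apply Real.logb_le_logb_of_le one_lt_two (by positivity)
    rw [mul_one_div, div_le_div_iff₀ h0 hε]
    linarith
  unfold lg
  rw [Nat.ceil_le]
  push_cast
  have h8 := Nat.le_ceil (c * Real.logb 2 (1 / ε))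
  nlinarith

/-- thresholds for the small numbers of `rng_core` -/
lemma thr {th : ℝ} (hth : 0 < th) {c C es ys : ℝ} (hc : 0 < c) (hC : 0 < C) (hes : 0 < es)
    (hys : 0 < ys) (W : ℝ) (X X0 : ℕ) :
    ∃ e0, 0 < e0 ∧ e0 ≤ 1 / 4 ∧ ∀ e : ℝ, 0 < e → e ≤ e0 →
      (513 + 48000 * C) * e ^ (1 / 16 : ℝ) ≤ 1 ∧ e ^ (1 / 8 : ℝ) ≤ es ∧
      8 * e ^ (9 / 16 : ℝ) ≤ 1 ∧ 2048 * e ^ (7 / 16 : ℝ) ≤ c ∧
      4096 * C * e ^ (3 / 16 : ℝ) ≤ 1 ∧ (2 * W ^ 2 + 2) * e ^ (1 / 4 : ℝ) ≤ 1 / 10 ∧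
      e ^ (1 / 4 : ℝ) ≤ ys ∧ (X : ℝ) * e ^ th ≤ 1 ∧ (X0 : ℝ) * e ^ th ≤ 1 ∧
      (∀ K : ℝ, e ^ (-th) ≤ K → Real.exp (-(c * K)) ≤ es ∧
        C * Real.exp (-(c * K)) ≤ 1 / 2 * e ^ (1 / 4 : ℝ)) := by
  obtain ⟨k, hk⟩ := exists_nat_ge (1 / th)
  have hkth : 1 ≤ k * th := by rw [div_le_iff₀ hth] at hk; exact hk
  set A : ℝ := (k.factorial : ℝ) / c ^ k with hA
  have hA0 : 0 < A := by positivity
  obtain ⟨e1, he1, h1⟩ := small_rpow (s := 1 / 16) (A := 513 + 48000 * C) (by norm_num) one_pos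
  obtain ⟨e2, he2, h2⟩ := small_rpow (s := 1 / 8) (A := 1) (by norm_num) hes
  obtain ⟨e3, he3, h3⟩ := small_rpow (s := 9 / 16) (A := 8) (by norm_num) one_pos
  obtain ⟨e4, he4, h4⟩ := small_rpow (s := 7 / 16) (A := 2048) (by norm_num) hc
  obtain ⟨e5, he5, h5⟩ := small_rpow (s := 3 / 16) (A := 4096 * C) (by norm_num) one_pos
  obtain ⟨e6, he6, h6⟩ := small_rpow (s := 1 / 4) (A := 2 * W ^ 2 + 2) (by norm_num)
    (show (0 : ℝ) < 1 / 10 by norm_num)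
  obtain ⟨e7, he7, h7⟩ := small_rpow (s := 1 / 4) (A := 1) (by norm_num) hys
  obtain ⟨e8, he8, h8⟩ := small_rpow (s := th) (A := (X : ℝ)) hth one_pos
  obtain ⟨e9, he9, h9⟩ := small_rpow (s := th) (A := (X0 : ℝ)) hth one_pos
  obtain ⟨e10, he10, h10⟩ := small_rpow (s := 1) (A := A) (by norm_num) hes
  obtain ⟨e11, he11, h11⟩ := small_rpow (s := 3 / 4) (A := C * A) (by norm_num)
    (show (0 : ℝ) < 1 / 2 by norm_num)
  refine ⟨min (1 / 4) (min e1 (min e2 (min e3 (min e4 (min e5 (min e6 (min e7 (min e8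
    (min e9 (min e10 e11)))))))))), by positivity, min_le_left _ _, fun e he hle => ?_⟩
  simp only [le_min_iff] at hle
  obtain ⟨g0, g1, g2, g3, g4, g5, g6, g7, g8, g9, g10, g11⟩ := hle
  have f2 := h2 e he g2
  have f7 := h7 e he g7
  rw [one_mul] at f2 f7
  refine ⟨h1 e he g1, f2, h3 e he g3, h4 e he g4, h5 e he g5, h6 e he g6, f7, h8 e he g8,
    h9 e he g9, fun K hK => ?_⟩
  have hK0 : 0 < K := lt_of_lt_of_le (Real.rpow_pos_of_pos he _) hK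
  have k1 := Real.pow_div_factorial_le_exp (c * K) (by positivity) k
  have k2 : Real.exp (-(c * K)) ≤ A * e := by
    rw [Real.exp_neg, inv_le_comm₀ (Real.exp_pos _) (by positivity)]
    refine le_trans ?_ k1
    have k3 : e⁻¹ ≤ K ^ k := by
      calc e⁻¹ = e ^ (-(1 : ℝ)) := by rw [Real.rpow_neg_one]
        _ ≤ e ^ (-(k * th)) := Real.rpow_le_rpow_of_exponent_ge he (by linarith) (by linarith)
        _ = (e ^ (-th)) ^ k := by
            rw [← Real.rpow_natCast, ← Real.rpow_mul he.le]; congr 1; ring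
        _ ≤ K ^ k := pow_le_pow_left₀ (Real.rpow_nonneg he.le _) hK k
    rw [hA, mul_pow, mul_inv, inv_div, div_mul_eq_mul_div]
    gcongr
  have f10 := h10 e he g10
  have f11 := h11 e he g11
  rw [Real.rpow_one] at f10
  refine ⟨k2.trans f10, ?_⟩
  calc C * Real.exp (-(c * K)) ≤ C * (A * e) := by gcongr
    _ = (C * A * e ^ (3 / 4 : ℝ)) * e ^ (1 / 4 : ℝ) := by
        rw [mul_assoc (C * A), ← Real.rpow_add he]; norm_num; ring
    _ ≤ 1 / 2 * e ^ (1 / 4 : ℝ) := by gcongr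

/-- the scalar part of the mode zero -/
lemma Pik_zero_le {N : ℕ} [NeZero N] {b t s : ℝ} (hb : 0 < b) (ht : 0 < t)
    (h : yt N b t ≤ s) (hs : s ≤ 1 / 2) : Pik N b t 0 ≤ 2 * t * s := by
  have h0 : 0 ≤ yt N b t := H864.yt_nonneg hb.le ht
  have h1 : t * Ght N b t 0 = 1 - yt N b t := by unfold yt; ring
  have hG : 0 < Ght N b t 0 := H864.Ght_pos hb ht _
  have h2 : (Ght N b t 0)⁻¹ = t / (1 - yt N b t) := by
    rw [← h1]
    field_simp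
  unfold Pik
  rw [h2]
  have h3 : 0 < 1 - yt N b t := by linarith
  have h4 : t / (1 - yt N b t) ≤ t + 2 * t * yt N b t := by
    rw [div_le_iff₀ h3]
    have : 0 ≤ t * yt N b t * (1 - 2 * yt N b t) :=
      mul_nonneg (mul_nonneg ht.le h0) (by linarith)
    nlinarith
  have h5 : t * yt N b t ≤ t * s := mul_le_mul_of_nonneg_left h ht.le
  linarith

/-- the numbers of the step -/
lemma nums {th thp C ε : ℝ} {d j : ℕ} (hth : 0 < th) (hthp : 0 < thp)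
    (hex : 12 * thp + th ≤ 1 / 16) (hC : 0 < C) (hε : 0 < ε) (hε1 : ε ≤ 1 / 4)
    (hd : d ≤ 4 * lg thp ε) (hj : j ≤ 2)
    (t1 : (513 + 48000 * C) * ε ^ (1 / 16 : ℝ) ≤ 1)
    {η : ℝ} (hη : η ≤ ε ^ (1 / 4 : ℝ)) :
    2 * 4 ^ d * √ε ≤ 512 * ε ^ (7 / 16 : ℝ) ∧
    (2 : ℝ) ^ (lg th ε + j) ≤ 8 * ε ^ (-th) ∧
    2 * 4 ^ d * √ε + η + C * (4 ^ d * ((2 : ℝ) ^ (lg th ε + j) * √(2 * 4 ^ d * √ε))) ≤
      ε ^ (1 / 8 : ℝ) := by
  have hε1' : ε ≤ 1 := by linarith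
  have a1 : (4 : ℝ) ^ d ≤ 256 * ε ^ (-(8 * thp)) := by
    calc (4 : ℝ) ^ d ≤ 4 ^ (4 * lg thp ε) := pow_le_pow_right₀ (by norm_num) hd
      _ = ((2 : ℝ) ^ lg thp ε) ^ 8 := by
          rw [← pow_mul, show (4 : ℝ) = 2 ^ 2 by norm_num, ← pow_mul]; congr 1; ring
      _ ≤ (2 * ε ^ (-thp)) ^ 8 := pow_le_pow_left₀ (by positivity) (lg_hi hthp.le hε hε1') 8
      _ = 256 * ε ^ (-(8 * thp)) := by
          rw [mul_pow, ← Real.rpow_natCast (ε ^ (-thp)), ← Real.rpow_mul hε.le]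
          norm_num
          ring_nf
  have a2 : (2 : ℝ) ^ (lg th ε + j) ≤ 8 * ε ^ (-th) := by
    rw [pow_add]
    have b1 := lg_hi hth.le hε hε1'
    have b2 : (2 : ℝ) ^ j ≤ 4 := by
      calc (2 : ℝ) ^ j ≤ 2 ^ 2 := pow_le_pow_right₀ one_le_two hj
        _ = 4 := by norm_num
    calc (2 : ℝ) ^ lg th ε * 2 ^ j ≤ (2 * ε ^ (-th)) * 4 := by gcongr
      _ = 8 * ε ^ (-th) := by ring
  have hs : √ε = ε ^ (1 / 2 : ℝ) := Real.sqrt_eq_rpow ε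
  have a3 : 2 * 4 ^ d * √ε ≤ 512 * ε ^ (1 / 2 - 8 * thp) := by
    calc 2 * 4 ^ d * √ε ≤ 2 * (256 * ε ^ (-(8 * thp))) * √ε := by gcongr
      _ = 512 * (ε ^ (1 / 2 : ℝ) * ε ^ (-(8 * thp))) := by rw [hs]; ring
      _ = 512 * ε ^ (1 / 2 - 8 * thp) := by rw [← Real.rpow_add hε]; congr 1
  have a4 : √(2 * 4 ^ d * √ε) ≤ 23 * ε ^ (1 / 4 - 4 * thp) := by
    rw [Real.sqrt_le_left (by positivity)]
    refine a3.trans ?_
    rw [mul_pow, ← Real.rpow_natCast (ε ^ (1 / 4 - 4 * thp)), ← Real.rpow_mul hε.le]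
    push_cast
    rw [show (1 / 4 - 4 * thp) * 2 = 1 / 2 - 8 * thp by ring]
    have : 0 ≤ ε ^ (1 / 2 - 8 * thp) := Real.rpow_nonneg hε.le _
    linarith
  have a5 : 2 * 4 ^ d * √ε ≤ 512 * ε ^ (7 / 16 : ℝ) :=
    a3.trans (mul_le_mul_of_nonneg_left
      (Real.rpow_le_rpow_of_exponent_ge hε hε1' (by linarith)) (by norm_num))
  refine ⟨a5, a2, ?_⟩
  have a6 : C * (4 ^ d * ((2 : ℝ) ^ (lg th ε + j) * √(2 * 4 ^ d * √ε))) ≤
      48000 * C * ε ^ (3 / 16 : ℝ) := by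
    calc C * (4 ^ d * ((2 : ℝ) ^ (lg th ε + j) * √(2 * 4 ^ d * √ε))) ≤
        C * ((256 * ε ^ (-(8 * thp))) * ((8 * ε ^ (-th)) * (23 * ε ^ (1 / 4 - 4 * thp)))) := by
          gcongr
      _ = 47104 * C * (ε ^ (-(8 * thp)) * ε ^ (-th) * ε ^ (1 / 4 - 4 * thp)) := by ring
      _ = 47104 * C * ε ^ (1 / 4 - 12 * thp - th) := by
          rw [← Real.rpow_add hε, ← Real.rpow_add hε]; congr 2; ring
      _ ≤ 47104 * C * ε ^ (3 / 16 : ℝ) := by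
          apply mul_le_mul_of_nonneg_left _ (by positivity)
          exact Real.rpow_le_rpow_of_exponent_ge hε hε1' (by linarith)
      _ ≤ 48000 * C * ε ^ (3 / 16 : ℝ) := by
          have : 0 ≤ C * ε ^ (3 / 16 : ℝ) := by positivity
          linarith
  have a7 : ε ^ (7 / 16 : ℝ) ≤ ε ^ (3 / 16 : ℝ) :=
    Real.rpow_le_rpow_of_exponent_ge hε hε1' (by norm_num)
  have a8 : ε ^ (1 / 4 : ℝ) ≤ ε ^ (3 / 16 : ℝ) :=
    Real.rpow_le_rpow_of_exponent_ge hε hε1' (by norm_num)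
  have a9 : (513 + 48000 * C) * ε ^ (3 / 16 : ℝ) ≤ ε ^ (1 / 8 : ℝ) := by
    have c1 : ε ^ (3 / 16 : ℝ) = ε ^ (1 / 16 : ℝ) * ε ^ (1 / 8 : ℝ) := by
      rw [← Real.rpow_add hε]; norm_num
    rw [c1, ← mul_assoc]
    have c2 : 0 ≤ ε ^ (1 / 8 : ℝ) := Real.rpow_nonneg hε.le _
    exact (mul_le_mul_of_nonneg_right t1 c2).trans (by rw [one_mul])
  nlinarith

/-- **the core of the step of field (iii)** : one torus `2 ^ (m + kE ε + j)`, `j = 1, 2` -/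
theorem rng_core {b1 : ℝ} (hb1 : 0 < b1) (b2 : ℝ) :
    ∃ W₀ : ℝ, ∀ W : ℝ, W₀ ≤ W → ∀ th thp ys : ℝ, 0 < th → 0 < thp → 12 * thp + th ≤ 1 / 16 →
      0 < ys → ∀ X₀ : ℕ, ∃ (es : ℝ) (M₀ : ℕ), 0 < es ∧ es ≤ 1 / 4 ∧
    ∀ (b : ℝ) (n m j : ℕ) (ε a η : ℝ), b1 ≤ b → b ≤ b2 → 0 < ε → ε ≤ es → n ≤ m →
      m ≤ n + 4 * lg thp ε → M₀ ≤ m → 1 ≤ j → j ≤ 2 → 0 ≤ η → η ≤ ε ^ (1 / 4 : ℝ) →
      11 / 10 ≤ a → a ≤ 19 / 10 → FL b (tn n) a η (2 ^ (m + lg th ε + j)) →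
      yt (2 ^ (m + lg th ε + j)) b (tn n) ≤ √ε →
      ∀ e' : ℝ, ε / 2 ≤ e' → e' ≤ es → ∀ r, m + lg th e' ≤ r →
        Rng b1 b2 (5 / 2) W ys X₀ (2 ^ r) b (2 ^ m) (e' ^ (1 / 4 : ℝ)) := by
  obtain ⟨W₀, h⟩ := rng_family hb1 b2
  refine ⟨W₀, fun W hW => ?_⟩
  obtain ⟨c, C, es1, X, hc, hC, hes1, hX8, h⟩ := h W hW
  intro th thp ys hth hthp hex hys X₀
  obtain ⟨e0, he0, he04, hT⟩ := thr hth (c := c) (C := C) (es := es1) (ys := ys) hc hC hes1 hys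
    W X X₀
  refine ⟨e0, max X X₀, he0, he04, ?_⟩
  intro b n m j ε a η hbb1 hbb2 hε hεe hnm hmn hM hj1 hj2 hη0 hη ha1 ha2 hFL hyt e' he'1 he'2 r hr
  have hb : 0 < b := lt_of_lt_of_le hb1 hbb1
  have he' : 0 < e' := by linarith
  obtain ⟨t1, t2, t3, t4, t5, t6, t7, t8, t9, t10⟩ := hT ε hε hεe
  obtain ⟨u1, u2, u3, u4, u5, u6, u7, u8, u9, u10⟩ := hT e' he' he'2
  have hε4 : ε ≤ 1 / 4 := hεe.trans he04
  have hε1 : ε ≤ 1 := by linarith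
  have hd : m - n ≤ 4 * lg thp ε := by omega
  obtain ⟨v1, v2, v3⟩ := nums (j := j) hth hthp hex hC hε hε4 hd hj2 t1 hη
  have hm2 : (m : ℕ) < 2 ^ m := Nat.lt_two_pow_self
  have hXm : X ≤ 2 ^ m := ((le_max_left _ _).trans hM).trans hm2.le
  have hX0m : X₀ ≤ 2 ^ m := ((le_max_right _ _).trans hM).trans hm2.le
  have htn : 0 < tn n := by unfold tn; positivity
  have hxi : ((2 ^ m : ℕ) : ℝ) ^ 2 = 4 ^ m := by
    push_cast
    rw [← pow_mul, mul_comm, pow_mul]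
    norm_num
  have h4m : (4 : ℝ) ^ m = 4 ^ n * 4 ^ (m - n) := by rw [← pow_add]; congr 1; omega
  have hloK : ∀ e : ℝ, 0 < e → ∀ Z : ℕ, (Z : ℝ) * e ^ th ≤ 1 → Z ≤ 2 ^ lg th e := by
    intro e he Z hZ
    have h1 := lg_lo (c := th) he
    have h2 : (Z : ℝ) ≤ e ^ (-th) := by
      rw [Real.rpow_neg he.le, ← one_div, le_div_iff₀ (Real.rpow_pos_of_pos he _)]
      exact hZ
    have h3 : (Z : ℝ) ≤ ((2 ^ lg th e : ℕ) : ℝ) := by push_cast; linarith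
    exact_mod_cast h3
  have hKe : lg th e' ≤ lg th ε + 1 := lg_half1 hth.le (by linarith) hε he'1
  have hsq2 : √ε ≤ 1 / 2 := by
    rw [Real.sqrt_le_left (by norm_num)]
    linarith
  -- the profile
  have hP : Prof (2 ^ (m + lg th ε + j)) b (2 ^ (lg th ε + j)) (2 ^ m) W (tn n) (4 ^ (m - n))
      (2 * 4 ^ (m - n) * √ε) η (a + η * (2 * W ^ 2 + 2)) := by
    have hηW : η * (2 * W ^ 2 + 2) ≤ 1 / 10 := by
      refine le_trans ?_ t6
      rw [mul_comm]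
      exact mul_le_mul_of_nonneg_left hη (by positivity)
    refine ⟨by rw [← pow_add]; congr 1; omega, ?_, ?_, by positivity, hη0, ?_, ?_, ?_, ?_⟩
    · rw [hxi]
      unfold tn
      rw [one_div]
      exact inv_anti₀ (by positivity) (pow_le_pow_right₀ (by norm_num) hnm)
    · rw [hxi, h4m]
      unfold tn
      apply le_of_eq
      field_simp
    · have : 0 ≤ η * (2 * W ^ 2 + 2) := by positivity
      linarith
    · linarith
    · refine (Pik_zero_le hb htn hyt hsq2).trans (le_of_eq ?_)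
      rw [hxi, h4m]
      unfold tn
      field_simp
    · intro k hk hEk
      obtain ⟨z, a', hz0, hz, ha', hF⟩ := hFL
      have h1 := (abs_le.1 (hF k hk)).2
      have hE0 : 0 ≤ EE k := TM.H764.EE_nonneg k
      rw [hxi] at hEk
      have h2 : z ≤ η * (1 / ((2 ^ m : ℕ) : ℝ) ^ 2) := by
        rw [hxi]
        have h3 : (4 : ℝ) ^ m ≤ ((2 ^ (m + lg th ε + j) : ℕ) : ℝ) ^ 2 := by
          push_cast
          rw [← pow_mul, mul_comm, pow_mul]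
          norm_num
          exact pow_le_pow_right₀ (by norm_num) (by omega)
        have h4 : z * 4 ^ m ≤ η := le_trans (mul_le_mul_of_nonneg_left h3 hz0) hz
        rw [mul_one_div, le_div_iff₀ (by positivity)]
        exact h4
      have h5 : η * EE k ^ 2 / tn n ≤ η * (2 * W ^ 2 + 1) * EE k := by
        unfold tn
        rw [div_inv_eq_mul]
        have h6 : EE k * 4 ^ n ≤ 2 * W ^ 2 + 1 := by
          refine le_trans ?_ hEk
          apply mul_le_mul_of_nonneg_left _ hE0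
          exact pow_le_pow_right₀ (by norm_num) hnm
        calc η * EE k ^ 2 * 4 ^ n = η * EE k * (EE k * 4 ^ n) := by ring
          _ ≤ η * EE k * (2 * W ^ 2 + 1) := by gcongr
          _ = η * (2 * W ^ 2 + 1) * EE k := by ring
      have h7 : a' * EE k ≤ (a + η) * EE k := by
        apply mul_le_mul_of_nonneg_right _ hE0
        have := (abs_le.1 ha').2
        linarith
      calc Pin (2 ^ (m + lg th ε + j)) b (tn n) k ≤ z + a' * EE k + η * EE k ^ 2 / tn n := by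
            linarith
        _ ≤ η * (1 / ((2 ^ m : ℕ) : ℝ) ^ 2) + (a + η) * EE k + η * (2 * W ^ 2 + 1) * EE k := by
            linarith
        _ = η * (1 / ((2 ^ m : ℕ) : ℝ) ^ 2) + (a + η * (2 * W ^ 2 + 2)) * EE k := by ring
  have hX1 : X ≤ 2 ^ lg th e' := hloK e' he' X u8
  have hX2 : X₀ ≤ 2 ^ lg th e' := hloK e' he' X₀ u9
  have hK1 : (2 : ℕ) ^ lg th e' ≤ 2 ^ (lg th ε + j) := Nat.pow_le_pow_right (by norm_num) (by omega)
  have hKlo : e' ^ (-th) ≤ (((2 : ℕ) ^ lg th e' : ℕ) : ℝ) := by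
    push_cast
    exact lg_lo he'
  obtain ⟨w1, w2⟩ := u10 _ hKlo
  refine h (2 ^ (m + lg th ε + j)) b (2 ^ (lg th ε + j)) (2 ^ m) (tn n) (4 ^ (m - n))
    (2 * 4 ^ (m - n) * √ε) η (a + η * (2 * W ^ 2 + 2)) (ε ^ (1 / 8 : ℝ)) hbb1 hbb2 hXm
    (hX1.trans hK1) hP (by push_cast; exact v3) t2 ?_ (2 ^ lg th e') hX1 hK1 ?_ w1
    (e' ^ (1 / 4 : ℝ)) ?_ (2 ^ r) ys X₀ ?_ ?_ u7 hX0m ?_
  · -- `n e ^ 5 ≤ 1`
    push_cast
    calc (2 : ℝ) ^ (lg th ε + j) * (ε ^ (1 / 8 : ℝ)) ^ 5 ≤ (8 * ε ^ (-th)) * (ε ^ (1 / 8 : ℝ)) ^ 5 := by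
          gcongr
      _ = 8 * ε ^ (5 / 8 - th) := by
          rw [← Real.rpow_natCast, ← Real.rpow_mul hε.le, mul_assoc, ← Real.rpow_add hε]
          congr 2
          norm_num
          ring
      _ ≤ 8 * ε ^ (9 / 16 : ℝ) := by
          apply mul_le_mul_of_nonneg_left _ (by norm_num)
          exact Real.rpow_le_rpow_of_exponent_ge hε hε1 (by linarith)
      _ ≤ 1 := t3
  · -- `K z ≤ c`
    push_cast
    have k1 : (2 : ℝ) ^ lg th e' ≤ 4 * ε ^ (-th) := by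
      calc (2 : ℝ) ^ lg th e' ≤ 2 ^ (lg th ε + 1) := pow_le_pow_right₀ one_le_two hKe
        _ = 2 ^ lg th ε * 2 := pow_succ _ _
        _ ≤ (2 * ε ^ (-th)) * 2 := by
            have := lg_hi hth.le hε hε1
            gcongr
        _ = 4 * ε ^ (-th) := by ring
    -- `z ≤ 512 ε ^ (1/2 - 8 thp)`
    have k2 : 2 * 4 ^ (m - n) * √ε ≤ 512 * ε ^ (1 / 2 - 8 * thp) := by
      have a1 : (4 : ℝ) ^ (m - n) ≤ 256 * ε ^ (-(8 * thp)) := by
        calc (4 : ℝ) ^ (m - n) ≤ 4 ^ (4 * lg thp ε) := pow_le_pow_right₀ (by norm_num) hd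
          _ = ((2 : ℝ) ^ lg thp ε) ^ 8 := by
              rw [← pow_mul, show (4 : ℝ) = 2 ^ 2 by norm_num, ← pow_mul]; congr 1; ring
          _ ≤ (2 * ε ^ (-thp)) ^ 8 := pow_le_pow_left₀ (by positivity) (lg_hi hthp.le hε hε1) 8
          _ = 256 * ε ^ (-(8 * thp)) := by
              rw [mul_pow, ← Real.rpow_natCast (ε ^ (-thp)), ← Real.rpow_mul hε.le]
              norm_num
              ring_nf
      calc 2 * 4 ^ (m - n) * √ε ≤ 2 * (256 * ε ^ (-(8 * thp))) * √ε := by gcongr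
        _ = 512 * (ε ^ (1 / 2 : ℝ) * ε ^ (-(8 * thp))) := by rw [Real.sqrt_eq_rpow]; ring
        _ = 512 * ε ^ (1 / 2 - 8 * thp) := by rw [← Real.rpow_add hε]; congr 1
    calc (2 : ℝ) ^ lg th e' * (2 * 4 ^ (m - n) * √ε) ≤
        (4 * ε ^ (-th)) * (512 * ε ^ (1 / 2 - 8 * thp)) := by gcongr
      _ = 2048 * ε ^ (1 / 2 - 8 * thp - th) := by
          rw [show (4 * ε ^ (-th)) * (512 * ε ^ (1 / 2 - 8 * thp)) =
            2048 * (ε ^ (1 / 2 - 8 * thp) * ε ^ (-th)) by ring, ← Real.rpow_add hε]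
          congr 1
      _ ≤ 2048 * ε ^ (7 / 16 : ℝ) := by
          apply mul_le_mul_of_nonneg_left _ (by norm_num)
          exact Real.rpow_le_rpow_of_exponent_ge hε hε1 (by linarith)
      _ ≤ c := t4
  · -- `C (z + exp (- c K)) ≤ e' ^ (1/4)`
    have k3 : C * (2 * 4 ^ (m - n) * √ε) ≤ 1 / 2 * e' ^ (1 / 4 : ℝ) := by
      have k4 : ε ^ (1 / 4 : ℝ) ≤ 4 * e' ^ (1 / 4 : ℝ) := by
        calc ε ^ (1 / 4 : ℝ) ≤ (2 * e') ^ (1 / 4 : ℝ) :=
              Real.rpow_le_rpow hε.le (by linarith) (by norm_num)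
          _ = 2 ^ (1 / 4 : ℝ) * e' ^ (1 / 4 : ℝ) := Real.mul_rpow (by norm_num) he'.le
          _ ≤ 4 * e' ^ (1 / 4 : ℝ) := by
              apply mul_le_mul_of_nonneg_right _ (Real.rpow_nonneg he'.le _)
              calc (2 : ℝ) ^ (1 / 4 : ℝ) ≤ 2 ^ (1 : ℝ) :=
                    Real.rpow_le_rpow_of_exponent_le one_le_two (by norm_num)
                _ ≤ 4 := by norm_num
      calc C * (2 * 4 ^ (m - n) * √ε) ≤ C * (512 * ε ^ (7 / 16 : ℝ)) := by gcongr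
        _ = 1 / 8 * (4096 * C * ε ^ (3 / 16 : ℝ)) * ε ^ (1 / 4 : ℝ) := by
            have : ε ^ (7 / 16 : ℝ) = ε ^ (3 / 16 : ℝ) * ε ^ (1 / 4 : ℝ) := by
              rw [← Real.rpow_add hε]; norm_num
            rw [this]; ring
        _ ≤ 1 / 8 * 1 * (4 * e' ^ (1 / 4 : ℝ)) := by gcongr
        _ = 1 / 2 * e' ^ (1 / 4 : ℝ) := by ring
    calc C * (2 * 4 ^ (m - n) * √ε + Real.exp (-(c * (((2 : ℕ) ^ lg th e' : ℕ) : ℝ)))) =
        C * (2 * 4 ^ (m - n) * √ε) +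
          C * Real.exp (-(c * (((2 : ℕ) ^ lg th e' : ℕ) : ℝ))) := by ring
      _ ≤ 1 / 2 * e' ^ (1 / 4 : ℝ) + 1 / 2 * e' ^ (1 / 4 : ℝ) := add_le_add k3 w2
      _ = e' ^ (1 / 4 : ℝ) := by ring
  · rw [← pow_add]
    exact Nat.pow_le_pow_right (by norm_num) (by omega)
  · exact pow_dvd_pow _ (by omega)
  · calc X₀ * 2 ^ m ≤ 2 ^ lg th e' * 2 ^ m := Nat.mul_le_mul_right _ hX2
      _ = 2 ^ (lg th e' + m) := by rw [pow_add]
      _ ≤ 2 ^ r := Nat.pow_le_pow_right (by norm_num) (by omega)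

/-- **field (iii) at level `m`** from the flat profile and the zero background number at level `n`
on the ONE torus `2 ^ (m + kE ε + 1)` -/
theorem rng_step {b1 : ℝ} (hb1 : 0 < b1) (b2 : ℝ) :
    ∃ W₀ : ℝ, ∀ W : ℝ, W₀ ≤ W → ∀ th thp x1 ys : ℝ, 0 < th → 0 < thp →
      12 * thp + th ≤ 1 / 16 → th ≤ 3 * x1 → 0 < ys → ∀ X₀ : ℕ, ∃ (es : ℝ) (M₀ : ℕ), 0 < es ∧
    ∀ P : Par, P.b1 = b1 → P.b2 = b2 → P.W = W → P.ys = ys → P.X0 = X₀ → P.th = th →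
      P.thp = thp → P.x1 = x1 → P.es ≤ es →
    ∀ (b : ℝ) (n m : ℕ) (ε a η : ℝ), b1 ≤ b → b ≤ b2 → 0 < ε → ε ≤ P.es → M₀ ≤ n →
      n + P.w ε ≤ m → m ≤ n + 4 * P.w ε → 0 ≤ η → η ≤ ε ^ (1 / 4 : ℝ) →
      11 / 10 ≤ a → a ≤ 19 / 10 → FL b (tn n) a η (2 ^ (m + P.kE ε + 1)) →
      yt (2 ^ (m + P.kE ε + 1)) b (tn n) ≤ √ε →
      ∀ e' : ℝ, ε / 2 ≤ e' → e' ≤ P.es → ∀ r, P.TT m e' r ∨ r = m + 3 * P.xE e' →
        RNG P b m r e' ∧ RNG P b (m - 1) r e' := by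
  obtain ⟨W₀, h⟩ := rng_core hb1 b2
  refine ⟨W₀, fun W hW th thp x1 ys hth hthp hex hx1 hys X₀ => ?_⟩
  obtain ⟨es, M₀, hes, hes4, h⟩ := h W hW th thp ys hth hthp hex hys X₀
  refine ⟨es, M₀, hes, ?_⟩
  intro P p1 p2 p3 p4 p5 p6 p7 p8 hPes b n m ε a η hbb1 hbb2 hε hεe hM hnm hmn hη0 hη ha1 ha2 hFL
    hyt e' he'1 he'2 r hr
  subst p1 p2 p3 p4 p5 p6 p7 p8
  have he' : 0 < e' := by linarith
  have hw1 : 1 ≤ P.w ε := H972.w1 hε hεe
  have hrm : m + lg P.th e' ≤ r := by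
    rcases hr with hr | hr
    · exact hr.1
    · rw [hr]
      have h1 : 0 ≤ Real.logb 2 (1 / e') :=
        Real.logb_nonneg one_lt_two (by
          rw [le_div_iff₀ he']
          have := P.es1
          linarith)
      have h2 : lg P.th e' ≤ 3 * P.xE e' := by
        unfold Par.xE lg
        rw [Nat.ceil_le]
        push_cast
        have h3 := Nat.le_ceil (P.x1 * Real.logb 2 (1 / e'))
        have h4 : P.th * Real.logb 2 (1 / e') ≤ 3 * P.x1 * Real.logb 2 (1 / e') :=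
          mul_le_mul_of_nonneg_right hx1 h1
        linarith
      omega
  constructor
  · exact h b n m 1 ε a η hbb1 hbb2 hε (hεe.trans hPes) (by omega) hmn (by omega) le_rfl
      (by norm_num) hη0 hη ha1 ha2 hFL hyt e' he'1 (he'2.trans hPes) r hrm
  · obtain ⟨m', rfl⟩ : ∃ m', m = m' + 1 := ⟨m - 1, by omega⟩
    have e1 : m' + 1 + P.kE ε + 1 = m' + lg P.th ε + 2 := by
      unfold Par.kE
      omega
    have e2 : m' + 1 - 1 = m' := rfl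
    rw [e1] at hFL hyt
    rw [e2]
    exact h b n m' 2 ε a η hbb1 hbb2 hε (hεe.trans hPes) (by omega)
      (le_trans (Nat.le_succ _) hmn) (by omega)
      (by norm_num) le_rfl hη0 hη ha1 ha2 hFL hyt e' he'1 (he'2.trans hPes) r (by omega)

/-- the same from the fields of the state: flat profile of level `n` with the stiffness `a`
(constant `c0`, for instance `c0 = 17` and the common `a n` of `exists_stiff`), and the bound
`yt ≤ max Y ε`, `Y ^ 2 ≤ ε` of the zero background number -/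
theorem rng_step' {b1 : ℝ} (hb1 : 0 < b1) (b2 : ℝ) :
    ∃ W₀ : ℝ, ∀ W : ℝ, W₀ ≤ W → ∀ th thp x1 ys pf c0 : ℝ, 0 < th → 0 < thp →
      12 * thp + th ≤ 1 / 16 → th ≤ 3 * x1 → 0 < ys → 1 / 4 < pf → 0 ≤ c0 → ∀ X₀ : ℕ,
      ∃ (es : ℝ) (M₀ : ℕ), 0 < es ∧
    ∀ P : Par, P.b1 = b1 → P.b2 = b2 → P.W = W → P.ys = ys → P.X0 = X₀ → P.th = th →
      P.thp = thp → P.x1 = x1 → P.pf = pf → 2 ≤ P.q0 → P.es ≤ es →
    ∀ (b : ℝ) (n m : ℕ) (ε a Y : ℝ), b1 ≤ b → b ≤ b2 → 0 < ε → ε ≤ P.es → M₀ ≤ n →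
      n + P.w ε ≤ m → m ≤ n + 4 * P.w ε → 11 / 10 ≤ a → a ≤ 19 / 10 →
      (∀ r, P.TT n ε r → FL b (tn n) a (c0 * ε ^ P.pf) (2 ^ r)) →
      (∀ r, n + P.kE ε ≤ r → yt (2 ^ r) b (tn n) ≤ max Y ε) → Y ^ 2 ≤ ε →
      ∀ e' : ℝ, ε / 2 ≤ e' → e' ≤ P.es → ∀ r, P.TT m e' r ∨ r = m + 3 * P.xE e' →
        RNG P b m r e' ∧ RNG P b (m - 1) r e' := by
  obtain ⟨W₀, h⟩ := rng_step hb1 b2
  refine ⟨W₀, fun W hW th thp x1 ys pf c0 hth hthp hex hx1 hys hpf hc0 X₀ => ?_⟩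
  obtain ⟨es, M₀, hes, h⟩ := h W hW th thp x1 ys hth hthp hex hx1 hys X₀
  obtain ⟨e1, he1, h1⟩ := small_rpow (s := pf - 1 / 4) (A := c0) (by linarith) one_pos
  refine ⟨min es e1, M₀, lt_min hes he1, ?_⟩
  intro P p1 p2 p3 p4 p5 p6 p7 p8 p9 hq0 hPes b n m ε a Y hbb1 hbb2 hε hεe hM hnm hmn ha1 ha2 hFL
    hyt hY e' he'1 he'2 r hr
  have hw1 : 1 ≤ P.w ε := H972.w1 hε hεe
  have hε1 : ε ≤ 1 := by
    have := P.es1
    linarith
  have h2 : P.w ε * 8 ≤ P.q0 * (4 * P.w ε) := by nlinarith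
  refine h P p1 p2 p3 p4 p5 p6 p7 p8 (hPes.trans (min_le_left _ _)) b n m ε a (c0 * ε ^ P.pf)
    hbb1 hbb2 hε hεe hM hnm hmn (by positivity) ?_ ha1 ha2
    (hFL _ ⟨by omega, by omega⟩) ?_ e' he'1 he'2 r hr
  · have h3 := h1 ε hε (hεe.trans (hPes.trans (min_le_right _ _)))
    rw [p9]
    calc c0 * ε ^ pf = (c0 * ε ^ (pf - 1 / 4)) * ε ^ (1 / 4 : ℝ) := by
          rw [mul_assoc, ← Real.rpow_add hε]; congr 2; ring
      _ ≤ 1 * ε ^ (1 / 4 : ℝ) := by gcongr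
      _ = ε ^ (1 / 4 : ℝ) := one_mul _
  · refine (hyt _ (by omega)).trans (max_le (Real.le_sqrt_of_sq_le hY) ?_)
    apply Real.le_sqrt_of_sq_le
    nlinarith

end

end Vale.Agent.P159.H37
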