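import Vale.Agent.P159.H145.Spc1
import Vale.Agent.P159.H552.Lq3
import Vale.Agent.P159.H37.Lq3

/-!
P159 (helper37), S, the last glue: the statements of all pairs of a level (145's `PairP`) along the
flow and the size of the weights give the output of every level.
-/

open Filter Topology Finset Matrix MeasureTheory

set_option linter.all false

namespace Vale.Agent.P159.H37.Sf

open Vale.Agent.P159.TM.Spec (V)
open Vale.Agent.P159.TM.SpecC (wT)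
open Vale.Agent.P159.H801 (SFlow itw itw_ge)
open Vale.Agent.P159.H686 (Lcl Cmp Stp wdS)
open Vale.Agent.P159.H708 (Bx WtOK)
open Vale.Agent.P159.H770 (wTD Ed)
open Vale.Agent.P159.H773 (sd nuF PsF cMn Pth)
open Vale.Agent.P159.H817 (eD Dec)
open Vale.Agent.P159.H972 (tn lg Par)
open Vale.Agent.P159.H145.Lw (LvOutQ LvQ KnW)
open Vale.Agent.P159.H145.Sp

noncomputable section

/-- the end of the window of the level `n`, exponent -/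
def kE1 (P : Par) (ck : ℝ) (y ε : ℕ → ℝ) (n : ℕ) : ℕ :=
  n + P.w (ε n) + kf ck y (n + P.w (ε n))

/-- **all pairs of the level `n`**: cut length, windows and local maps of Spc0; free: the kernel
`κ` of the mean, the cell side `q` of the door, the classes of decorations -/
def PairLv (P : Par) (b β C2 A0 : ℝ) (Am i : ℕ) (ck c3 c4 : ℝ) (a y ε : ℕ → ℝ)
    (η : ∀ R, Ed (sd i R) → ℤ) (φ : ∀ R, V (sd i R) → ℝ) (n : ℕ) : Prop :=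
  ∃ (κ : ℤ × ℤ → ℝ) (q : ℕ) (D0 D1 : Dec),
    ∀ n0 j, n = itw (fun n => P.w (ε n)) n0 j → ∀ R, 2 ^ (n + kf ck y n) ≤ R →
      R ≤ 2 ^ kE1 P ck y ε n →
      KnW b β C2 A0 Am i a (kf ck y) (fun n => P.w (ε n)) n0 j R →
      PairP (T0 κ n (kf ck y n) q (DC n (kf ck y n))) (T1 κ n (kf ck y n) q (DC n (kf ck y n)))
        D0 D1 b i η φ (tn n) (a n) n (kf ck y n) q (n + kf ck y n) (kE1 P ck y ε n) R
        (muK (sd i R) (lC n (kf ck y n)) κ) (Real.exp (-(4 * y n ^ (-c3)))) (y n ^ (1 + c4) / 16)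
        (y n ^ (-c3) / 16) (Real.exp (-(2 * y n ^ (-c3)))) (Real.exp (y n ^ (-c3) / 4))

/-- **the pairs along the flow**, in the order of constants of the final theorem -/
def PairFam (P : Par) (b β : ℝ) (Am : ℕ) (ck c3 c4 : ℝ) (a y ε : ℕ → ℝ) : Prop :=
  ∀ A0 C2 : ℝ, 8 ≤ A0 → 1 ≤ C2 → ∃ i1 : ℕ, ∀ i, i1 ≤ i → A0 ≤ 2 ^ i →
    ∀ (η : ∀ R, Ed (sd i R) → ℤ) (φ : ∀ R, V (sd i R) → ℝ), AxP i η φ →
    ∀ᶠ n in atTop, PairLv P b β C2 A0 Am i ck c3 c4 a y ε η φ n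

/-- **the size of the weights along the flow** -/
def WtFam (P : Par) (b ck c3 : ℝ) (y ε : ℕ → ℝ) : Prop :=
  ∃ i1 : ℕ, ∀ i, i1 ≤ i → ∀ᶠ n in atTop, ∀ R, 2 ^ (n + kf ck y n) ≤ R →
    R ≤ 2 ^ kE1 P ck y ε n →
    WtOK b (tn n) (1 / 4000) (Real.exp (-(4 * y n ^ (-c3)))) (sd i R)

lemma DC_eq (n k : ℕ) : DC n k = 2 ^ (n + k / 16 + 6) := by
  unfold DC lC
  rw [pow_add _ _ 6]
  ring

lemma gC_eq (i n K1 R : ℕ) : gC i n K1 R = gS i n K1 R := rfl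

/-- **ONE LEVEL** -/
theorem lv_out {b1 : ℝ} (hb1 : 0 < b1) (b2 pf : ℝ) (Q : ℕ) :
    Vale.Agent.P159.H801.Ev b1 b2 pf Q fun P _ => ∀ {b σ c c1 q2 qx : ℝ} {a y ε xs : ℕ → ℝ}
      {c' r q A : ℝ} {N : ℕ},
      SFlow P b σ c c1 q2 qx a y ε xs c' r q A N → 0 < b → 0 < σ → σ ≤ 1 / 4 → 0 ≤ c →
      4 * c ≤ σ → ∀ ck : ℝ, 0 < ck → 2 * P.th ≤ ck → ck ≤ P.thp → ∀ c3 : ℝ, 0 < c3 →
      32 * c3 ≤ ck → ∀ c4 : ℝ, 0 < c4 → ∀ (β C2 A0 : ℝ) (Am : ℕ), 1 ≤ Am → ∀ i : ℕ, 6 ≤ i →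
      A0 ≤ 2 ^ i → ∀ᶠ n in atTop,
      ∀ (η : ∀ R, Ed (sd i R) → ℤ) (φ : ∀ R, V (sd i R) → ℝ), AxP i η φ →
      (∀ R, 2 ^ (n + kf ck y n) ≤ R → R ≤ 2 ^ kE1 P ck y ε n →
        WtOK b (tn n) (1 / 4000) (Real.exp (-(4 * y n ^ (-c3)))) (sd i R)) →
      PairLv P b β C2 A0 Am i ck c3 c4 a y ε η φ n →
      ∀ n0 j, n = itw (fun n => P.w (ε n)) n0 j →
      LvOutQ b i η φ c3 c4 (y n) (a n) n (n + P.w (ε n)) (2 ^ (n + kf ck y n))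
        (2 ^ kE1 P ck y ε n) (KnW b β C2 A0 Am i a (kf ck y) (fun n => P.w (ε n)) n0 j) := by
  refine (cs_level hb1 b2 pf Q).mono fun P _ hAdm H => ?_
  intro b σ c c1 q2 qx a y ε xs c' r q A N h hb hσ0 hσ hc hc4 ck hck hck2 hck1 c3 hc3 hc3k c4 h4
    β C2 A0 Am hAm i hi hA0
  have hthp1 : P.thp ≤ 1 := by
    have := hAdm.hx
    have := hAdm.x11
    have := P.th0
    linarith
  have hKS := H552.Lq.KS_one
  filter_upwards [H h hb hσ0 hσ hc hc4 ck hck hck2 hck1 c3 hc3 hc3k i hi,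
    sf_D h hck (hck1.trans hthp1) 6, sf_big h hc3 (M := 64) (by norm_num),
    sf_big h hc3 (M := 64 * (3 + Real.pi / 2 * H773.de 1)) (by
      have := H552.Lq.de1_nonneg
      have := Real.pi_pos
      positivity),
    eventually_ge_atTop N] with n hn hD hZ64 hKS2 hNn
  intro η φ hA hWt hPL n0 j hnj
  obtain ⟨κ, qd, D0, D1, hP⟩ := hPL
  have hy := h.fl.y0 n
  have hy1 := h.y1 n hNn
  have hZ : 0 < y n ^ (-c3) := Real.rpow_pos_of_pos hy _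
  have hD1 : 1 ≤ DC n (kf ck y n) := by
    rw [DC_eq]
    exact Nat.one_le_two_pow
  have hD2 : ((DC n (kf ck y n) : ℕ) : ℝ) ≤ y n ^ (-(ck / 8)) * 2 ^ n := by
    rw [DC_eq]
    exact hD
  obtain ⟨τ, κP, hτ0, hτ1, hκ0, hκ1, hcmp, hstp⟩ := hn
    (fun R => wTD (sd i R) b (η R)) φ (fun R => H883.bw_wTD hb _) (DC n (kf ck y n)) hD1 hD2
    (1 / 4000) (Real.exp (-(4 * y n ^ (-c3)))) (by norm_num) le_rfl le_rfl hWt
  refine lvOutQ_of (measurable_T0 κ n (kf ck y n) qd (DC n (kf ck y n)))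
    (measurable_T1 κ n (kf ck y n) qd (DC n (kf ck y n))) (K := H552.Lq.KS) (τ := τ)
    (ηn := 1 / 4000) (κP := κP) (bW := Real.exp (-(4 * y n ^ (-c3)))) hb hA hy hy1 h4 hZ64 hKS ?_
    (fun R h1 h2 h5 => hP n0 j hnj R h1 h2 h5) (fun R h1 h2 h5 => ?_) hτ0 hτ1 (by norm_num)
    (by norm_num) hκ0 hκ1 (Real.exp_pos _).le (Real.exp_le_exp.2 (by linarith)) ?_ ?_
  · unfold H552.Lq.KS
    exact Real.exp_le_exp.2 (by linarith)
  · have h6 := H552.Lq.lev_K (R0 := 2 ^ (n + kf ck y n)) hb (by omega) hA0 hAm h5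
      (by rw [hnj]; rfl) h1 hA.pth
    rw [← hnj] at h6
    exact h6
  · exact fun R h1 h2 _ => hcmp R h1 h2
  · exact fun _ => hstp

/-- **THE OUTPUT OF ALL LEVELS**, in the form of the hypothesis of 145's `s_final_Q`
(= 801's `SOut`) -/
theorem lv_all {b1 : ℝ} (hb1 : 0 < b1) (b2 pf : ℝ) (Q : ℕ) :
    Vale.Agent.P159.H801.Ev b1 b2 pf Q fun P _ => ∀ {b σ c c1 q2 qx : ℝ} {a y ε xs : ℕ → ℝ}
      {c' r q A : ℝ} {N : ℕ},
      SFlow P b σ c c1 q2 qx a y ε xs c' r q A N → 0 < b → 0 < σ → σ ≤ 1 / 4 → 0 ≤ c →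
      4 * c ≤ σ → ∀ ck : ℝ, 0 < ck → 2 * P.th ≤ ck → ck ≤ P.thp → ∀ c3 : ℝ, 0 < c3 →
      32 * c3 ≤ ck → ∀ c4 : ℝ, 0 < c4 → ∀ (β : ℝ) (Am : ℕ), 1 ≤ Am →
      PairFam P b β Am ck c3 c4 a y ε → WtFam P b ck c3 y ε →
      ∀ A0 C2 : ℝ, 8 ≤ A0 → 1 ≤ C2 → ∃ i1 : ℕ, ∀ i, i1 ≤ i →
      ∃ (η : ∀ R, Ed (sd i R) → ℤ) (φ : ∀ R, V (sd i R) → ℝ), Pth i η ∧
      ∃ N1 : ℕ, ∀ n0, N1 ≤ n0 →
        ∀ j n n', Kn b β i a (kf ck y) (fun n => P.w (ε n)) n0 j →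
        n = itw (fun n => P.w (ε n)) n0 j → n' = n + P.w (ε n) →
        LvOutQ b i η φ c3 c4 (y n) (a n) n n' (2 ^ (n + kf ck y n)) (2 ^ (n' + kf ck y n'))
          (KnW b β C2 A0 Am i a (kf ck y) (fun n => P.w (ε n)) n0 j) := by
  refine (lv_out hb1 b2 pf Q).mono fun P _ hAdm H => ?_
  intro b σ c c1 q2 qx a y ε xs c' r q A N h hb hσ0 hσ hc hc4 ck hck hck2 hck1 c3 hc3 hc3k c4 h4
    β Am hAm hPF hWF A0 C2 hA0 hC2
  obtain ⟨i1, hi1⟩ := hPF A0 C2 hA0 hC2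
  obtain ⟨i2, hi2⟩ := hWF
  obtain ⟨i3, hi3⟩ := (tendsto_pow_atTop_atTop_of_one_lt (one_lt_two (α := ℝ))).eventually_ge_atTop
    A0 |>.exists_forall_of_atTop
  refine ⟨max (max i1 i2) (max i3 6), fun i hi => ?_⟩
  have g1 : i1 ≤ i := ((le_max_left _ _).trans (le_max_left _ _)).trans hi
  have g2 : i2 ≤ i := ((le_max_right _ _).trans (le_max_left _ _)).trans hi
  have g3 : i3 ≤ i := ((le_max_left _ _).trans (le_max_right _ _)).trans hi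
  have g4 : 6 ≤ i := ((le_max_right _ _).trans (le_max_right _ _)).trans hi
  obtain ⟨η, φ, hA⟩ := exists_axP (i := i) (by omega)
  refine ⟨η, φ, hA.pth, ?_⟩
  obtain ⟨N1, hN1⟩ := (((H h hb hσ0 hσ hc hc4 ck hck hck2 hck1 c3 hc3 hc3k c4 h4 β C2 A0 Am hAm i
    g4 (hi3 i g3)).and (hi1 i g1 (hi3 i g3) η φ hA)).and (hi2 i g2)).exists_forall_of_atTop
  obtain ⟨N2, hN2⟩ := ((sf_wt h hσ).eventually_ge_atTop 1).exists_forall_of_atTop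
  refine ⟨max N1 N2, fun n0 hn0 j n n' _ hnj hn' => ?_⟩
  subst hn'
  have hge : N1 ≤ n := by
    have h1 := itw_ge (w := fun n => P.w (ε n)) (N := N2) hN2 ((le_max_right _ _).trans hn0) j
    have h2 := le_max_left N1 N2
    omega
  obtain ⟨⟨h1, h2⟩, h3⟩ := hN1 n hge
  exact h1 η φ hA h3 h2 n0 j hnj

end

end Vale.Agent.P159.H37.Sf
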