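import Vale.Agent.P159.TM.H104.Mass
import Vale.Agent.P159.TM.Spec.AB

/-!
P159 / second order flow: the LANGUAGE FILE (helper37). Definitions only.

(a) abstract: `V` finite, weight `μ : (V → ℤ) → ℝ` (mass form INCLUDED), source `J : V → ℝ`,
    calculus `T, Ex, Cv, K3, Lg` of `TM/H104/Calc`.
(b) masses: symmetric positive semidefinite matrices `M`.
(c) the Gaussian channel `prior → posterior`.
(d) the torus.
(e) the neutral model and the charge sectors.
-/

namespace Vale.Agent.P159.H37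

open Finset Matrix MeasureTheory
open Vale.Agent.P159.TM.H104 (EM Ex Cv K3 Lg li nh Gr)

noncomputable section

/-! ### (a) abstract weights -/

section abstract

variable {V : Type*} [Fintype V]

/-- the weight is even -/
def Ev (μ : (V → ℤ) → ℝ) : Prop := ∀ h, μ (-h) = μ h

/-- partition function with source `J` -/
def Zs (μ : (V → ℤ) → ℝ) (J : V → ℝ) : ℝ := TM.H104.T μ J fun _ => 1

/-- mean of the field at source `J` -/
def mn (μ : (V → ℤ) → ℝ) (J : V → ℝ) : V → ℝ := fun x => Ex μ J fun h => (h x : ℝ)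

/-- covariance matrix at source `J` -/
def Cm (μ : (V → ℤ) → ℝ) (J : V → ℝ) : Matrix V V ℝ :=
  Matrix.of fun x y => Cv μ J (fun h => (h x : ℝ)) fun h => (h y : ℝ)

/-- covariance matrix at source `0` -/
def Gm (μ : (V → ℤ) → ℝ) : Matrix V V ℝ := Cm μ 0

/-- quadratic form `<u, M u>` -/
def qf (M : Matrix V V ℝ) (u : V → ℝ) : ℝ := ∑ x, ∑ y, u x * M x y * u y

/-- bilinear form `<u, M v>` -/
def bf (M : Matrix V V ℝ) (u v : V → ℝ) : ℝ := ∑ x, ∑ y, u x * M x y * v y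

/-- the non-quadratic part of `log Z` : `R(J) = log Z(J) - log Z(0) - <J, G J> / 2` -/
def Rs (μ : (V → ℤ) → ℝ) (J : V → ℝ) : ℝ := Lg μ J - Lg μ 0 - qf (Gm μ) J / 2

/-- `T(J) = log Z(2J) - 4 log Z(J) + 3 log Z(0) = R(2J) - 4 R(J)` -/
def Tq (μ : (V → ℤ) → ℝ) (J : V → ℝ) : ℝ := Lg μ ((2 : ℝ) • J) - 4 * Lg μ J + 3 * Lg μ 0

/-- `4`th joint cumulant at source `0` (even weight) -/
def K4 (μ : (V → ℤ) → ℝ) (a b c d : V → ℝ) : ℝ :=
  Ex μ 0 (fun h => li a h * li b h * li c h * li d h)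
    - Ex μ 0 (fun h => li a h * li b h) * Ex μ 0 (fun h => li c h * li d h)
    - Ex μ 0 (fun h => li a h * li c h) * Ex μ 0 (fun h => li b h * li d h)
    - Ex μ 0 (fun h => li a h * li d h) * Ex μ 0 (fun h => li b h * li c h)

/-- the duplication kernel `Z(a+c) Z(a-c)` -/
def Ker (μ : (V → ℤ) → ℝ) (a c : V → ℝ) : ℝ := Zs μ (a + c) * Zs μ (a - c)

/-- **property (PK)**: the duplication kernel is positive semidefinite -/
def PK (μ : (V → ℤ) → ℝ) : Prop :=
  ∀ (n : ℕ) (a : Fin n → V → ℝ) (c : Fin n → ℝ), 0 ≤ ∑ i, ∑ j, c i * c j * Ker μ (a i) (a j)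

end abstract

/-! ### (b) masses -/

section mass

variable {V : Type*} [Fintype V]

/-- the field as a real vector -/
def re (h : V → ℤ) : V → ℝ := fun x => (h x : ℝ)

/-- weight `w` with the mass form `<h, M h> / 2` -/
def wM (w : (V → ℤ) → ℝ) (M : Matrix V V ℝ) (h : V → ℤ) : ℝ := w h * Real.exp (-(qf M (re h) / 2))

/-- `Z_M(F) = sum_h w(h) exp (- <h - F, M (h - F)> / 2)` -/
def ZM (w : (V → ℤ) → ℝ) (M : Matrix V V ℝ) (F : V → ℝ) : ℝ :=
  ∑' h : V → ℤ, w h * Real.exp (-(qf M (re h - F) / 2))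

/-- the self energy `Π_M = G_M⁻¹ - M` -/
def PiM [DecidableEq V] (w : (V → ℤ) → ℝ) (M : Matrix V V ℝ) : Matrix V V ℝ :=
  (Gm (wM w M))⁻¹ - M

end mass

/-! ### (c) the channel -/

section channel

variable {V : Type*} [Fintype V] {I : Type*} [Fintype I]

/-- the standard Gaussian measure of `I → ℝ` -/
def gau (I : Type*) [Fintype I] : Measure (I → ℝ) :=
  Measure.pi fun _ : I => ProbabilityTheory.gaussianReal 0 1

/-- posterior weight: prior `μ'`, observation `P h + noise` -/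
def post (μ' : (V → ℤ) → ℝ) (P : Matrix I V ℝ) (h : V → ℤ) : ℝ :=
  μ' h * Real.exp (-((∑ i, (P *ᵥ re h) i ^ 2) / 2))

/-- `E Φ(J)`, `J = J₁ + Pᵀ (P h + B)`, `h` distributed according to the prior `μ'` tilted by the
source `J₁`, `B` standard Gaussian: this is the law of the source of the posterior. In density form:
`J = J₁ + Pᵀ g`, `g` Gaussian, density proportional to `Z_post(J)` -/
def Ech (μ' : (V → ℤ) → ℝ) (J₁ : V → ℝ) (P : Matrix I V ℝ) (Φ : (V → ℝ) → ℝ) : ℝ :=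
  (∫ g, Φ (J₁ + Pᵀ *ᵥ g) * Zs (post μ' P) (J₁ + Pᵀ *ᵥ g) ∂(gau I)) /
    ∫ g, Zs (post μ' P) (J₁ + Pᵀ *ᵥ g) ∂(gau I)

/-- matrix valued version -/
def EchM (μ' : (V → ℤ) → ℝ) (J₁ : V → ℝ) (P : Matrix I V ℝ) (Φ : (V → ℝ) → Matrix V V ℝ) :
    Matrix V V ℝ :=
  Matrix.of fun x y => Ech μ' J₁ P fun J => Φ J x y

/-- mean posterior covariance `Cbar` -/
def Cbar (μ' : (V → ℤ) → ℝ) (J₁ : V → ℝ) (P : Matrix I V ℝ) : Matrix V V ℝ :=
  EchM μ' J₁ P (Cm (post μ' P))

end channel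

/-! ### (d) the torus -/

section torus

open Vale.Agent.P159.TM.Spec (V)

variable (N : ℕ) [NeZero N]

/-- `l⁻¹` times the indicators of the cells of side `l` (orthonormal when `l ∣ N`) -/
def cob (l : ℕ) : Matrix (Fin (N / l) × Fin (N / l)) (V N) ℝ :=
  Matrix.of fun c x => if x.1.val / l = c.1.val ∧ x.2.val / l = c.2.val then (l : ℝ)⁻¹ else 0

/-- projection on the functions which are constant on the cells of side `l` -/
def cellP (l : ℕ) : Matrix (V N) (V N) ℝ := (cob N l)ᵀ * cob N l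

/-- the torus weight with scalar mass `t` (`ξ = t^(-1/2)`) -/
def wt (b t : ℝ) : (V N → ℤ) → ℝ :=
  wM (Vale.Agent.P159.TM.SpecC.wT b N) (t • (1 : Matrix (V N) (V N) ℝ))

/-- covariance kernel with scalar mass `t`: `G_t(z) = Cov (h_0, h_z)` -/
def Gt (b t : ℝ) (z : V N) : ℝ := Gm (wt N b t) 0 z

/-- `Ĝ_t(k)` -/
def Ght (b t : ℝ) (k : V N) : ℝ := Vale.Agent.P159.TM.H764.Gh (Gt N b t) k

/-- self energy at momentum `k` -/
def Pik (b t : ℝ) (k : V N) : ℝ := (Ght N b t k)⁻¹ - t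

end torus

/-! ### (e) the neutral model and the charge sectors (backgrounds `F`, any mass form) -/

section neutral

variable {V : Type*} [Fintype V]

/-- neutral partition function -/
def Zn (w : (V → ℤ) → ℝ) (M : Matrix V V ℝ) (F : V → ℝ) : ℝ :=
  ∫ c in (0 : ℝ)..1, ZM w M fun x => F x + c

/-- charge sector `q` -/
def Zq (w : (V → ℤ) → ℝ) (M : Matrix V V ℝ) (q : ℤ) (F : V → ℝ) : ℂ :=
  ∫ c in (0 : ℝ)..1, (ZM w M (fun x => F x + c) : ℂ) *
    Complex.exp (-(2 * Real.pi * q * c) * Complex.I)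

/-- neutral free energy `U⁰(F) = - log (Z⁰(F) / Z⁰(0))` -/
def Un (w : (V → ℤ) → ℝ) (M : Matrix V V ℝ) (F : V → ℝ) : ℝ := -Real.log (Zn w M F / Zn w M 0)

end neutral

end

end Vale.Agent.P159.H37
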