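import Vale.Agent.P159.H612.Nker3
import Vale.Agent.P159.H43.Osc

/-!
P159 (helper37), module RNGX, part c: the integer covariance and the neutral covariance.

* `star_qf`: `<u, C_J u> ≤ <u, G u> + 60 √δ |u|²/t` if `T(J) ≤ 4 δ ≤ 1` (STAR with the crude fourth
  moment).
* `Gnh_le`: `t Ĝ⁰(k) ≤ t Ĝ(k) + 60 √δ` for `k ≠ 0`, `δ` = oscillation of `log Z(c)`.
* `osc_le`: the oscillation is at most `N² Π(0) / 4`.
* `Pik_le_of_Pin`: the integer self energy from the neutral one.
-/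

set_option linter.unusedSectionVars false

namespace Vale.Agent.P159.H37

open Vale.Agent.P159.TM.H104 (EM Ex Cv Lg Gr li)
open Vale.Agent.P159.TM.Spec (V GT)
open Vale.Agent.P159.TM.SpecC (Tor wT)
open Vale.Agent.P159.TM.H764 (EE Gh cN sN dt)
open Vale.Agent.P159.H612 (SubG ZC GA pv pav_mono pav_const cont_Cmc Ex_four_le subG_wt)
open Vale.Agent.P159.H963 (Gnh Pin Neu)
open Vale.Agent.P159.H864 (sym)

section gen

variable {V : Type*} [Fintype V] {μ : (V → ℤ) → ℝ}

/-- covariance in a background, from `T` and the crude fourth moment -/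
theorem star_qf (hμ : EM μ) (he : Ev μ) (hK : PK μ) {t δ : ℝ} (ht : 0 < t) (hS : SubG μ t)
    {J : V → ℝ} (hT : Tq μ J ≤ 4 * δ) (hδ : 4 * δ ≤ 1) (u : V → ℝ) :
    qf (Cm μ J) u ≤ qf (Gm μ) u + 60 * √δ * ((∑ x, u x ^ 2) / t) := by
  have hT0 := H789.Tq_nonneg hμ he hK J
  have hδ0 : 0 ≤ δ := by linarith
  have hS0 : 0 ≤ ∑ x, u x ^ 2 := Finset.sum_nonneg fun _ _ => sq_nonneg _
  rcases hS0.eq_or_lt with h0 | h0
  · have hz : u = 0 := by
      funext x
      have := (Finset.sum_eq_zero_iff_of_nonneg fun x _ => sq_nonneg (u x)).1 h0.symm x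
        (Finset.mem_univ x)
      exact pow_eq_zero_iff (by norm_num) |>.1 this
    rw [hz, qf_zero_vec, qf_zero_vec]
    simp
  set S := ∑ x, u x ^ 2 with hSd
  set s := √(t / S) with hs
  have hs2 : s ^ 2 = t / S := Real.sq_sqrt (by positivity)
  have hs0 : 0 < s := Real.sqrt_pos.2 (by positivity)
  have hsum : ∑ x, (s • u) x ^ 2 ≤ t := by
    have e : ∀ x, (s • u) x ^ 2 = s ^ 2 * u x ^ 2 := fun x => by
      simp only [Pi.smul_apply, smul_eq_mul]
      ring
    rw [Finset.sum_congr rfl fun x _ => e x, ← Finset.mul_sum, hs2, ← hSd]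
    refine le_of_eq ?_
    field_simp
  have h4 : K4 μ (s • u) (s • u) (s • u) (s • u) ≤ 900 := by
    have h5 := Ex_four_le hμ ht hS hsum
    have h6 : Real.exp (1 / 8) ≤ 1.15 := by
      have h7 := Real.exp_bound' (x := 1 / 8) (by norm_num) (by norm_num) (n := 3) (by norm_num)
      refine h7.trans ?_
      norm_num [Finset.sum_range_succ, Nat.factorial]
    have e1 : (fun h : V → ℤ => li (s • u) h * li (s • u) h * li (s • u) h * li (s • u) h) =
        fun h => (li (s • u) h ^ 2) ^ 2 := by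
      funext h
      ring
    have h8 := mul_self_nonneg (Ex μ 0 fun h => li (s • u) h * li (s • u) h)
    unfold K4
    rw [e1]
    linarith
  have h1 := H789.star_bf hμ he hK J (s • u) (s • u)
  rw [bf_self, bf_self] at h1
  have h2 : Real.exp (Tq μ J) - 1 ≤ 8 * δ := by
    have h3 : Tq μ J ≤ 1 := hT.trans hδ
    have h4 := Real.exp_bound_div_one_sub_of_interval' (x := Tq μ J / 2)
    have h5 : Real.exp (Tq μ J) ≤ 1 + 2 * Tq μ J := by
      have h6 := Real.abs_exp_sub_one_le (x := Tq μ J) (by rwa [abs_of_nonneg hT0])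
      rw [abs_of_nonneg hT0] at h6
      have := (abs_le.1 h6).2
      linarith
    linarith
  have h3 : (qf (Cm μ J) (s • u) - qf (Gm μ) (s • u)) ^ 2 ≤ 3600 * δ := by
    refine h1.trans ?_
    have hk := H789.K4_nonneg' hμ he hK (s • u) (s • u)
    have he1 : 0 ≤ Real.exp (Tq μ J) - 1 := by
      have := Real.add_one_le_exp (Tq μ J)
      linarith
    calc 1 / 2 * (Real.exp (Tq μ J) - 1) * K4 μ (s • u) (s • u) (s • u) (s • u) ≤
        1 / 2 * (8 * δ) * 900 := by gcongr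
      _ = 3600 * δ := by ring
  have h5 : qf (Cm μ J) (s • u) - qf (Gm μ) (s • u) ≤ 60 * √δ := by
    have h6 := Real.abs_le_sqrt h3
    have h7 : √(3600 * δ) = 60 * √δ := by
      rw [Real.sqrt_mul (by norm_num)]
      congr 1
      rw [Real.sqrt_eq_iff_mul_self_eq (by norm_num) (by norm_num)]
      norm_num
    rw [h7] at h6
    exact (le_abs_self _).trans h6
  rw [qf_smul, qf_smul, hs2] at h5
  have h6 : t / S * (qf (Cm μ J) u - qf (Gm μ) u) ≤ 60 * √δ := by linarith
  have h7 := mul_le_mul_of_nonneg_left h6 (by positivity : 0 ≤ S / t)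
  have h8 : S / t * (t / S * (qf (Cm μ J) u - qf (Gm μ) u)) = qf (Cm μ J) u - qf (Gm μ) u := by
    field_simp
  have h9 : S / t * (60 * √δ) = 60 * √δ * (S / t) := by ring
  rw [h8, h9] at h7
  linarith

end gen

variable {N : ℕ} [NeZero N] {b t : ℝ}

/-- the neutral covariance form is close to the integer one -/
theorem qf_GA_le (hb : 0 ≤ b) (ht : 0 < t) {δ : ℝ}
    (hosc : ∀ c d : ℝ, Real.log (ZC N b t c) - Real.log (ZC N b t d) ≤ δ) (hδ : 4 * δ ≤ 1)
    (u : V N → ℝ) :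
    qf (GA N b t) u ≤ qf (Gm (wt N b t)) u + 60 * √δ * ((∑ x, u x ^ 2) / t) := by
  have hw := H963.gw_wT (N := N) hb
  have hM := H963.mf_smul (N := N) ht
  have h1 : qf (GA N b t) u = pv N b t fun c => qf (Cm (wt N b t) fun _ => t * c) u :=
    H612.qf_Gav hw hM u
  have hcont : Continuous fun c : ℝ => qf (Cm (wt N b t) fun _ => t * c) u := by
    unfold qf
    refine continuous_finsetSum _ fun x _ => continuous_finsetSum _ fun y _ => ?_
    exact ((cont_Cmc hw hM x y).const_mul (u x)).mul_const (u y)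
  have h2 := pav_mono hw hM hcont
    (continuous_const (y := qf (Gm (wt N b t)) u + 60 * √δ * ((∑ x, u x ^ 2) / t))) fun c =>
      star_qf (H789.em_wt hb ht) H789.ev_wt (H789.pk_wt hb ht) ht (subG_wt hb ht)
        (H612.Tq_const_le hb ht hosc c) hδ u
  rw [pav_const hw hM] at h2
  rw [h1]
  exact h2

/-- **the neutral symbol is at most the integer symbol plus `60 √δ / t`** -/
theorem Gnh_le (hb : 0 ≤ b) (ht : 0 < t) {δ : ℝ}
    (hosc : ∀ c d : ℝ, Real.log (ZC N b t c) - Real.log (ZC N b t d) ≤ δ) (hδ : 4 * δ ≤ 1)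
    {k : V N} (hk : k ≠ 0) : t * Gnh N b t k ≤ t * Ght N b t k + 60 * √δ := by
  have h1 := qf_GA_le hb ht hosc hδ fun x => cN (dt k x)
  have h2 := qf_GA_le hb ht hosc hδ fun x => sN (dt k x)
  have h3 := H864.qf_wave (H612.ti_GA (N := N) hb ht) k
  have h4 := H864.qf_wave (H864.ti_Gm_wt (N := N) (b := b) t) k
  have h5 := TM.H764.sq_wave k
  rw [H612.sym_GA hb ht hk] at h3
  rw [H864.sym_Gm_wt] at h4
  have hN : (0 : ℝ) < (N : ℝ) ^ 2 := H864.N_pos
  have hN0 : (N : ℝ) ≠ 0 := fun h => by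
    rw [h] at hN
    norm_num at hN
  have h6 : 60 * √δ * ((∑ x : V N, cN (dt k x) ^ 2) / t) +
      60 * √δ * ((∑ x : V N, sN (dt k x) ^ 2) / t) = 60 * √δ * ((N : ℝ) ^ 2 / t) := by
    rw [← h5]
    ring
  have h7 : (N : ℝ) ^ 2 * Gnh N b t k ≤
      (N : ℝ) ^ 2 * Ght N b t k + 60 * √δ * ((N : ℝ) ^ 2 / t) := by
    rw [← h3, ← h4]
    linarith
  have h8 := mul_le_mul_of_nonneg_left h7 (by positivity : 0 ≤ t / (N : ℝ) ^ 2)
  have e1 : t / (N : ℝ) ^ 2 * ((N : ℝ) ^ 2 * Gnh N b t k) = t * Gnh N b t k := by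
    field_simp
  have e2 : t / (N : ℝ) ^ 2 * ((N : ℝ) ^ 2 * Ght N b t k + 60 * √δ * ((N : ℝ) ^ 2 / t)) =
      t * Ght N b t k + 60 * √δ := by
    field_simp
  rwa [e1, e2] at h8

/-- the oscillation constant of the torus -/
theorem Lc_tor (b t : ℝ) : H43.Lc (wT b N) (t • (1 : Matrix (Tor N) (Tor N) ℝ)) =
    t * (N : ℝ) ^ 2 * (1 - t * Ght N b t 0) := by
  have hrow : (t • (1 : Matrix (Tor N) (Tor N) ℝ)).mulVec 1 = t • (1 : Tor N → ℝ) := by
    rw [Matrix.smul_mulVec, Matrix.one_mulVec]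
  rw [H43.Lc_row hrow]
  have h1 : qf (Gm (wM (wT b N) (t • (1 : Matrix (Tor N) (Tor N) ℝ)))) 1 =
      (N : ℝ) ^ 2 * Ght N b t 0 := by
    have e1 : ∀ x : Tor N, ∑ y : Tor N, (1 : Tor N → ℝ) x *
        Gm (wM (wT b N) (t • (1 : Matrix (Tor N) (Tor N) ℝ))) x y * (1 : Tor N → ℝ) y =
        Ght N b t 0 := by
      intro x
      rw [H864.Ght_zero_eq]
      simp only [Pi.one_apply, one_mul, mul_one]
      rw [← Equiv.sum_comp (Equiv.subRight x) fun z => Gt N b t z]
      refine Finset.sum_congr rfl fun y _ => ?_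
      exact H864.Gm_wt t x y
    unfold H37.qf
    rw [Finset.sum_congr rfl fun x _ => e1 x, Finset.sum_const, Finset.card_univ,
      Fintype.card_prod, ZMod.card, nsmul_eq_mul]
    push_cast
    ring
  rw [h1, Fintype.card_prod, ZMod.card]
  push_cast
  ring

/-- `log Z(c)` in the letters of the oscillation -/
theorem log_ZC_LM (hb : 0 ≤ b) (ht : 0 < t) (c : ℝ) : Real.log (ZC N b t c) =
    H145.LM (wT b N) (t • (1 : Matrix (Tor N) (Tor N) ℝ)) (H145.cs (0 : Tor N → ℝ) c) := by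
  have hE := H789.em_wt (N := N) hb ht
  have hM : (t • (1 : Matrix (Tor N) (Tor N) ℝ)).transpose = t • 1 := by
    rw [Matrix.transpose_smul, Matrix.transpose_one]
  rw [H612.log_ZC hb ht, H145.LM_eq hM hE]
  have e1 : (t • (1 : Matrix (Tor N) (Tor N) ℝ)).mulVec (H145.cs (0 : Tor N → ℝ) c) =
      fun _ => t * c := by
    rw [H612.mulVec_one_smul]
    funext x
    simp [H145.cs]
  have e2 : qf (t • (1 : Matrix (Tor N) (Tor N) ℝ)) (H145.cs (0 : Tor N → ℝ) c) =
      t * (N : ℝ) ^ 2 * c ^ 2 := by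
    rw [qf_smul_one]
    have e3 : ∀ x : Tor N, H145.cs (0 : Tor N → ℝ) c x ^ 2 = c ^ 2 := fun x => by simp [H145.cs]
    simp only [e3]
    rw [Finset.sum_const, Finset.card_univ, nsmul_eq_mul, H612.card_tor]
    ring
  rw [e1, e2]
  have e4 : wM (wT b N) (t • (1 : Matrix (Tor N) (Tor N) ℝ)) = wt N b t := rfl
  rw [e4]
  ring

/-- **the oscillation of `log Z(c)` from the self energy of the constant mode** -/
theorem osc_le (hb : 0 < b) (ht : 0 < t) (c d : ℝ) :
    Real.log (ZC N b t c) - Real.log (ZC N b t d) ≤ (N : ℝ) ^ 2 * Pik N b t 0 / 4 := by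
  have hM : (t • (1 : Matrix (Tor N) (Tor N) ℝ)).transpose = t • 1 := by
    rw [Matrix.transpose_smul, Matrix.transpose_one]
  have hper : H145.Per (wT b N) := by
    have := H612.per_wTD (N := N) (b := b) 0
    rwa [H770.wTD_zero] at this
  have h1 := H43.LM_osc hper hM (H789.em_wt (N := N) hb.le ht) H789.ev_wt
    (H789.pk_wt hb.le ht) (0 : Tor N → ℝ) c d
  rw [Lc_tor] at h1
  rw [log_ZC_LM hb.le ht, log_ZC_LM hb.le ht]
  refine h1.trans ?_
  have h2 := H864.Pik_nonneg (N := N) hb ht 0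
  have h3 : t * (1 - t * Ght N b t 0) ≤ Pik N b t 0 := by
    rw [H864.Ght_eq_inv hb ht]
    set P := Pik N b t 0 with hP
    have e : t * (1 - t * (t + P)⁻¹) = t * P / (t + P) := by
      field_simp
      ring
    rw [e, div_le_iff₀ (by positivity)]
    nlinarith
  have h4 := mul_le_mul_of_nonneg_left h3 (sq_nonneg (N : ℝ))
  linarith

/-- **the integer self energy from the neutral one** -/
theorem Pik_le_of_Pin (hb : 0 < b) (ht : 0 < t) {δ p B : ℝ}
    (hosc : ∀ c d : ℝ, Real.log (ZC N b t c) - Real.log (ZC N b t d) ≤ δ) {k : V N} (hk : k ≠ 0)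
    (hp : Pin N b t k ≤ p) (hpB : p ≤ B * t) (hB : 0 ≤ B) (hs : 120 * √δ * (1 + B) ≤ 1)
    (hδ : 4 * δ ≤ 1) : Pik N b t k ≤ p + 120 * √δ * (1 + B) ^ 2 * t := by
  have h1 := Gnh_le hb.le ht hosc hδ hk
  have hg := H963.Gnh_pos (N := N) hb ht hk
  have hG := H864.Ght_pos (N := N) hb ht k
  have hPn := H963.Pin_nonneg (N := N) hb ht hk
  have e1 : Gnh N b t k = (t + Pin N b t k)⁻¹ := by
    unfold H963.Pin
    rw [add_sub_cancel, inv_inv]
  set ε := 60 * √δ with hε
  have hε0 : 0 ≤ ε := by positivity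
  have hp0 : 0 ≤ p := hPn.trans hp
  -- lower bound of `t Ĝ`
  have h2 : (t + p)⁻¹ ≤ Gnh N b t k := by
    rw [e1]
    exact inv_anti₀ (by positivity) (by linarith)
  have h3 : t * (t + p)⁻¹ - ε ≤ t * Ght N b t k := by
    have := mul_le_mul_of_nonneg_left h2 ht.le
    linarith
  -- `x = t / (t + p)`
  set x := t * (t + p)⁻¹ with hx
  have hx0 : 0 < x := by positivity
  have hxB : 1 / (1 + B) ≤ x := by
    rw [hx, ← div_eq_mul_inv, div_le_div_iff₀ (by positivity) (by positivity)]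
    nlinarith
  have hεx : ε ≤ x / 2 := by
    have h4 : ε ≤ 1 / (1 + B) / 2 := by
      rw [le_div_iff₀ (by norm_num), le_div_iff₀ (by positivity)]
      rw [hε]
      linarith
    linarith
  have hG2 : (Ght N b t k)⁻¹ ≤ t / (x - ε) := by
    rw [inv_le_comm₀ hG (by apply div_pos ht; linarith), inv_div, div_le_iff₀ ht]
    linarith
  have h5 : t / (x - ε) ≤ t / x + 2 * ε * t / x ^ 2 := by
    rw [div_add_div _ _ hx0.ne' (by positivity), div_le_div_iff₀ (by linarith) (by positivity)]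
    have h6 : 0 ≤ t * x * ε * (x - 2 * ε) := by
      have : 0 ≤ x - 2 * ε := by linarith
      positivity
    nlinarith
  have h6 : t / x = t + p := by
    rw [hx]
    field_simp
  have h7 : 1 / x ≤ 1 + B := by
    rw [div_le_iff₀ hx0]
    rw [div_le_iff₀ (by positivity)] at hxB
    linarith
  have h8 : 1 / x ^ 2 ≤ (1 + B) ^ 2 := by
    have := pow_le_pow_left₀ (by positivity : 0 ≤ 1 / x) h7 2
    rwa [div_pow, one_pow] at this
  have h9 : 2 * ε * t / x ^ 2 ≤ 2 * ε * t * (1 + B) ^ 2 := by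
    rw [div_eq_mul_one_div]
    exact mul_le_mul_of_nonneg_left h8 (by positivity)
  unfold Pik
  rw [h6] at h5
  have h10 : 2 * ε * t * (1 + B) ^ 2 = 120 * √δ * (1 + B) ^ 2 * t := by
    rw [hε]
    ring
  linarith

end Vale.Agent.P159.H37
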