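import Vale.Agent.P159.H37.RPe

/-!
P159 / RP: corollaries. Monotonicity of `Ĝ` and of the slopes of `1/Ĝ` in `2 - 2 cos k₁`.
-/

namespace Vale.Agent.P159.H37.RP

open Finset Matrix Filter Topology
open Vale.Agent.P159.TM.H104 (EM Ex Cv K3 Lg li nh Gr)
open Vale.Agent.P159.TM.H764 (cN sN Gh frm dt EE)
open Vale.Agent.P159.TM.Spec (V)

variable {N : ℕ} [NeZero N]

lemma Gc_zero (b t : ℝ) : Gc N b t 0 = Gt N b t := rfl

/-- **monotonicity**: `Ĝ(k₁, q)` is nonincreasing in `2 - 2 cos k₁`, every constant source -/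
theorem rp_mono {b t : ℝ} (hb : 0 ≤ b) (ht : 0 < t) (c : ℝ) {k₁ k₂ : ZMod N}
    (h12 : cN k₂ < cN k₁) (q : ZMod N) :
    Gh (Gc N b t c) (k₂, q) ≤ Gh (Gc N b t c) (k₁, q) := by
  have hμ : EM (wt N b t) := H789.em_wt hb ht
  set A : ℝ := Zs (wt N b t) (fun _ => c) * N with hA
  have hN : (0 : ℝ) < N := by exact_mod_cast NeZero.pos N
  have hA0 : 0 < A := mul_pos (TM.H104.T_one_pos hμ _) hN
  set Φ : ZMod N → ℕ → ℝ := fun k L => FT N (TM' b (gB (N := N) L) (colv N b t c))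
    (fun i s => obs (mn (wt N b t) (fun _ => c) 0) q i (gB L s)) (2 * Real.pi * k.val / N) with hΦ
  have hlim : ∀ k : ZMod N, Tendsto (Φ k) atTop (𝓝 (A * Gh (Gc N b t c) (k, q))) := by
    intro k
    have h := FT_lim hb hμ c (fun i => obs (mn (wt N b t) (fun _ => c) 0) q i)
      (fun i m => Gr_obs _ q i m) (2 * Real.pi * k.val / N)
    rw [FT_Gh hμ c k q] at h
    exact h
  have hw : ∀ k : ZMod N, 2 - 2 * Real.cos (2 * Real.pi * k.val / N) = 2 - 2 * cN k := fun k => rfl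
  have hφ : ∀ k : ZMod N, ∃ j : ℤ, 2 * Real.pi * k.val / N * N = 2 * Real.pi * j := by
    intro k
    refine ⟨k.val, ?_⟩
    rw [div_mul_cancel₀ _ hN.ne']
    push_cast
    rfl
  have h := le_of_tendsto_of_tendsto (hlim k₂) (hlim k₁) (Eventually.of_forall fun L =>
    FT_anti (NeZero.ne N) (TM'_psd hb _ _) _ (hφ k₁) (hφ k₂) (by rw [hw, hw]; linarith))
  exact le_of_mul_le_mul_left h hA0

/-- **the slopes of `1/Ĝ` from `k₁ = 0` are nonincreasing** -/
theorem rp_slope {b t : ℝ} (hb : 0 < b) (ht : 0 < t) (c : ℝ) {k₂ k₃ : ZMod N}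
    (h12 : cN k₂ < 1) (h23 : cN k₃ ≤ cN k₂) (q : ZMod N) :
    ((Gh (Gc N b t c) (k₃, q))⁻¹ - (Gh (Gc N b t c) (0, q))⁻¹) * (1 - cN k₂) ≤
      ((Gh (Gc N b t c) (k₂, q))⁻¹ - (Gh (Gc N b t c) (0, q))⁻¹) * (1 - cN k₃) := by
  rcases h23.lt_or_eq with h | h
  · have h1 := rp_final (N := N) hb ht c (k₁ := 0) (k₂ := k₂) (k₃ := k₃)
      (by rw [TM.H764.cN_zero]; exact h12) h q
    rw [TM.H764.cN_zero] at h1
    simp only [div_eq_mul_inv] at h1
    linarith
  · -- equal momenta up to sign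
    have hN : (0 : ℝ) < N := by exact_mod_cast NeZero.pos N
    have hμ : EM (wt N b t) := H789.em_wt hb.le ht
    have he : Gh (Gc N b t c) (k₃, q) = Gh (Gc N b t c) (k₂, q) := by
      have hsym : ∀ k : ZMod N, Gh (Gc N b t c) (k, q) =
          ∑ w : V N, Gc N b t c w * (cN (k * w.1) * cN (q * w.2)) := fun k =>
        TM.H764.Gh_prod _ (Gc_refl b t c) (k, q)
      have hcos : ∀ (k : ZMod N) (m : ZMod N), cN (k * m) =
          Real.cos (m.val * (2 * Real.pi * k.val / N)) := by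
        intro k m
        have h1 : (k * m : ZMod N) = (((k.val * m.val : ℕ) : ℤ) : ZMod N) := by
          push_cast
          simp
        rw [h1, TM.H764.cN_int]
        congr 1
        push_cast
        ring
      rw [hsym, hsym]
      refine Finset.sum_congr rfl fun w _ => ?_
      have hT : ∀ x y : ℝ, Real.cos x = Real.cos y → ∀ n : ℕ,
          Real.cos (n * x) = Real.cos (n * y) := by
        intro x y hxy n
        have h1 := Polynomial.Chebyshev.T_real_cos x (n : ℤ)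
        have h2 := Polynomial.Chebyshev.T_real_cos y (n : ℤ)
        rw [hxy] at h1
        have h3 := h1.symm.trans h2
        exact_mod_cast h3
      have := hT (2 * Real.pi * k₃.val / N) (2 * Real.pi * k₂.val / N) h w.1.val
      rw [hcos k₃ w.1, hcos k₂ w.1, this]
    rw [he, h]

/-- the self energy on lines parallel to the axis -/
theorem rp_Pik {b t : ℝ} (hb : 0 < b) (ht : 0 < t) {k₂ k₃ : ZMod N}
    (h12 : cN k₂ < 1) (h23 : cN k₃ ≤ cN k₂) (q : ZMod N) :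
    (Pik N b t (k₃, q) - Pik N b t (0, q)) * (1 - cN k₂) ≤
      (Pik N b t (k₂, q) - Pik N b t (0, q)) * (1 - cN k₃) := by
  have h := rp_slope (N := N) hb ht 0 h12 h23 q
  unfold Pik Ght
  rw [← Gc_zero]
  have e : ∀ k : V N, (Gh (Gc N b t 0) k)⁻¹ - t - ((Gh (Gc N b t 0) (0, q))⁻¹ - t) =
      (Gh (Gc N b t 0) k)⁻¹ - (Gh (Gc N b t 0) (0, q))⁻¹ := fun k => by ring
  rw [e, e]
  exact h

theorem rp_Pik_mono {b t : ℝ} (hb : 0 < b) (ht : 0 < t) {k₁ k₂ : ZMod N}
    (h12 : cN k₂ < cN k₁) (q : ZMod N) : Pik N b t (k₁, q) ≤ Pik N b t (k₂, q) := by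
  unfold Pik Ght
  rw [← Gc_zero]
  have h := rp_mono (N := N) hb.le ht 0 h12 q
  have h2 := Gh_pos (N := N) hb ht 0 (k₂, q)
  exact sub_le_sub_right (inv_anti₀ h2 h) t

end Vale.Agent.P159.H37.RP
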