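import Vale.Agent.P159.H37.Sp1

/-!
P159 (helper37), S: the field `stp` of a level (shifted windows), contraction `≤ 1 / 30`.
-/

open MeasureTheory Filter Topology Finset Matrix

set_option linter.all false

namespace Vale.Agent.P159.H37.Sf

open Vale.Agent.P159.TM.Spec (V)
open Vale.Agent.P159.TM.SpecC (wT)
open Vale.Agent.P159.H686 (Stp rho2 wdS stp_S)
open Vale.Agent.P159.H883 (nuM Psi BW Zp Wt)
open Vale.Agent.P159.H708 (Bx wd)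
open Vale.Agent.P159.H773 (sd nuF PsF cMn wdF)
open Vale.Agent.P159.H972 (tn)
open Vale.Agent.P159.H963 (nwt ntr)
open Vale.Agent.P159.H37 (Rs)

noncomputable section

lemma tn_lt {n w : ℕ} (hw : 1 ≤ w) : tn (n + w) < tn n := by
  unfold tn
  have h1 : (4 : ℝ) ^ n < 4 ^ (n + w) := pow_lt_pow_right₀ (by norm_num) (by omega)
  exact inv_strictAnti₀ (by positivity) h1

/-- **the field `stp`** at the level `n`, window length `w`: `D / ξ ≤ 2^kd`, `4 kd ≤ (2 - s) w` -/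
theorem stp_lv {b s : ℝ} (hb : 0 < b) (hs : 0 < s) : ∃ w0 : ℕ, 1 ≤ w0 ∧ ∀ (i n w D kd R1 : ℕ),
    1 ≤ i → w0 ≤ w → D ≤ 2 ^ (n + kd) → (4 * kd : ℝ) ≤ (2 - s) * w → 1 ≤ D → 2 * D < R1 →
    ∀ (wD : ∀ R, (V (sd i R) → ℤ) → ℝ) (φ : ∀ R, V (sd i R) → ℝ), (∀ R, BW (wD R)) →
    ∀ (Bd : Set (V (sd i R1) → ℝ)), MeasurableSet Bd → ∀ ηn b' : ℝ, 0 ≤ ηn →
    (∀ F, F ∉ Bd → Wt (wT b (sd i R1)) (tn n • 1) (tn n) 0 F ≤ 1 + ηn) →
    (nuF b (sd i) (tn n) R1).real Bd ≤ b' → ∀ g : V (sd i R1) → ℝ,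
    ∃ κP : ℝ, 0 ≤ κP ∧ κP ≤ 1 / 30 ∧
      Stp (nuF b (sd i) (tn n) R1) (nuF b (sd i) (tn (n + w)) R1)
        (PsF b (sd i) wD φ (tn n) R1) (PsF b (sd i) wD φ (tn (n + w)) R1)
        (cMn b (sd i) wD R1) (wdS (sd i) D R1 g) κP ηn b' := by
  obtain ⟨w0, hw0, H⟩ := kap_num hb hs
  refine ⟨w0, hw0, fun i n w D kd R1 hi hw hD hk hD1 hR wD φ hbw Bd hBd ηn b' hη0 hη hbd g => ?_⟩
  have hw1 : 1 ≤ w := hw0.trans hw
  refine ⟨√(Real.pi ^ 2 / 8) * rho2 2 D (1 / b) (tn n) (1 / tn (n + w) - 1 / tn n),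
    mul_nonneg (Real.sqrt_nonneg _) (H686.rho2_nonneg _ _ _ _ _), H w hw n D kd hD hk, ?_⟩
  have h2R : 2 * R1 ≤ sd i R1 := by
    have h3 : 2 ^ 1 ≤ 2 ^ i := Nat.pow_le_pow_right (by norm_num) hi
    exact (Nat.mul_le_mul_right R1 (by simpa using h3)).trans (H773.sd_ge i R1)
  refine stp_S hb hbw (tn_pos _) (tn_lt hw1) h2R hR hD1 (dom_Anm' hb (tn_pos n)) ?_ hBd hη0 hη
    hbd g
  rw [tn_ratio]
  have h4 : (4 : ℝ) ≤ 4 ^ w := by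
    calc (4 : ℝ) = 4 ^ 1 := (pow_one 4).symm
      _ ≤ 4 ^ w := pow_le_pow_right₀ (by norm_num) hw1
  linarith

/-- the bad set of the level: `R > ρ` at the sites -/
def BdR (N : ℕ) [NeZero N] (b t ρ : ℝ) : Set (V N → ℝ) :=
  {F | ρ < Rs (nwt N b t 0) (ntr (t • (1 : Matrix (V N) (V N) ℝ)) t *ᵥ F)}

lemma meas_BdR {N : ℕ} [NeZero N] {b t ρ : ℝ} (hb : 0 < b) (ht : 0 < t) :
    MeasurableSet (BdR N b t ρ) := by
  have h1 : Continuous fun F : V N → ℝ =>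
      Rs (nwt N b t 0) (ntr (t • (1 : Matrix (V N) (V N) ℝ)) t *ᵥ F) :=
    (H114.continuous_Rs (H963.em_nwt hb.le ht 0)).comp
      (Continuous.matrix_mulVec continuous_const continuous_id)
  exact (isOpen_lt continuous_const h1).measurableSet

/-- **the field `stp`** from the typical `R` at the sites: `nuM {R > log (1 + η)} ≤ b'` -/
theorem stp_lvR {b s : ℝ} (hb : 0 < b) (hs : 0 < s) : ∃ w0 : ℕ, 1 ≤ w0 ∧
    ∀ (i n w D kd R1 : ℕ), 1 ≤ i → w0 ≤ w → D ≤ 2 ^ (n + kd) → (4 * kd : ℝ) ≤ (2 - s) * w →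
    1 ≤ D → 2 * D < R1 →
    ∀ (wD : ∀ R, (V (sd i R) → ℤ) → ℝ) (φ : ∀ R, V (sd i R) → ℝ), (∀ R, BW (wD R)) →
    ∀ ηn b' : ℝ, 0 ≤ ηn →
    (nuF b (sd i) (tn n) R1).real (BdR (sd i R1) b (tn n) (Real.log (1 + ηn))) ≤ b' →
    ∀ g : V (sd i R1) → ℝ, ∃ κP : ℝ, 0 ≤ κP ∧ κP ≤ 1 / 30 ∧
      Stp (nuF b (sd i) (tn n) R1) (nuF b (sd i) (tn (n + w)) R1)
        (PsF b (sd i) wD φ (tn n) R1) (PsF b (sd i) wD φ (tn (n + w)) R1)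
        (cMn b (sd i) wD R1) (wdS (sd i) D R1 g) κP ηn b' := by
  obtain ⟨w0, hw0, H⟩ := stp_lv hb hs
  refine ⟨w0, hw0, fun i n w D kd R1 hi hw hD hk hD1 hR wD φ hbw ηn b' hη0 hbd g => ?_⟩
  refine H i n w D kd R1 hi hw hD hk hD1 hR wD φ hbw _ (meas_BdR hb (tn_pos n)) ηn b' hη0 ?_ hbd g
  intro F hF
  have h1 : Rs (nwt (sd i R1) b (tn n) 0)
      (ntr (tn n • (1 : Matrix (V (sd i R1)) (V (sd i R1)) ℝ)) (tn n) *ᵥ F) ≤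
      Real.log (1 + ηn) := not_lt.1 hF
  have h2 : (0 : ℝ) < 1 + ηn := by linarith
  calc Wt (wT b (sd i R1)) (tn n • 1) (tn n) 0 F
      = Real.exp (Rs (nwt (sd i R1) b (tn n) 0)
          (ntr (tn n • (1 : Matrix (V (sd i R1)) (V (sd i R1)) ℝ)) (tn n) *ᵥ F)) := rfl
    _ ≤ Real.exp (Real.log (1 + ηn)) := Real.exp_le_exp.2 h1
    _ = 1 + ηn := Real.exp_log h2

end

end Vale.Agent.P159.H37.Sf
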