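import Vale.Agent.P159.H708.Wl19
import Vale.Agent.P159.H37.Sp2

/-!
P159 (helper37), S: numbers of one level from the flow: the tori of the window are admissible, sizes.
-/

open Filter Topology Finset

set_option linter.all false

namespace Vale.Agent.P159.H37.Sf

open Vale.Agent.P159.TM.Spec (V)
open Vale.Agent.P159.H801 (SFlow)
open Vale.Agent.P159.H864 (yt)
open Vale.Agent.P159.H972 (tn lg Par Good YBn)

noncomputable section

section flow

variable {P : Par} {b σ c c1 q2 qx : ℝ} {a y ε xs : ℕ → ℝ} {c' r q A : ℝ} {N : ℕ}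

/-- `log2 (1 / ε) ≤ (2 - σ) log2 (1 / y)` -/
lemma sf_ub (h : SFlow P b σ c c1 q2 qx a y ε xs c' r q A N) {n : ℕ} (hn : N ≤ n) :
    Real.logb 2 (1 / ε n) ≤ (2 - σ) * Real.logb 2 (1 / y n) := by
  have hl : 0 < Real.log 2 := Real.log_pos one_lt_two
  have h1 := h.lo n hn
  have h2 := Real.log_le_log (Real.rpow_pos_of_pos (h.fl.y0 n) _) h1
  rw [Real.log_rpow (h.fl.y0 n)] at h2
  rw [lb_eq, lb_eq, mul_div_assoc']
  refine div_le_div_of_nonneg_right ?_ hl.le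
  linarith

lemma sf_lb0 (h : SFlow P b σ c c1 q2 qx a y ε xs c' r q A N) {n : ℕ} (hn : N ≤ n) :
    0 ≤ Real.logb 2 (1 / y n) := by
  have hl : 0 < Real.log 2 := Real.log_pos one_lt_two
  rw [lb_eq]
  have := Real.log_nonpos (h.fl.y0 n).le (h.y1 n hn)
  exact div_nonneg (by linarith) hl.le

/-- `n y_n` is bounded -/
lemma sf_ny (h : SFlow P b σ c c1 q2 qx a y ε xs c' r q A N) :
    ∃ C : ℝ, 0 < C ∧ ∀ᶠ n : ℕ in atTop, (n : ℝ) * y n ≤ C := by
  have hA := h.t3.A0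
  have hκ := h.t3.fl.κ0
  have h0 : 0 < Real.sqrt (H264.kap * A) := Real.sqrt_pos.2 (by positivity)
  have h1 := h.t3.ny.eventually (lt_mem_nhds (half_lt_self h0))
  refine ⟨2 / Real.sqrt (H264.kap * A), by positivity, ?_⟩
  filter_upwards [h1, eventually_gt_atTop 0] with n hn hn0
  have hn' : (0 : ℝ) < n := by exact_mod_cast hn0
  have hy := h.fl.y0 n
  have h2 : Real.sqrt (H264.kap * A) / 2 * (n * y n) < 1 := by
    have h3 := mul_lt_mul_of_pos_right hn (mul_pos hn' hy)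
    have h4 : (n : ℝ)⁻¹ * (1 / y n) * (n * y n) = 1 := by field_simp
    rwa [h4] at h3
  rw [le_div_iff₀ h0]
  nlinarith

/-- `n ε_n ≤ 1` -/
lemma sf_ne (h : SFlow P b σ c c1 q2 qx a y ε xs c' r q A N) (hσ : σ ≤ 1 / 4) :
    ∀ᶠ n : ℕ in atTop, (n : ℝ) * ε n ≤ 1 := by
  obtain ⟨C, hC, hCn⟩ := sf_ny h
  have h1 : ∀ᶠ n in atTop, y n ^ (1 - 3 * σ) ≤ 1 / C :=
    h.fl.ev_pow (by linarith) (by positivity)
  filter_upwards [hCn, h1, eventually_ge_atTop N] with n g1 g2 g3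
  have hy := h.fl.y0 n
  have g4 := h.up n g3
  have g5 : y n ^ (2 - 3 * σ) = y n ^ (1 - 3 * σ) * y n := by
    rw [← Real.rpow_add_one hy.ne']
    congr 1
    ring
  have hn0 : (0 : ℝ) ≤ n := Nat.cast_nonneg _
  calc (n : ℝ) * ε n ≤ n * (y n ^ (1 - 3 * σ) * y n) := by
        rw [← g5]
        exact mul_le_mul_of_nonneg_left g4 hn0
    _ = y n ^ (1 - 3 * σ) * (n * y n) := by ring
    _ ≤ 1 / C * C := mul_le_mul g2 g1 (mul_nonneg hn0 hy.le) (by positivity)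
    _ = 1 := by field_simp

/-- **the tori of the window are admissible** -/
lemma sf_TT (h : SFlow P b σ c c1 q2 qx a y ε xs c' r q A N) (hA : P.Adm) (hσ0 : 0 ≤ σ)
    (hσ : σ ≤ 1 / 4) {ck : ℝ} (hck : 0 < ck) (hck1 : ck ≤ P.thp) (hck2 : 2 * P.th ≤ ck) {i : ℕ}
    (hi : 1 ≤ i) : ∀ᶠ n in atTop, ∀ R : ℕ, 2 ^ (n + kf ck y n) ≤ R →
      R ≤ 2 ^ (n + P.w (ε n) + kf ck y (n + P.w (ε n))) → P.TT n (ε n) (i + Nat.clog 2 R) := by
  filter_upwards [sf_k3 h hσ hck hck1, (sf_wt h hσ).eventually_ge_atTop i,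
    eventually_ge_atTop N] with n h3 hw hn R h1 h2
  have hy := h.fl.y0 n
  have hl0 := sf_lb0 h hn
  have hth := P.th0
  constructor
  · -- below
    have g1 : n + kf ck y n ≤ Nat.clog 2 R := by
      have := Nat.clog_mono_right 2 h1
      rwa [Nat.clog_pow 2 _ one_lt_two] at this
    have g2 : P.kE (ε n) ≤ kf ck y n + 1 := by
      have e0 : 0 ≤ P.th * Real.logb 2 (1 / ε n) := by
        have := sf_lb h hn
        have : 0 ≤ Real.logb 2 (1 / ε n) := le_trans (mul_nonneg (by linarith) hl0) this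
        positivity
      have e1 : (P.kE (ε n) : ℝ) ≤ P.th * Real.logb 2 (1 / ε n) + 1 := lg_le e0
      have e2 : P.th * Real.logb 2 (1 / ε n) ≤ P.th * ((2 - σ) * Real.logb 2 (1 / y n)) :=
        mul_le_mul_of_nonneg_left (sf_ub h hn) hth.le
      have e3 : P.th * ((2 - σ) * Real.logb 2 (1 / y n)) ≤ ck * Real.logb 2 (1 / y n) := by
        rw [← mul_assoc]
        refine mul_le_mul_of_nonneg_right ?_ hl0
        nlinarith
      have e4 : ck * Real.logb 2 (1 / y n) ≤ (kf ck y n : ℝ) := le_lg _ _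
      have e5 : (P.kE (ε n) : ℝ) ≤ ((kf ck y n + 1 : ℕ) : ℝ) := by push_cast; linarith
      exact_mod_cast e5
    omega
  · have g1 : Nat.clog 2 R ≤ n + P.w (ε n) + kf ck y (n + P.w (ε n)) := by
      have := Nat.clog_mono_right 2 h2
      rwa [Nat.clog_pow 2 _ one_lt_two] at this
    have g2 : 2 * (4 * P.w (ε n)) ≤ P.q0 * (4 * P.w (ε n)) := Nat.mul_le_mul_right _ hA.hq
    omega

/-- **sizes of a level** -/
lemma sf_sz (h : SFlow P b σ c c1 q2 qx a y ε xs c' r q A N) (hA : P.Adm) (hσ0 : 0 < σ)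
    (hσ : σ ≤ 1 / 4) (hc : 0 ≤ c) (hc4 : 4 * c ≤ σ) {ck : ℝ} (hck : 0 < ck) (hck1 : ck ≤ P.thp)
    (hck2 : 2 * P.th ≤ ck) {i : ℕ} (hi : 1 ≤ i) : ∀ᶠ n in atTop, N ≤ n ∧ 0 < ε n ∧
      ε n ≤ P.es ∧ Good P b n (ε n) ∧ (n : ℝ) * ε n ≤ 1 ∧ (ε n ^ (-c) * y n) ^ 2 ≤ ε n ∧
      ∀ R : ℕ, 2 ^ (n + kf ck y n) ≤ R →
      R ≤ 2 ^ (n + P.w (ε n) + kf ck y (n + P.w (ε n))) → P.TT n (ε n) (i + Nat.clog 2 R) ∧
        yt (2 ^ (i + Nat.clog 2 R)) b (tn n) ≤ ε n ^ (-c) * y n := by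
  filter_upwards [sf_TT h hA hσ0.le hσ hck hck1 hck2 hi, sf_ne h hσ, eventually_ge_atTop N] with
    n g1 g2 hn
  have hy := h.fl.y0 n
  have hε := sf_eps h hn
  have hes := h.es n hn
  have hε1 : ε n ≤ 1 := hes.trans (P.es1.trans (by norm_num))
  refine ⟨hn, hε, hes, h.good n hn, g2, h.Y2 hσ0 hσ hc hc4 hn, fun R h1 h2 => ?_⟩
  have hT := g1 R h1 h2
  refine ⟨hT, ?_⟩
  have hYB := (h.yb n hn).2.1 (ε n) le_rfl hes _ hT.1
  refine hYB.trans (max_le le_rfl ?_)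
  have k1 : ε n ≤ y n := by
    have k2 := h.up n hn
    refine k2.trans ?_
    calc y n ^ (2 - 3 * σ) ≤ y n ^ (1 : ℝ) :=
          Real.rpow_le_rpow_of_exponent_ge hy (h.y1 n hn) (by linarith)
      _ = y n := Real.rpow_one _
  have k3 : 1 ≤ ε n ^ (-c) := Real.one_le_rpow_of_pos_of_le_one_of_nonpos hε hε1 (by linarith)
  nlinarith

end flow

end

end Vale.Agent.P159.H37.Sf
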