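import Vale.Agent.P159.H889.Vwin
import Vale.Agent.P159.H358.Vtor1
import Vale.Agent.P159.H363.Stein

/-!
P159 (helper37), LEMMA FCH of helper889 (row 5487): change of the form in the window operator, at
functional level. `f` typical for the form `A ahat_A`; the two Gaussian kernels
`N(ahat_A f, Γ_A)` and `N(ahat_B f, Γ_B)` differ in `L²` by a multiple of the relative
Hilbert-Schmidt distance of `A` and `B` times the sup norm of the functional.
-/

set_option linter.unusedSectionVars false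

namespace Vale.Agent.P159.H37

open MeasureTheory ProbabilityTheory Finset Matrix
open Vale.Agent.P159.TM.H764 (EE cN dt)
open Vale.Agent.P159.TM.Spec (V)
open Vale.Agent.P159.H363
open Vale.Agent.P159.H864 (TI sym fc mlt)
open Vale.Agent.P159.H462 (Dom ahat Gam ti_ahat ti_Gam sym_ahat sym_Gam)
open Vale.Agent.P159.H889 (tn2)
open scoped Real

noncomputable section

/-! ### shift of a Gaussian -/

section shift

variable {I : Type*} [Fintype I]

lemma cm_sq (y g : I → ℝ) : cm y g ^ 2 = Real.exp (∑ i, y i ^ 2) * cm ((2 : ℝ) • y) g := by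
  unfold cm
  rw [← Real.exp_nat_mul, ← Real.exp_add]
  congr 1
  have h1 : ((2 : ℝ) • y) ⬝ᵥ g = 2 * (y ⬝ᵥ g) := by rw [smul_dotProduct, smul_eq_mul]
  have h2 : ∑ i, ((2 : ℝ) • y) i ^ 2 = 4 * ∑ i, y i ^ 2 := by
    rw [Finset.mul_sum]
    refine Finset.sum_congr rfl fun i _ => ?_
    rw [Pi.smul_apply, smul_eq_mul]
    ring
  rw [h1, h2]
  push_cast
  ring

lemma integrable_cm (y : I → ℝ) : Integrable (fun g : I → ℝ => cm y g) (gau I) := by
  have hR : ∀ i, |y i| ≤ ∑ i, |y i| := fun i =>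
    Finset.single_le_sum (f := fun i => |y i|) (fun i _ => abs_nonneg _) (Finset.mem_univ i)
  refine (integrable_exp_norm (I := I) (∑ i, |y i|)).mono'
    (measurable_cm y).aestronglyMeasurable (Filter.Eventually.of_forall fun g => ?_)
  rw [Real.norm_eq_abs, abs_of_pos (cm_pos y g)]
  exact cm_le y g hR

lemma int_cm (y : I → ℝ) : ∫ g, cm y g ∂(gau I) = 1 := by
  have h := Hs_eq (fun _ : I → ℝ => (1 : ℝ)) y
  unfold Hs at h
  simpa using h.symm

lemma int_cm_sub (y : I → ℝ) : ∫ g, (cm y g - 1) ^ 2 ∂(gau I) = Real.exp (∑ i, y i ^ 2) - 1 := by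
  have e : ∀ g : I → ℝ, (cm y g - 1) ^ 2
      = Real.exp (∑ i, y i ^ 2) * cm ((2 : ℝ) • y) g - 2 * cm y g + 1 := by
    intro g
    rw [← cm_sq]
    ring
  simp only [e]
  have i1 := (integrable_cm ((2 : ℝ) • y)).const_mul (Real.exp (∑ i, y i ^ 2))
  have i2 := (integrable_cm y).const_mul 2
  have i12 : Integrable (fun g : I → ℝ => Real.exp (∑ i, y i ^ 2) * cm ((2 : ℝ) • y) g
      - 2 * cm y g) (gau I) := i1.sub i2
  rw [integral_add i12 (integrable_const _), integral_sub i1 i2, integral_const_mul,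
    integral_const_mul, int_cm, int_cm]
  simp
  ring

/-- **shift of a Gaussian**: total variation by the Cameron-Martin norm -/
theorem shift_le {Ψ : (I → ℝ) → ℂ} (hΨ : Measurable Ψ) {S : ℝ} (hS : ∀ g, ‖Ψ g‖ ≤ S) (y : I → ℝ) :
    ‖(∫ g, Ψ (g + y) ∂(gau I)) - ∫ g, Ψ g ∂(gau I)‖ ≤ 2 * S * √(∑ i, y i ^ 2) := by
  have hS0 : 0 ≤ S := (norm_nonneg _).trans (hS 0)
  set r : ℝ := √(∑ i, y i ^ 2) with hr
  have hr0 : 0 ≤ r := Real.sqrt_nonneg _
  have hr2 : r ^ 2 = ∑ i, y i ^ 2 := Real.sq_sqrt (Finset.sum_nonneg fun i _ => sq_nonneg _)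
  rcases le_or_gt 1 r with h1 | h1
  · have a1 : ‖∫ g, Ψ (g + y) ∂(gau I)‖ ≤ S := by
      have := norm_integral_le_of_norm_le_const (μ := gau I) (f := fun g => Ψ (g + y)) (C := S)
        (Filter.Eventually.of_forall fun g => hS _)
      simpa using this
    have a2 : ‖∫ g, Ψ g ∂(gau I)‖ ≤ S := by
      have := norm_integral_le_of_norm_le_const (μ := gau I) (f := Ψ) (C := S)
        (Filter.Eventually.of_forall fun g => hS _)
      simpa using this
    have a3 := norm_sub_le (∫ g, Ψ (g + y) ∂(gau I)) (∫ g, Ψ g ∂(gau I))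
    nlinarith
  · have h2 : ∫ g, Ψ (g + y) ∂(gau I) = ∫ g, (cm y g : ℝ) • Ψ g ∂(gau I) := by
      rw [gau_shiftE]
      rfl
    have i1 : Integrable (fun g : I → ℝ => (cm y g : ℝ) • Ψ g) (gau I) := by
      refine ((integrable_cm y).mul_const S).mono'
        ((measurable_cm y).smul hΨ).aestronglyMeasurable (Filter.Eventually.of_forall fun g => ?_)
      rw [norm_smul, Real.norm_eq_abs, abs_of_pos (cm_pos y g)]
      exact mul_le_mul_of_nonneg_left (hS g) (cm_pos y g).le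
    have i2 : Integrable Ψ (gau I) := Integrable.of_bound (C := S) hΨ.aestronglyMeasurable
      (Filter.Eventually.of_forall hS)
    rw [h2, ← integral_sub i1 i2]
    have h3 : ‖∫ g, ((cm y g : ℝ) • Ψ g - Ψ g) ∂(gau I)‖ ≤ ∫ g, S * |cm y g - 1| ∂(gau I) := by
      refine (norm_integral_le_integral_norm _).trans ?_
      have i3 : Integrable (fun g : I → ℝ => |cm y g - 1|) (gau I) :=
        ((integrable_cm y).sub (integrable_const 1)).abs
      refine integral_mono (i1.sub i2).norm (i3.const_mul S) fun g => ?_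
      have : (cm y g : ℝ) • Ψ g - Ψ g = (((cm y g - 1 : ℝ)) : ℂ) * Ψ g := by
        rw [Complex.real_smul]
        push_cast
        ring
      simp only [this]
      rw [norm_mul, Complex.norm_real, Real.norm_eq_abs, mul_comm]
      exact mul_le_mul_of_nonneg_right (hS g) (abs_nonneg _)
    have h4 : ∫ g, |cm y g - 1| ∂(gau I) ≤ √(Real.exp (∑ i, y i ^ 2) - 1) := by
      apply Real.le_sqrt_of_sq_le
      rw [← int_cm_sub]
      have i3 : Integrable (fun g : I → ℝ => |cm y g - 1|) (gau I) :=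
        ((integrable_cm y).sub (integrable_const 1)).abs
      have i4 : Integrable (fun g : I → ℝ => (cm y g - 1) ^ 2) (gau I) := by
        have e : ∀ g : I → ℝ, (cm y g - 1) ^ 2
            = Real.exp (∑ i, y i ^ 2) * cm ((2 : ℝ) • y) g - 2 * cm y g + 1 := by
          intro g
          rw [← cm_sq]
          ring
        simp only [e]
        exact (((integrable_cm ((2 : ℝ) • y)).const_mul _).sub
          ((integrable_cm y).const_mul 2)).add (integrable_const _)
      -- Jensen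
      have h5 : 0 ≤ ∫ g, (|cm y g - 1| - ∫ g, |cm y g - 1| ∂(gau I)) ^ 2 ∂(gau I) :=
        integral_nonneg fun g => sq_nonneg _
      set m := ∫ g, |cm y g - 1| ∂(gau I) with hm
      have e2 : ∀ g : I → ℝ, (|cm y g - 1| - m) ^ 2
          = (cm y g - 1) ^ 2 - 2 * m * |cm y g - 1| + m ^ 2 := by
        intro g
        have := sq_abs (cm y g - 1)
        nlinarith
      simp only [e2] at h5
      have i5 : Integrable (fun g : I → ℝ => (cm y g - 1) ^ 2 - 2 * m * |cm y g - 1|) (gau I) :=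
        i4.sub (i3.const_mul _)
      rw [integral_add i5 (integrable_const _),
        integral_sub i4 (i3.const_mul _), integral_const_mul, ← hm] at h5
      simp at h5
      nlinarith
    have h6 : √(Real.exp (∑ i, y i ^ 2) - 1) ≤ 2 * r := by
      rw [Real.sqrt_le_left (by positivity), ← hr2]
      have h7 : r ^ 2 ≤ 1 := by nlinarith
      have h8 := Real.abs_exp_sub_one_le (x := r ^ 2) (by rw [abs_of_nonneg (sq_nonneg _)]; exact h7)
      have h9 := (abs_le.1 h8).2
      rw [abs_of_nonneg (sq_nonneg r)] at h9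
      nlinarith [sq_nonneg r]
    calc ‖∫ g, ((cm y g : ℝ) • Ψ g - Ψ g) ∂(gau I)‖ ≤ ∫ g, S * |cm y g - 1| ∂(gau I) := h3
      _ = S * ∫ g, |cm y g - 1| ∂(gau I) := integral_const_mul _ _
      _ ≤ S * (2 * r) := mul_le_mul_of_nonneg_left (h4.trans h6) hS0
      _ = 2 * S * r := by ring

end shift

/-! ### the window operator -/

variable {N : ℕ} [NeZero N] {A B : Matrix (V N) (V N) ℝ}

/-- fixed `f`: covariance change and mean shift -/
lemma fch_pt {ν c ν' c' s η : ℝ} (hA : Dom A ν c) (hB : Dom B ν' c') (hs : 0 < s) (hη : 0 ≤ η)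
    (hη2 : η ≤ 1 / 2) (hHS : ∑ k, rel A B k ^ 2 ≤ η ^ 2) {W : (V N → ℝ) → ℂ} (hW : Measurable W)
    {S : ℝ} (hS : ∀ F, ‖W F‖ ≤ S) (f : V N → ℝ) :
    ‖Pg (ahat s A) (gm s A) W f - Pg (ahat s B) (gm s B) W f‖ ≤
      4 * η * S + 2 * S * √(∑ x, ((mlt (fun k => √((1 + s * sym B k) / s) *
        ((1 + s * sym A k)⁻¹ - (1 + s * sym B k)⁻¹)) : Matrix (V N) (V N) ℝ) *ᵥ f) x ^ 2) := by
  classical
  set T : Matrix (V N) (V N) ℝ := mlt (fun k => √((1 + s * sym B k) / s) *
    ((1 + s * sym A k)⁻¹ - (1 + s * sym B k)⁻¹)) with hT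
  have eT : ∀ k, √((1 + s * sym B (-k)) / s) * ((1 + s * sym A (-k))⁻¹ - (1 + s * sym B (-k))⁻¹)
      = √((1 + s * sym B k) / s) * ((1 + s * sym A k)⁻¹ - (1 + s * sym B k)⁻¹) := fun k => by
    rw [H864.sym_neg_arg, H864.sym_neg_arg]
  have tT : TI T := H864.ti_mlt _
  have sT : ∀ k, sym T k = √((1 + s * sym B k) / s) *
      ((1 + s * sym A k)⁻¹ - (1 + s * sym B k)⁻¹) := H864.sym_mlt _ eT
  set hk : V N → ℝ := fun k => s * (sym A k - sym B k) / (1 + s * sym B k) with hhk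
  set H : Matrix (V N) (V N) ℝ := mlt hk with hH
  have eH : ∀ k, hk (-k) = hk k := fun k => by
    rw [hhk]
    simp only [H864.sym_neg_arg]
  have tH : TI H := H864.ti_mlt _
  have sH : ∀ k, sym H k = hk k := H864.sym_mlt _ eH
  have pB : ∀ k, 0 < 1 + s * sym B k := fun k => by
    have := hB.nn k
    positivity
  have pA : ∀ k, 0 < 1 + s * sym A k := fun k => by
    have := hA.nn k
    positivity
  -- covariance
  have hcov : gm s B * (gm s B)ᵀ = gm s A * (1 + H) * (gm s A)ᵀ := by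
    rw [gm_mul hB hs]
    have t1 : TI (gm s A * (1 + H) * (gm s A)ᵀ) := by
      rw [(ti_gm s A).transpose]
      exact ((ti_gm s A).mul (TI.one.add tH)).mul (ti_gm s A)
    refine H864.sym_inj (ti_Gam _ _) t1 fun k => ?_
    rw [sym_Gam, (ti_gm s A).transpose, H864.sym_mul ((ti_gm s A).mul (TI.one.add tH))
      (ti_gm s A), H864.sym_mul (ti_gm s A) (TI.one.add tH), H864.sym_add, H864.sym_one, sH]
    unfold gm
    rw [H864.sym_fc]
    have h1 := Real.mul_self_sqrt (show 0 ≤ s * (1 + s * sym A k)⁻¹ by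
      have := pA k
      positivity)
    have h2 : √(s * (1 + s * sym A k)⁻¹) * (1 + hk k) * √(s * (1 + s * sym A k)⁻¹)
        = (s * (1 + s * sym A k)⁻¹) * (1 + hk k) := by
      calc _ = (√(s * (1 + s * sym A k)⁻¹) * √(s * (1 + s * sym A k)⁻¹)) * (1 + hk k) := by ring
        _ = _ := by rw [h1]
    rw [h2, hhk]
    have h3 := (pA k).ne'
    have h4 := (pB k).ne'
    field_simp
    ring
  have hHS' : ∑ x, ∑ y, H x y ^ 2 ≤ η ^ 2 := by
    rw [sum_sq_entries tH]
    refine le_trans (Finset.sum_le_sum fun k _ => ?_) hHS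
    rw [sH, hhk]
    have h1 : sym A k - sym B k = rel A B k * sym B k := rel_mul (Nf.of_dom hA) (Nf.of_dom hB) k
    have h2 : s * (sym A k - sym B k) / (1 + s * sym B k)
        = rel A B k * (s * sym B k / (1 + s * sym B k)) := by
      rw [h1]
      ring
    simp only [h2]
    rw [mul_pow]
    have h3 : 0 ≤ s * sym B k / (1 + s * sym B k) :=
      div_nonneg (mul_nonneg hs.le (hB.nn k)) (pB k).le
    have h4 : s * sym B k / (1 + s * sym B k) ≤ 1 := by
      rw [div_le_one (pB k)]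
      linarith
    have h5 : (s * sym B k / (1 + s * sym B k)) ^ 2 ≤ 1 := by nlinarith
    nlinarith [sq_nonneg (rel A B k)]
  have k1 := H358.hs_cplx tH.transpose hcov hη hη2 hHS'
    (f := fun F => W (ahat s A *ᵥ f + F)) (hW.comp (measurable_const.add measurable_id))
    (K := S) fun v => hS _
  -- mean
  have hd : ahat s A *ᵥ f = ahat s B *ᵥ f + gm s B *ᵥ (T *ᵥ f) := by
    have h1 : gm s B * T = ahat s A - ahat s B := by
      refine H864.sym_inj ((ti_gm s B).mul tT) ((ti_ahat s A).sub (ti_ahat s B)) fun k => ?_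
      rw [H864.sym_mul (ti_gm s B) tT, sT, H864.sym_sub, sym_ahat, sym_ahat]
      unfold gm
      rw [H864.sym_fc, ← mul_assoc, ← Real.sqrt_mul (by
        have := pB k
        positivity)]
      have h2 : s * (1 + s * sym B k)⁻¹ * ((1 + s * sym B k) / s) = 1 := by
        have := (pB k).ne'
        field_simp
      rw [h2, Real.sqrt_one, one_mul]
    rw [mulVec_mulVec, h1, sub_mulVec]
    abel
  have k2 := shift_le (I := V N) (Ψ := fun g => W (ahat s B *ᵥ f + gm s B *ᵥ g))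
    (hW.comp (measurable_const.add (measurable_mulVec _))) (S := S) (fun g => hS _) (T *ᵥ f)
  have k3 : ∀ g : V N → ℝ, W (ahat s B *ᵥ f + gm s B *ᵥ (g + T *ᵥ f))
      = W (ahat s A *ᵥ f + gm s B *ᵥ g) := by
    intro g
    rw [hd, mulVec_add]
    congr 1
    abel
  simp only [k3] at k2
  unfold Pg
  set X := ∫ g, W (ahat s A *ᵥ f + gm s A *ᵥ g) ∂(gau (V N))
  set Y := ∫ g, W (ahat s A *ᵥ f + gm s B *ᵥ g) ∂(gau (V N))
  set Z := ∫ g, W (ahat s B *ᵥ f + gm s B *ᵥ g) ∂(gau (V N))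
  have k4 : X - Z = -(Y - X) + (Y - Z) := by ring
  rw [k4]
  refine (norm_add_le _ _).trans (add_le_add ?_ k2)
  rw [norm_neg]
  exact k1

/-- second moment of the shift in the typical law -/
lemma shift_typ {ν c ν' c' s η : ℝ} (hA : Dom A ν c) (hB : Dom B ν' c') (hs : 0 < s)
    (hη : 0 ≤ η) (hη4 : η ≤ 1 / 4) (hHS : ∑ k, rel A B k ^ 2 ≤ η ^ 2)
    {T : Matrix (V N) (V N) ℝ} (tT : TI T)
    (sT : ∀ k, sym T k = √((1 + s * sym B k) / s) *
      ((1 + s * sym A k)⁻¹ - (1 + s * sym B k)⁻¹)) :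
    ∑ x, ∑ y, (T * cgm s A) x y ^ 2 ≤ 4 / 3 * η ^ 2 := by
  have pB : ∀ k, 0 < 1 + s * sym B k := fun k => by
    have := hB.nn k
    positivity
  have pA : ∀ k, 0 < 1 + s * sym A k := fun k => by
    have := hA.nn k
    positivity
  rw [sum_sq_entries (tT.mul (ti_cgm s A))]
  refine le_trans (Finset.sum_le_sum fun k _ => ?_)
    ((Finset.mul_sum _ _ _).symm.le.trans (mul_le_mul_of_nonneg_left hHS (by norm_num :
      (0 : ℝ) ≤ 4 / 3)))
  have hrk : rel A B k ^ 2 ≤ η ^ 2 :=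
    (Finset.single_le_sum (f := fun k => rel A B k ^ 2) (fun k _ => sq_nonneg _)
      (Finset.mem_univ k)).trans hHS
  rw [H864.sym_mul tT (ti_cgm s A), sT]
  unfold cgm
  rw [H864.sym_fc]
  by_cases hk : k = 0
  · rw [hk, hA.zero, hB.zero]
    simp only [mul_zero, add_zero, div_zero, Real.sqrt_zero]
    have : 0 ≤ rel A B 0 ^ 2 := sq_nonneg _
    simp only [ne_eq, OfNat.ofNat_ne_zero, not_false_eq_true, zero_pow]
    positivity
  · have hα : 0 < sym A k := hA.sym_pos hk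
    have hβ : 0 < sym B k := hB.sym_pos hk
    have h1 : sym A k - sym B k = rel A B k * sym B k := rel_mul (Nf.of_dom hA) (Nf.of_dom hB) k
    have hr : |rel A B k| ≤ 1 / 4 := by
      have : |rel A B k| ≤ η := abs_le_of_sq_le_sq hrk hη
      linarith
    have hr2 := (abs_le.1 hr).1
    set α := sym A k
    set β := sym B k
    set r := rel A B k
    have hp1 := pA k
    have hp2 := pB k
    have e1 : (√((1 + s * β) / s) * ((1 + s * α)⁻¹ - (1 + s * β)⁻¹) * √((1 + s * α) / α)) ^ 2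
        = (1 + s * β) / s * ((1 + s * α)⁻¹ - (1 + s * β)⁻¹) ^ 2 * ((1 + s * α) / α) := by
      rw [mul_pow, mul_pow, Real.sq_sqrt (by positivity), Real.sq_sqrt (by positivity)]
    have e2 : (1 + s * β) / s * ((1 + s * α)⁻¹ - (1 + s * β)⁻¹) ^ 2 * ((1 + s * α) / α)
        = s * (α - β) ^ 2 / (α * (1 + s * α) * (1 + s * β)) := by
      have := hp1.ne'
      have := hp2.ne'
      field_simp
      ring
    rw [e1, e2, h1, div_le_iff₀ (by positivity)]
    -- `s r² β² ≤ 4/3 r² α (1 + s α) (1 + s β)`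
    have h3 : β ≤ 4 / 3 * α := by nlinarith
    have h4 : s * β * β ≤ 4 / 3 * (α * (1 + s * α) * (1 + s * β)) := by
      have h5 : s * β ≤ 1 + s * β := by linarith
      have h6 : (1 : ℝ) ≤ 1 + s * α := by nlinarith [mul_pos hs hα]
      have h7 : s * β * β ≤ (1 + s * β) * (4 / 3 * α) := by
        have : 0 ≤ s * β := by positivity
        nlinarith
      have h8 : (1 + s * β) * (4 / 3 * α) * 1 ≤ (1 + s * β) * (4 / 3 * α) * (1 + s * α) :=
        mul_le_mul_of_nonneg_left h6 (by positivity)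
      nlinarith
    have h9 := mul_le_mul_of_nonneg_left h4 (sq_nonneg r)
    nlinarith

/-- **LEMMA FCH** -/
theorem fch {ν c ν' c' s η : ℝ} (hA : Dom A ν c) (hB : Dom B ν' c') (hs : 0 < s)
    (hη : 0 ≤ η) (hη4 : η ≤ 1 / 4) (hHS : ∑ k, rel A B k ^ 2 ≤ η ^ 2) {W : (V N → ℝ) → ℂ}
    (hW : Measurable W) {S : ℝ} (hS : ∀ F, ‖W F‖ ≤ S) :
    tn2 (A * ahat s A) (fun f => Pg (ahat s A) (gm s A) W f - Pg (ahat s B) (gm s B) W f) ≤
      8 * η * S := by
  have hS0 : 0 ≤ S := (norm_nonneg _).trans (hS 0)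
  set T : Matrix (V N) (V N) ℝ := mlt (fun k => √((1 + s * sym B k) / s) *
    ((1 + s * sym A k)⁻¹ - (1 + s * sym B k)⁻¹)) with hT
  have eT : ∀ k, √((1 + s * sym B (-k)) / s) * ((1 + s * sym A (-k))⁻¹ - (1 + s * sym B (-k))⁻¹)
      = √((1 + s * sym B k) / s) * ((1 + s * sym A k)⁻¹ - (1 + s * sym B k)⁻¹) := fun k => by
    rw [H864.sym_neg_arg, H864.sym_neg_arg]
  have tT : TI T := H864.ti_mlt _
  have sT : ∀ k, sym T k = √((1 + s * sym B k) / s) *
      ((1 + s * sym A k)⁻¹ - (1 + s * sym B k)⁻¹) := H864.sym_mlt _ eT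
  have hM := shift_typ hA hB hs hη hη4 hHS tT sT
  unfold tn2
  rw [← cgm_eq_pin hA hs]
  set M : Matrix (V N) (V N) ℝ := T * cgm s A with hMd
  have hnn : ∀ g : V N → ℝ, 0 ≤ ∑ x, (M *ᵥ g) x ^ 2 := fun g =>
    Finset.sum_nonneg fun x _ => sq_nonneg _
  have eMv : ∀ (g : V N → ℝ) (x : V N), (M *ᵥ g) x = M x ⬝ᵥ g := fun _ _ => rfl
  have hint : Integrable (fun g : V N → ℝ => ∑ x, (M *ᵥ g) x ^ 2) (gau (V N)) := by
    simp only [eMv]
    exact integrable_finsetSum _ fun x _ => integrable_dot_sq (M x)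
  have hmeas : Measurable fun g : V N → ℝ => √(∑ x, (M *ᵥ g) x ^ 2) :=
    (Finset.measurable_sum _ fun x _ => ((measurable_dot (M x)).pow_const 2)).sqrt
  have hmem : MemLp (fun g : V N → ℝ => ((√(∑ x, (M *ᵥ g) x ^ 2) : ℝ) : ℂ)) 2 (gau (V N)) := by
    have hm : AEStronglyMeasurable
        (fun g : V N → ℝ => ((√(∑ x, (M *ᵥ g) x ^ 2) : ℝ) : ℂ)) (gau (V N)) :=
      (Complex.measurable_ofReal.comp hmeas).aestronglyMeasurable
    rw [memLp_two_iff_integrable_sq_norm hm]
    refine hint.congr (Filter.Eventually.of_forall fun g => ?_)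
    simp only
    rw [Complex.norm_real, Real.norm_eq_abs, sq_abs, Real.sq_sqrt (hnn g)]
  have hn : n2 (gau (V N)) (fun g : V N → ℝ => ((√(∑ x, (M *ᵥ g) x ^ 2) : ℝ) : ℂ))
      ≤ √(4 / 3 * η ^ 2) := by
    apply Real.le_sqrt_of_sq_le
    rw [n2_sq hmem]
    refine le_trans (le_of_eq ?_) hM
    have e : ∀ g : V N → ℝ, ‖((√(∑ x, (M *ᵥ g) x ^ 2) : ℝ) : ℂ)‖ ^ 2 = ∑ x, (M *ᵥ g) x ^ 2 :=
      fun g => by rw [Complex.norm_real, Real.norm_eq_abs, sq_abs, Real.sq_sqrt (hnn g)]
    rw [integral_congr_ae (Filter.Eventually.of_forall e)]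
    simp only [eMv]
    rw [integral_finsetSum _ fun x _ => integrable_dot_sq (M x)]
    exact Finset.sum_congr rfl fun x _ => integral_dot_sq (M x)
  have hc1 : MemLp (fun _ : V N → ℝ => ((4 * η * S : ℝ) : ℂ)) 2 (gau (V N)) := memLp_const _
  have hc2 := hmem.const_mul ((2 * S : ℝ) : ℂ)
  have hv : ∀ g : V N → ℝ,
      ‖Pg (ahat s A) (gm s A) W (cgm s A *ᵥ g) - Pg (ahat s B) (gm s B) W (cgm s A *ᵥ g)‖ ≤
      ‖((4 * η * S : ℝ) : ℂ) + ((2 * S : ℝ) : ℂ) * ((√(∑ x, (M *ᵥ g) x ^ 2) : ℝ) : ℂ)‖ := by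
    intro g
    refine (fch_pt hA hB hs hη (by linarith) hHS hW hS _).trans (le_of_eq ?_)
    rw [← Complex.ofReal_mul, ← Complex.ofReal_add, Complex.norm_real, Real.norm_eq_abs,
      abs_of_nonneg (by positivity), mulVec_mulVec]
  refine (n2_mono (hc1.add hc2) hv).trans ?_
  refine (n2_add_le hc1 hc2).trans ?_
  rw [n2_const_mul]
  have h5 : n2 (gau (V N)) (fun _ : V N → ℝ => ((4 * η * S : ℝ) : ℂ)) ≤ 4 * η * S :=
    n2_le_const aestronglyMeasurable_const (by positivity) fun g => by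
      rw [Complex.norm_real, Real.norm_eq_abs, abs_of_nonneg (by positivity)]
  have h6 : ‖((2 * S : ℝ) : ℂ)‖ = 2 * S := by
    rw [Complex.norm_real, Real.norm_eq_abs, abs_of_nonneg (by positivity)]
  rw [h6]
  have h7 : √(4 / 3 * η ^ 2) ≤ 2 * η := by
    rw [Real.sqrt_le_left (by positivity)]
    nlinarith [sq_nonneg η]
  have h8 := mul_le_mul_of_nonneg_left (hn.trans h7) (show 0 ≤ 2 * S by positivity)
  linarith

end

end Vale.Agent.P159.H37
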