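import Vale.Agent.P159.T1.H831.MMS

/-!
P159 (helper37), far pairs, part 1: site reflection positivity of the plane rotator,
`C(m + n, 0)² ≤ C(2m, 0) C(2n, 0)`.
-/

set_option linter.all false

open MeasureTheory Filter Topology

namespace Vale.Agent.P159.H37.Fp

open Vale.Agent.P159.XY
open Vale.Agent.P159 (box nn)

/-- surjective continuous homomorphisms out of a triple product preserve the Haar measures -/
theorem mp_abs3 {G H L : Type*} [AddCommGroup G] [TopologicalSpace G] [IsTopologicalAddGroup G]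
    [CompactSpace G] [MeasurableSpace G] [BorelSpace G] [SecondCountableTopology G]
    [AddCommGroup H] [TopologicalSpace H] [IsTopologicalAddGroup H]
    [CompactSpace H] [MeasurableSpace H] [BorelSpace H] [SecondCountableTopology H]
    [AddCommGroup L] [TopologicalSpace L] [IsTopologicalAddGroup L]
    [CompactSpace L] [MeasurableSpace L] [BorelSpace L] [SecondCountableTopology L]
    {μ : Measure G} [μ.IsAddHaarMeasure] [IsProbabilityMeasure μ]
    {ν : Measure H} [ν.IsAddHaarMeasure] [IsProbabilityMeasure ν]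
    {ρ : Measure L} [ρ.IsAddHaarMeasure] [IsProbabilityMeasure ρ]
    (Φ : G × (H × H) →+ L) (hc : Continuous Φ) (hs : Function.Surjective Φ) :
    MeasurePreserving Φ (μ.prod (ν.prod ν)) ρ :=
  AddMonoidHom.measurePreserving (μ := μ.prod (ν.prod ν)) (ν := ρ) (f := Φ) hc hs (by simp)

section Finite

variable {I K : Type*} [Fintype I] [Fintype K]

/-- gluing of the two halves along the mirror -/
noncomputable def glu (p : (K → XY.T) × ((I → XY.T) × (I → XY.T))) : (I ⊕ I) ⊕ K → XY.T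
  | Sum.inl (Sum.inl i) => p.2.1 i
  | Sum.inl (Sum.inr i) => p.2.2 i
  | Sum.inr k => p.1 k

theorem continuous_glu : Continuous (glu : (K → XY.T) × ((I → XY.T) × (I → XY.T)) → _) := by
  refine continuous_pi fun u => ?_
  rcases u with (i | i) | k
  · change Continuous fun p : (K → XY.T) × ((I → XY.T) × (I → XY.T)) => p.2.1 i
    fun_prop
  · change Continuous fun p : (K → XY.T) × ((I → XY.T) × (I → XY.T)) => p.2.2 i
    fun_prop
  · change Continuous fun p : (K → XY.T) × ((I → XY.T) × (I → XY.T)) => p.1 k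
    fun_prop

theorem measurePreserving_glu :
    MeasurePreserving (glu : (K → XY.T) × ((I → XY.T) × (I → XY.T)) → _)
      ((haarV K).prod ((haarV I).prod (haarV I))) (haarV ((I ⊕ I) ⊕ K)) := by
  let Φ : ((K → XY.T) × ((I → XY.T) × (I → XY.T))) →+ ((I ⊕ I) ⊕ K → XY.T) :=
    { toFun := glu
      map_zero' := by
        funext u
        rcases u with (i | i) | k <;> simp [glu]
      map_add' := fun p q => by
        funext u
        rcases u with (i | i) | k <;>
          simp only [glu, Prod.fst_add, Prod.snd_add, Pi.add_apply] }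
  have hc : Continuous Φ := continuous_glu
  have hs : Function.Surjective Φ := by
    intro θ
    refine ⟨(fun k => θ (Sum.inr k), (fun i => θ (Sum.inl (Sum.inl i)),
      fun i => θ (Sum.inl (Sum.inr i)))), ?_⟩
    funext u
    rcases u with (i | i) | k <;> rfl
  exact mp_abs3 (μ := haarV K) (ν := haarV I) (ρ := haarV ((I ⊕ I) ⊕ K)) Φ hc hs

/-- energy of one half -/
noncomputable def eh (J : ((I ⊕ I) ⊕ K) → ((I ⊕ I) ⊕ K) → ℝ) (κ : K → XY.T) (α : I → XY.T) : ℝ :=
  ∑ i, ∑ j, J (Sum.inl (Sum.inl i)) (Sum.inl (Sum.inl j)) * ct (α i - α j) +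
    ∑ i, ∑ k, J (Sum.inl (Sum.inl i)) (Sum.inr k) * ct (α i - κ k) +
    ∑ k, ∑ i, J (Sum.inr k) (Sum.inl (Sum.inl i)) * ct (κ k - α i)

/-- energy of the mirror -/
noncomputable def ek (J : ((I ⊕ I) ⊕ K) → ((I ⊕ I) ⊕ K) → ℝ) (κ : K → XY.T) : ℝ :=
  ∑ k, ∑ l, J (Sum.inr k) (Sum.inr l) * ct (κ k - κ l)

theorem energy_glu {J : ((I ⊕ I) ⊕ K) → ((I ⊕ I) ⊕ K) → ℝ}
    (h1 : ∀ i j, J (Sum.inl (Sum.inr i)) (Sum.inl (Sum.inr j))
      = J (Sum.inl (Sum.inl i)) (Sum.inl (Sum.inl j)))
    (h2 : ∀ i j, J (Sum.inl (Sum.inl i)) (Sum.inl (Sum.inr j)) = 0)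
    (h2' : ∀ i j, J (Sum.inl (Sum.inr i)) (Sum.inl (Sum.inl j)) = 0)
    (h3 : ∀ i k, J (Sum.inl (Sum.inr i)) (Sum.inr k) = J (Sum.inl (Sum.inl i)) (Sum.inr k))
    (h3' : ∀ i k, J (Sum.inr k) (Sum.inl (Sum.inr i)) = J (Sum.inr k) (Sum.inl (Sum.inl i)))
    (p : (K → XY.T) × ((I → XY.T) × (I → XY.T))) :
    energy J (glu p) = eh J p.1 p.2.1 + eh J p.1 p.2.2 + ek J p.1 := by
  unfold energy eh ek
  simp only [Fintype.sum_sum_type, glu, h1, h2, h2', h3, h3', zero_mul, Finset.sum_const_zero,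
    add_zero, zero_add, Finset.sum_add_distrib]
  ring

theorem continuous_eh (J : ((I ⊕ I) ⊕ K) → ((I ⊕ I) ⊕ K) → ℝ) (κ : K → XY.T) :
    Continuous (eh J κ) := by
  unfold eh
  fun_prop

theorem continuous_eh2 (J : ((I ⊕ I) ⊕ K) → ((I ⊕ I) ⊕ K) → ℝ) :
    Continuous fun p : (K → XY.T) × ((I → XY.T) × (I → XY.T)) =>
      eh J p.1 p.2.1 + eh J p.1 p.2.2 + ek J p.1 := by
  unfold eh ek
  fun_prop

/-- the vector product of the two halves has a nonnegative expectation -/
theorem rp_nonneg (J : ((I ⊕ I) ⊕ K) → ((I ⊕ I) ⊕ K) → ℝ) {f g : (I → XY.T) → ℝ}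
    (hf : Continuous f) (hg : Continuous g) :
    0 ≤ ∫ p : (K → XY.T) × ((I → XY.T) × (I → XY.T)),
      (f p.2.1 * f p.2.2 + g p.2.1 * g p.2.2) *
        Real.exp (eh J p.1 p.2.1 + eh J p.1 p.2.2 + ek J p.1)
        ∂((haarV K).prod ((haarV I).prod (haarV I))) := by
  have hc := continuous_eh2 J
  have hci : Integrable (fun p : (K → XY.T) × ((I → XY.T) × (I → XY.T)) =>
      (f p.2.1 * f p.2.2 + g p.2.1 * g p.2.2) *
        Real.exp (eh J p.1 p.2.1 + eh J p.1 p.2.2 + ek J p.1))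
      ((haarV K).prod ((haarV I).prod (haarV I))) := by
    apply integrable_of_continuous
    fun_prop
  rw [integral_prod _ hci]
  refine integral_nonneg fun κ => ?_
  have hk := continuous_eh J κ
  have e : ∀ p : (I → XY.T) × (I → XY.T), (f p.1 * f p.2 + g p.1 * g p.2) *
      Real.exp (eh J κ p.1 + eh J κ p.2 + ek J κ) =
      Real.exp (ek J κ) * ((f p.1 * Real.exp (eh J κ p.1)) * (f p.2 * Real.exp (eh J κ p.2))) +
      Real.exp (ek J κ) * ((g p.1 * Real.exp (eh J κ p.1)) * (g p.2 * Real.exp (eh J κ p.2))) := by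
    intro p
    rw [Real.exp_add, Real.exp_add]
    ring
  show 0 ≤ ∫ p : (I → XY.T) × (I → XY.T), (f p.1 * f p.2 + g p.1 * g p.2) *
      Real.exp (eh J κ p.1 + eh J κ p.2 + ek J κ) ∂((haarV I).prod (haarV I))
  simp_rw [e]
  rw [integral_add, integral_const_mul, integral_const_mul,
    integral_prod_mul (fun α => f α * Real.exp (eh J κ α)) (fun α => f α * Real.exp (eh J κ α)),
    integral_prod_mul (fun α => g α * Real.exp (eh J κ α)) (fun α => g α * Real.exp (eh J κ α))]
  · have := Real.exp_pos (ek J κ)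
    exact add_nonneg (mul_nonneg this.le (mul_self_nonneg _))
      (mul_nonneg this.le (mul_self_nonneg _))
  · apply integrable_of_continuous; fun_prop
  · apply integrable_of_continuous; fun_prop

theorem un_glu {J : ((I ⊕ I) ⊕ K) → ((I ⊕ I) ⊕ K) → ℝ}
    (h1 : ∀ i j, J (Sum.inl (Sum.inr i)) (Sum.inl (Sum.inr j))
      = J (Sum.inl (Sum.inl i)) (Sum.inl (Sum.inl j)))
    (h2 : ∀ i j, J (Sum.inl (Sum.inl i)) (Sum.inl (Sum.inr j)) = 0)
    (h2' : ∀ i j, J (Sum.inl (Sum.inr i)) (Sum.inl (Sum.inl j)) = 0)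
    (h3 : ∀ i k, J (Sum.inl (Sum.inr i)) (Sum.inr k) = J (Sum.inl (Sum.inl i)) (Sum.inr k))
    (h3' : ∀ i k, J (Sum.inr k) (Sum.inl (Sum.inr i)) = J (Sum.inr k) (Sum.inl (Sum.inl i)))
    (o x : I) :
    un J (fun θ => ct (θ (Sum.inl (Sum.inl o)) - θ (Sum.inl (Sum.inr x)))) =
      ∫ p : (K → XY.T) × ((I → XY.T) × (I → XY.T)),
        (ct (p.2.1 o) * ct (p.2.2 x) + st (p.2.1 o) * st (p.2.2 x)) *
        Real.exp (eh J p.1 p.2.1 + eh J p.1 p.2.2 + ek J p.1)
        ∂((haarV K).prod ((haarV I).prod (haarV I))) := by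
  unfold un
  have hmp := measurePreserving_glu (I := I) (K := K)
  have hF : Continuous fun θ : (I ⊕ I) ⊕ K → XY.T =>
      ct (θ (Sum.inl (Sum.inl o)) - θ (Sum.inl (Sum.inr x))) * Real.exp (energy J θ) := by fun_prop
  have hint := integral_map (μ := (haarV K).prod ((haarV I).prod (haarV I)))
    hmp.measurable.aemeasurable
    (f := fun θ : (I ⊕ I) ⊕ K → XY.T =>
      ct (θ (Sum.inl (Sum.inl o)) - θ (Sum.inl (Sum.inr x))) * Real.exp (energy J θ)) (by
      rw [hmp.map_eq]; exact hF.aestronglyMeasurable)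
  rw [hmp.map_eq] at hint
  rw [hint]
  refine integral_congr_ae (Filter.Eventually.of_forall fun p => ?_)
  show ct (p.2.1 o - p.2.2 x) * Real.exp (energy J (glu p)) = _
  rw [energy_glu h1 h2 h2' h3 h3', ct_sub]

/-- **site reflection positivity** -/
theorem rp_finite {J : ((I ⊕ I) ⊕ K) → ((I ⊕ I) ⊕ K) → ℝ} (hJ : ∀ u v, 0 ≤ J u v)
    (h1 : ∀ i j, J (Sum.inl (Sum.inr i)) (Sum.inl (Sum.inr j))
      = J (Sum.inl (Sum.inl i)) (Sum.inl (Sum.inl j)))
    (h2 : ∀ i j, J (Sum.inl (Sum.inl i)) (Sum.inl (Sum.inr j)) = 0)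
    (h2' : ∀ i j, J (Sum.inl (Sum.inr i)) (Sum.inl (Sum.inl j)) = 0)
    (h3 : ∀ i k, J (Sum.inl (Sum.inr i)) (Sum.inr k) = J (Sum.inl (Sum.inl i)) (Sum.inr k))
    (h3' : ∀ i k, J (Sum.inr k) (Sum.inl (Sum.inr i)) = J (Sum.inr k) (Sum.inl (Sum.inl i)))
    (o x : I) :
    XY.corr J (Sum.inl (Sum.inl o)) (Sum.inl (Sum.inr x)) ^ 2
      ≤ XY.corr J (Sum.inl (Sum.inl o)) (Sum.inl (Sum.inr o)) *
        XY.corr J (Sum.inl (Sum.inl x)) (Sum.inl (Sum.inr x)) := by
  -- symmetry
  have hsym : XY.corr J (Sum.inl (Sum.inl x)) (Sum.inl (Sum.inr o)) =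
      XY.corr J (Sum.inl (Sum.inl o)) (Sum.inl (Sum.inr x)) := by
    have h := corr_equiv (Equiv.sumCongr (Equiv.sumComm I I) (Equiv.refl K)) (J := J) (J' := J) hJ
      (by
        intro u v
        rcases u with (i | i) | k <;> rcases v with (j | j) | l <;>
          simp [h1, h2, h2', h3, h3'])
      (Sum.inl (Sum.inl x)) (Sum.inl (Sum.inr o))
    rw [h, corr_comm]
    rfl
  have hpp := part_pos J
  -- the quadratic form
  have key : ∀ l : ℝ, 0 ≤ XY.corr J (Sum.inl (Sum.inl x)) (Sum.inl (Sum.inr x)) * (l * l) +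
      (2 * XY.corr J (Sum.inl (Sum.inl o)) (Sum.inl (Sum.inr x))) * l +
      XY.corr J (Sum.inl (Sum.inl o)) (Sum.inl (Sum.inr o)) := by
    intro l
    have h := rp_nonneg (I := I) (K := K) J (f := fun α => ct (α o) + l * ct (α x))
      (g := fun α => st (α o) + l * st (α x)) (by fun_prop) (by fun_prop)
    have hc := continuous_eh2 J
    have e : ∀ p : (K → XY.T) × ((I → XY.T) × (I → XY.T)),
        ((ct (p.2.1 o) + l * ct (p.2.1 x)) * (ct (p.2.2 o) + l * ct (p.2.2 x)) +
          (st (p.2.1 o) + l * st (p.2.1 x)) * (st (p.2.2 o) + l * st (p.2.2 x))) *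
          Real.exp (eh J p.1 p.2.1 + eh J p.1 p.2.2 + ek J p.1) =
        (ct (p.2.1 o) * ct (p.2.2 o) + st (p.2.1 o) * st (p.2.2 o)) *
          Real.exp (eh J p.1 p.2.1 + eh J p.1 p.2.2 + ek J p.1) +
        (l * ((ct (p.2.1 o) * ct (p.2.2 x) + st (p.2.1 o) * st (p.2.2 x)) *
          Real.exp (eh J p.1 p.2.1 + eh J p.1 p.2.2 + ek J p.1)) +
        (l * ((ct (p.2.1 x) * ct (p.2.2 o) + st (p.2.1 x) * st (p.2.2 o)) *
          Real.exp (eh J p.1 p.2.1 + eh J p.1 p.2.2 + ek J p.1)) +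
        l * l * ((ct (p.2.1 x) * ct (p.2.2 x) + st (p.2.1 x) * st (p.2.2 x)) *
          Real.exp (eh J p.1 p.2.1 + eh J p.1 p.2.2 + ek J p.1)))) := by
      intro p; ring
    simp_rw [e] at h
    rw [integral_add, integral_add, integral_add, integral_const_mul, integral_const_mul,
      integral_const_mul, ← un_glu h1 h2 h2' h3 h3', ← un_glu h1 h2 h2' h3 h3',
      ← un_glu h1 h2 h2' h3 h3', ← un_glu h1 h2 h2' h3 h3'] at h
    · have h' := div_nonneg h hpp.le
      have e2 : ∀ u v, un J (fun θ => ct (θ u - θ v)) = XY.corr J u v * part J := by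
        intro u v
        unfold XY.corr ev
        rw [div_mul_cancel₀ _ hpp.ne']
      simp only [e2, hsym] at h'
      have e3 : (XY.corr J (Sum.inl (Sum.inl o)) (Sum.inl (Sum.inr o)) * part J +
          (l * (XY.corr J (Sum.inl (Sum.inl o)) (Sum.inl (Sum.inr x)) * part J) +
          (l * (XY.corr J (Sum.inl (Sum.inl o)) (Sum.inl (Sum.inr x)) * part J) +
          l * l * (XY.corr J (Sum.inl (Sum.inl x)) (Sum.inl (Sum.inr x)) * part J)))) / part J =
          XY.corr J (Sum.inl (Sum.inl x)) (Sum.inl (Sum.inr x)) * (l * l) +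
          (2 * XY.corr J (Sum.inl (Sum.inl o)) (Sum.inl (Sum.inr x))) * l +
          XY.corr J (Sum.inl (Sum.inl o)) (Sum.inl (Sum.inr o)) := by
        rw [div_eq_iff hpp.ne']
        ring
      rwa [e3] at h'
    all_goals
      apply integrable_of_continuous
      fun_prop
  have hd := discrim_le_zero key
  unfold discrim at hd
  nlinarith

end Finite

/-! ### The square lattice -/

theorem KS_rp {R : ℕ} {b : ℝ} (hb : 0 ≤ b) {o x : ℤ × ℤ} (ho : o ∈ box R) (hx : x ∈ box R)
    (ho1 : 0 < o.1) (hx1 : 0 < x.1) :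
    KS (box R) b o (XY.refl1 x) ^ 2 ≤ KS (box R) b o (XY.refl1 o) * KS (box R) b x (XY.refl1 x) := by
  classical
  have hS : ∀ u ∈ box R, XY.refl1 u ∈ box R := by
    intro u hu
    rw [mem_box_iff_nm] at hu ⊢
    unfold nm XY.refl1 at *
    simp only [Int.natAbs_neg]
    exact hu
  have hrr : ∀ u : ℤ × ℤ, XY.refl1 (XY.refl1 u) = u := by
    intro u; simp [XY.refl1]
  rw [KS_of_mem b ho (hS x hx), KS_of_mem b ho (hS o ho), KS_of_mem b hx (hS x hx)]
  let I : Finset (ℤ × ℤ) := (box R).filter fun u => 0 < u.1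
  let K : Finset (ℤ × ℤ) := (box R).filter fun u => u.1 = 0
  have hI : ∀ i : I, (i : ℤ × ℤ) ∈ box R ∧ 0 < (i : ℤ × ℤ).1 :=
    fun i => Finset.mem_filter.1 i.2
  have hK : ∀ i : K, (i : ℤ × ℤ) ∈ box R ∧ (i : ℤ × ℤ).1 = 0 :=
    fun i => Finset.mem_filter.1 i.2
  let e0 : (I ⊕ I) ⊕ K → box R := fun u => match u with
    | Sum.inl (Sum.inl i) => ⟨i, (hI i).1⟩
    | Sum.inl (Sum.inr i) => ⟨XY.refl1 i, hS _ (hI i).1⟩
    | Sum.inr j => ⟨j, (hK j).1⟩
  have hbij : Function.Bijective e0 := by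
    constructor
    · rintro ((u | u) | u) ((v | v) | v) huv
      · have h := congrArg Subtype.val huv
        change (u : ℤ × ℤ) = v at h
        rw [Subtype.ext h]
      · have h := congrArg Subtype.val huv
        change (u : ℤ × ℤ) = XY.refl1 v at h
        have h1 := (hI u).2
        have h2 := (hI v).2
        rw [h] at h1
        simp only [XY.refl1] at h1
        exfalso; omega
      · have h := congrArg Subtype.val huv
        change (u : ℤ × ℤ) = v at h
        have h1 := (hI u).2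
        have h2 := (hK v).2
        rw [h] at h1
        exfalso; omega
      · have h := congrArg Subtype.val huv
        change XY.refl1 (u : ℤ × ℤ) = v at h
        have h1 := (hI u).2
        have h2 := (hI v).2
        rw [← h] at h2
        simp only [XY.refl1] at h2
        exfalso; omega
      · have h := congrArg Subtype.val huv
        change XY.refl1 (u : ℤ × ℤ) = XY.refl1 v at h
        have h' := congrArg XY.refl1 h
        rw [hrr, hrr] at h'
        rw [Subtype.ext h']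
      · have h := congrArg Subtype.val huv
        change XY.refl1 (u : ℤ × ℤ) = v at h
        have h1 := (hI u).2
        have h2 := (hK v).2
        rw [← h] at h2
        simp only [XY.refl1] at h2
        exfalso; omega
      · have h := congrArg Subtype.val huv
        change (u : ℤ × ℤ) = v at h
        have h1 := (hK u).2
        have h2 := (hI v).2
        rw [← h] at h2
        exfalso; omega
      · have h := congrArg Subtype.val huv
        change (u : ℤ × ℤ) = XY.refl1 v at h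
        have h1 := (hK u).2
        have h2 := (hI v).2
        rw [h] at h1
        simp only [XY.refl1] at h1
        exfalso; omega
      · have h := congrArg Subtype.val huv
        change (u : ℤ × ℤ) = v at h
        rw [Subtype.ext h]
    · rintro ⟨u, hu⟩
      rcases lt_trichotomy u.1 0 with h | h | h
      · refine ⟨Sum.inl (Sum.inr ⟨XY.refl1 u, Finset.mem_filter.2 ⟨hS u hu, ?_⟩⟩), ?_⟩
        · simp only [XY.refl1]; omega
        · exact Subtype.ext (hrr u)
      · exact ⟨Sum.inr ⟨u, Finset.mem_filter.2 ⟨hu, h⟩⟩, rfl⟩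
      · exact ⟨Sum.inl (Sum.inl ⟨u, Finset.mem_filter.2 ⟨hu, h⟩⟩), rfl⟩
  let e := Equiv.ofBijective e0 hbij
  let J : ((I ⊕ I) ⊕ K) → ((I ⊕ I) ⊕ K) → ℝ := fun u v => b * A (e0 u) (e0 v)
  have hJ : ∀ u v, 0 ≤ J u v := fun u v => mul_nonneg hb (A_nonneg _ _)
  let o' : I := ⟨o, Finset.mem_filter.2 ⟨ho, ho1⟩⟩
  let x' : I := ⟨x, Finset.mem_filter.2 ⟨hx, hx1⟩⟩
  have c1 := corr_equiv e (J := J) (J' := fun u v : box R => b * A u v) hJ (fun _ _ => rfl)
    (Sum.inl (Sum.inl o')) (Sum.inl (Sum.inr x'))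
  have c2 := corr_equiv e (J := J) (J' := fun u v : box R => b * A u v) hJ (fun _ _ => rfl)
    (Sum.inl (Sum.inl o')) (Sum.inl (Sum.inr o'))
  have c3 := corr_equiv e (J := J) (J' := fun u v : box R => b * A u v) hJ (fun _ _ => rfl)
    (Sum.inl (Sum.inl x')) (Sum.inl (Sum.inr x'))
  change XY.corr J _ _ = XY.corr (fun u v : box R => b * A u v) ⟨o, ho⟩ ⟨XY.refl1 x, hS x hx⟩ at c1
  change XY.corr J _ _ = XY.corr (fun u v : box R => b * A u v) ⟨o, ho⟩ ⟨XY.refl1 o, hS o ho⟩ at c2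
  change XY.corr J _ _ = XY.corr (fun u v : box R => b * A u v) ⟨x, hx⟩ ⟨XY.refl1 x, hS x hx⟩ at c3
  rw [← c1, ← c2, ← c3]
  refine rp_finite hJ ?_ ?_ ?_ ?_ ?_ o' x'
  · intro i j
    change b * A (XY.refl1 i) (XY.refl1 j) = b * A i j
    rw [A_refl1]
  · intro i j
    change b * A i (XY.refl1 j) = 0
    have h1 := (hI i).2
    have h2 := (hI j).2
    rw [A_eq, if_neg, mul_zero]
    simp only [XY.refl1]
    omega
  · intro i j
    change b * A (XY.refl1 i) j = 0
    have h1 := (hI i).2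
    have h2 := (hI j).2
    rw [A_eq, if_neg, mul_zero]
    simp only [XY.refl1]
    omega
  · intro i j
    change b * A (XY.refl1 i) j = b * A i j
    have h2 := (hK j).2
    congr 1
    apply A_congr
    simp only [XY.refl1]
    omega
  · intro i j
    change b * A j (XY.refl1 i) = b * A j i
    have h2 := (hK j).2
    congr 1
    apply A_congr
    simp only [XY.refl1]
    omega

/-- **log convexity of the two point function on the axis**, even distances -/
theorem C_rp {b : ℝ} (hb : 0 ≤ b) {m n : ℕ} (hm : 1 ≤ m) (hn : 1 ≤ n) :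
    C b (((m + n : ℕ) : ℤ), 0) ^ 2 ≤ C b (((2 * m : ℕ) : ℤ), 0) * C b (((2 * n : ℕ) : ℤ), 0) := by
  have k1 := tendsto_KS hb ((m : ℤ), 0) (XY.refl1 ((n : ℤ), 0))
  have k2 := tendsto_KS hb ((m : ℤ), 0) (XY.refl1 ((m : ℤ), 0))
  have k3 := tendsto_KS hb ((n : ℤ), 0) (XY.refl1 ((n : ℤ), 0))
  have e : ∀ i j : ℕ, CI b ((i : ℤ), 0) (XY.refl1 ((j : ℤ), 0)) = C b (((i + j : ℕ) : ℤ), 0) := by
    intro i j
    rw [CI_eq hb, ← C_neg hb]
    congr 1
    unfold XY.refl1
    ext
    · simp only [Prod.fst_neg, Prod.fst_sub]; push_cast; ring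
    · simp
  rw [e] at k1 k2 k3
  have h := le_of_tendsto_of_tendsto (k1.pow 2) (k2.mul k3) (by
    filter_upwards [eventually_ge_atTop (max m n)] with R hR
    refine KS_rp hb ?_ ?_ ?_ ?_
    · rw [mem_box_iff_nm]
      unfold nm
      simp only [Int.natAbs_natCast, Int.natAbs_zero]
      have := (le_max_left m n).trans hR
      omega
    · rw [mem_box_iff_nm]
      unfold nm
      simp only [Int.natAbs_natCast, Int.natAbs_zero]
      have := (le_max_right m n).trans hR
      omega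
    · show (0 : ℤ) < (m : ℤ)
      omega
    · show (0 : ℤ) < (n : ℤ)
      omega)
  rwa [← two_mul, ← two_mul] at h

end Vale.Agent.P159.H37.Fp
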