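import Vale.Agent.P159.H37.Fp1
import Vale.Agent.P159.H253.Rec2

/-!
P159 (helper37), far pairs, part 2: the two point function on the axis beyond a scale with the price
bound (log convexity).
-/

set_option linter.all false

open MeasureTheory Filter Topology
open scoped BigOperators

namespace Vale.Agent.P159.H37.Fp

open Vale.Agent.P159 Vale.Agent.P159.TM.H331 Vale.Agent.P159.H773 Vale.Agent.P159.H253.Rec

variable {b α C1 : ℝ}

/-- slopes of a convex sequence -/
lemma conv_slope {h : ℕ → ℝ} (hc : ∀ m, 1 ≤ m → 2 * h (m + 1) ≤ h m + h (m + 2)) {a c e : ℕ}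
    (ha : 1 ≤ a) (hac : a ≤ c) (hce : c ≤ e) :
    ((e : ℝ) - c) * (h c - h a) ≤ ((c : ℝ) - a) * (h e - h c) := by
  have hd : ∀ m n, 1 ≤ m → m ≤ n → h (m + 1) - h m ≤ h (n + 1) - h n := by
    intro m n hm hmn
    induction n, hmn using Nat.le_induction with
    | base => exact le_rfl
    | succ n hn ih =>
      have := hc n (hm.trans hn)
      have e1 : n + 1 + 1 = n + 2 := rfl
      rw [e1]
      linarith
  have h1 : ∀ k : ℕ, h (a + k) - h a ≤ k * (h (a + k + 1) - h (a + k)) := by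
    intro k
    induction k with
    | zero => simp
    | succ k ih =>
      have h2 := hd (a + k) (a + k + 1) (by omega) (by omega)
      have e1 : a + (k + 1) = a + k + 1 := rfl
      rw [e1]
      push_cast
      have hk : (0 : ℝ) ≤ k := Nat.cast_nonneg _
      nlinarith
  have h3 : ∀ k : ℕ, k * (h (c + 1) - h c) ≤ h (c + k) - h c := by
    intro k
    induction k with
    | zero => simp
    | succ k ih =>
      have h2 := hd c (c + k) (by omega) (by omega)
      have e1 : c + (k + 1) = c + k + 1 := rfl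
      rw [e1]
      push_cast
      nlinarith
  have h4 := h1 (c - a)
  have h5 := h3 (e - c)
  rw [Nat.add_sub_cancel' hac] at h4
  rw [Nat.add_sub_cancel' hce] at h5
  have e1 : ((c - a : ℕ) : ℝ) = (c : ℝ) - a := by push_cast [Nat.cast_sub hac]; ring
  have e2 : ((e - c : ℕ) : ℝ) = (e : ℝ) - c := by push_cast [Nat.cast_sub hce]; ring
  rw [e1] at h4
  rw [e2] at h5
  have h6 : (0 : ℝ) ≤ (c : ℝ) - a := by
    rw [← e1]; exact Nat.cast_nonneg _
  have h7 : (0 : ℝ) ≤ (e : ℝ) - c := by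
    rw [← e2]; exact Nat.cast_nonneg _
  calc ((e : ℝ) - c) * (h c - h a) ≤ ((e : ℝ) - c) * (((c : ℝ) - a) * (h (c + 1) - h c)) :=
        mul_le_mul_of_nonneg_left h4 h7
    _ = ((c : ℝ) - a) * (((e : ℝ) - c) * (h (c + 1) - h c)) := by ring
    _ ≤ ((c : ℝ) - a) * (h e - h c) := mul_le_mul_of_nonneg_left h5 h6

lemma ga_all_pos (hb : 0 ≤ b) {R : ℕ} (hR : 1 ≤ R) (h : 0 < ga b R) (n : ℕ) : 0 < ga b n := by
  have h1 : ∀ k : ℕ, 0 < ga b (k * R) := by
    intro k
    induction k with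
    | zero =>
      have e : ga b (0 * R) = 1 := by
        unfold ga
        rw [zero_mul]
        exact XY.C_zero b
      rw [e]
      exact one_pos
    | succ k ih =>
      have h2 := XY.C_supermul hb (((k * R : ℕ) : ℤ), 0) ((R : ℤ), 0)
      have e : ((((k * R : ℕ) : ℤ), (0 : ℤ)) + ((R : ℤ), (0 : ℤ)) : ℤ × ℤ) =
          ((((k + 1) * R : ℕ) : ℤ), 0) := by
        ext
        · simp only [Prod.fst_add]; push_cast; ring
        · simp
      rw [e] at h2
      exact lt_of_lt_of_le (mul_pos ih h) h2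
  exact lt_of_lt_of_le (h1 n) (ga_anti hb (Nat.le_mul_of_pos_right n hR))

/-- **log convexity** -/
lemma log_ga_conv (hb : 0 ≤ b) {R : ℕ} (hR : 1 ≤ R) (h : 0 < ga b R) {m : ℕ} (hm : 1 ≤ m) :
    2 * Real.log (ga b (2 * (m + 1))) ≤ Real.log (ga b (2 * m)) + Real.log (ga b (2 * (m + 2))) := by
  have h0 := ga_all_pos hb hR h
  have h1 := C_rp hb hm (show 1 ≤ m + 2 by omega)
  have e : m + (m + 2) = 2 * (m + 1) := by ring
  rw [e] at h1
  change ga b (2 * (m + 1)) ^ 2 ≤ ga b (2 * m) * ga b (2 * (m + 2)) at h1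
  rw [← Real.log_mul (h0 _).ne' (h0 _).ne']
  calc 2 * Real.log (ga b (2 * (m + 1))) = Real.log (ga b (2 * (m + 1)) ^ 2) := by
        rw [Real.log_pow]; push_cast; ring
    _ ≤ _ := Real.log_le_log (pow_pos (h0 _) 2) h1

/-- **the axis beyond the scale `R`** -/
theorem ga_ext (hb : 0 ≤ b) (hα0 : 0 ≤ α) (hα1 : α ≤ 1) (hC1 : 1 ≤ C1) {R : ℕ} (hR : 8 ≤ R)
    (h : RecAt b α C1 R) {B : ℝ} (hB : 0 ≤ B) {n : ℕ} (hn : (n : ℝ) ≤ B * R) :
    (12 * C1) ^ (-(4 * B + 1)) * ga b R ≤ ga b n := by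
  have h0 := ga_all_pos hb (by omega) h.1
  have hR' : (8 : ℝ) ≤ R := by exact_mod_cast hR
  set a : ℕ := R / 4 with ha
  set c : ℕ := R / 2 with hc
  have ha2 : 2 ≤ a := by omega
  have hac : a ≤ c := by omega
  -- the price bound
  have hs : 1 ≤ a - 1 := by omega
  have p1 := h.2 (a - 1) hs (by omega)
  have p2 : ga b (2 * a) ≤ ua b (a - 1) := ga_le_ua hb (a - 1) (2 * a) (by omega)
  have hs0 : (0 : ℝ) < ((a - 1 : ℕ) : ℝ) := by exact_mod_cast hs
  have hs12 : (R : ℝ) ≤ 12 * ((a - 1 : ℕ) : ℝ) := by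
    have : R ≤ 12 * (a - 1) := by omega
    exact_mod_cast this
  have p3 : ((R : ℝ) / ((a - 1 : ℕ) : ℝ)) ^ α ≤ 12 := by
    calc ((R : ℝ) / ((a - 1 : ℕ) : ℝ)) ^ α ≤ 12 ^ α :=
          Real.rpow_le_rpow (by positivity) (by rw [div_le_iff₀ hs0]; exact hs12) hα0
      _ ≤ 12 ^ (1 : ℝ) := Real.rpow_le_rpow_of_exponent_le (by norm_num) hα1
      _ = 12 := Real.rpow_one 12
  have p4 : ga b (2 * a) ≤ 12 * C1 * ga b R := by
    refine p2.trans (p1.trans ?_)
    have hC0 : 0 ≤ C1 := by linarith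
    calc C1 * ((R : ℝ) / ((a - 1 : ℕ) : ℝ)) ^ α * ga b R ≤ C1 * 12 * ga b R :=
          mul_le_mul_of_nonneg_right (mul_le_mul_of_nonneg_left p3 hC0) h.1.le
      _ = _ := by ring
  have hL : 0 ≤ Real.log (12 * C1) := Real.log_nonneg (by linarith)
  have p5 : Real.log (ga b (2 * a)) ≤ Real.log (12 * C1) + Real.log (ga b R) := by
    rw [← Real.log_mul (by positivity) h.1.ne']
    exact Real.log_le_log (h0 _) p4
  have p6 : Real.log (ga b R) ≤ Real.log (ga b (2 * c)) :=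
    Real.log_le_log h.1 (ga_anti hb (by omega))
  -- the target
  rcases le_or_gt n (2 * c) with hnc | hnc
  · have h1 : (12 * C1) ^ (-(4 * B + 1)) ≤ 1 :=
      Real.rpow_le_one_of_one_le_of_nonpos (by linarith) (by linarith)
    calc (12 * C1) ^ (-(4 * B + 1)) * ga b R ≤ 1 * ga b R :=
          mul_le_mul_of_nonneg_right h1 h.1.le
      _ = ga b R := one_mul _
      _ ≤ ga b (2 * c) := ga_anti hb (by omega)
      _ ≤ ga b n := ga_anti hb hnc
  set e : ℕ := (n + 1) / 2 with he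
  have hce : c ≤ e := by omega
  have q1 := conv_slope (h := fun m => Real.log (ga b (2 * m)))
    (fun m hm => log_ga_conv hb (by omega) h.1 hm) (by omega : 1 ≤ a) hac hce
  have q2 : Real.log (ga b (2 * e)) ≤ Real.log (ga b n) :=
    Real.log_le_log (h0 _) (ga_anti hb (by omega))
  have c1 : (R : ℝ) / 8 ≤ (c : ℝ) - a := by
    have : R + 8 * a ≤ 8 * c := by omega
    have h2 : (R : ℝ) + 8 * a ≤ 8 * c := by exact_mod_cast this
    linarith
  have c2 : (e : ℝ) - c ≤ B * R / 2 := by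
    have h1 : 2 * e ≤ n + 1 := by omega
    have h2 : (2 : ℝ) * e ≤ n + 1 := by exact_mod_cast h1
    have h3 : (1 : ℝ) ≤ 2 * c := by
      have : 1 ≤ 2 * c := by omega
      exact_mod_cast this
    linarith
  have c3 : (0 : ℝ) ≤ (e : ℝ) - c := by
    have : (c : ℝ) ≤ e := by exact_mod_cast hce
    linarith
  have c4 : (0 : ℝ) < (c : ℝ) - a := by linarith
  -- (e - c) / (c - a) ≤ 4 B
  have q3 : -(4 * B * Real.log (12 * C1)) ≤
      Real.log (ga b (2 * e)) - Real.log (ga b (2 * c)) := by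
    have r1 : -Real.log (12 * C1) ≤ Real.log (ga b (2 * c)) - Real.log (ga b (2 * a)) := by
      linarith
    have r2 : -(((e : ℝ) - c) * Real.log (12 * C1)) ≤
        ((c : ℝ) - a) * (Real.log (ga b (2 * e)) - Real.log (ga b (2 * c))) := by
      refine le_trans ?_ q1
      have := mul_le_mul_of_nonneg_left r1 c3
      linarith
    have r3 : ((e : ℝ) - c) ≤ 4 * B * ((c : ℝ) - a) := by
      calc (e : ℝ) - c ≤ B * R / 2 := c2
        _ = 4 * B * (R / 8) := by ring
        _ ≤ 4 * B * ((c : ℝ) - a) := mul_le_mul_of_nonneg_left c1 (by positivity)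
    have r4 : ((c : ℝ) - a) * -(4 * B * Real.log (12 * C1)) ≤
        ((c : ℝ) - a) * (Real.log (ga b (2 * e)) - Real.log (ga b (2 * c))) := by
      refine le_trans ?_ r2
      have := mul_le_mul_of_nonneg_right r3 hL
      nlinarith
    exact le_of_mul_le_mul_left r4 c4
  have hC : (0 : ℝ) < 12 * C1 := by linarith
  have q4 : Real.log ((12 * C1) ^ (-(4 * B + 1)) * ga b R) ≤ Real.log (ga b n) := by
    rw [Real.log_mul (Real.rpow_pos_of_pos hC _).ne' h.1.ne', Real.log_rpow hC]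
    nlinarith
  exact (Real.log_le_log_iff (mul_pos (Real.rpow_pos_of_pos hC _) h.1) (h0 _)).1 q4

/-- **the price bound beyond the scale `R`** -/
theorem recAt_up (hb : 0 ≤ b) (hα0 : 0 ≤ α) (hα1 : α ≤ 1) (hC1 : 1 ≤ C1) {R : ℕ} (hR : 8 ≤ R)
    (h : RecAt b α C1 R) {A : ℝ} (hA : 0 ≤ A) {R' : ℕ} (h1 : R ≤ R') (h2 : (R' : ℝ) ≤ A * R) :
    RecAt b α (C1 * (12 * C1) ^ (4 * A + 1)) R' := by
  have h0 := ga_all_pos hb (by omega) h.1
  have hC : (0 : ℝ) < 12 * C1 := by linarith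
  have hk : 0 < (12 * C1) ^ (4 * A + 1) := Real.rpow_pos_of_pos hC _
  have h3 : ga b R ≤ (12 * C1) ^ (4 * A + 1) * ga b R' := by
    have h4 := ga_ext hb hα0 hα1 hC1 hR h hA h2
    rw [Real.rpow_neg hC.le] at h4
    have h5 := mul_le_mul_of_nonneg_left h4 hk.le
    rwa [← mul_assoc, mul_inv_cancel₀ hk.ne', one_mul] at h5
  have hR0 : (0 : ℝ) < R := by
    have : 0 < R := by omega
    exact_mod_cast this
  have hC0 : (0 : ℝ) ≤ C1 := by linarith
  refine ⟨h0 _, fun s hs hsR => ?_⟩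
  have hs0 : (0 : ℝ) < s := by exact_mod_cast hs
  have hR' : (R : ℝ) ≤ R' := by exact_mod_cast h1
  rcases le_total s R with hsr | hsr
  · have h4 := h.2 s hs hsr
    have h5 : ((R : ℝ) / s) ^ α ≤ ((R' : ℝ) / s) ^ α :=
      Real.rpow_le_rpow (by positivity) (div_le_div_of_nonneg_right hR' hs0.le) hα0
    calc ua b s ≤ C1 * ((R : ℝ) / s) ^ α * ga b R := h4
      _ ≤ C1 * ((R' : ℝ) / s) ^ α * ((12 * C1) ^ (4 * A + 1) * ga b R') :=
          mul_le_mul (mul_le_mul_of_nonneg_left h5 hC0) h3 h.1.le (by positivity)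
      _ = _ := by ring
  · have h4 := h.2 R (by omega) le_rfl
    rw [div_self hR0.ne', Real.one_rpow, mul_one] at h4
    have h5 : 1 ≤ ((R' : ℝ) / s) ^ α := by
      refine Real.one_le_rpow ?_ hα0
      rw [one_le_div hs0]
      exact_mod_cast hsR
    have h6 : 0 ≤ C1 * ((12 * C1) ^ (4 * A + 1) * ga b R') := by
      have := (h0 R').le
      positivity
    calc ua b s ≤ ua b R := ua_anti hb hsr
      _ ≤ C1 * ga b R := h4
      _ ≤ C1 * ((12 * C1) ^ (4 * A + 1) * ga b R') := mul_le_mul_of_nonneg_left h3 hC0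
      _ = C1 * ((12 * C1) ^ (4 * A + 1) * ga b R') * 1 := (mul_one _).symm
      _ ≤ C1 * ((12 * C1) ^ (4 * A + 1) * ga b R') * ((R' : ℝ) / s) ^ α :=
          mul_le_mul_of_nonneg_left h5 h6
      _ = _ := by ring

end Vale.Agent.P159.H37.Fp
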