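import Mathlib

/-!
P159 / RP, abstract part: transfer matrices. `T` real positive semidefinite on a finite set,
`D` diagonal; the Fourier transform in the time direction of `n ↦ tr (D T^n D T^(N-n))` is a
Stieltjes function of `ω = 2 - 2 cos`, hence its inverse is concave in `ω`.
-/

namespace Vale.Agent.P159.H37.RP

open Finset Matrix

/-! ### Stieltjes functions -/

/-- concavity of `1 / ∑ c / (α + β ω)` in `ω` -/
lemma stj {ι : Type*} (s : Finset ι) (c α β : ι → ℝ) (hc : ∀ i ∈ s, 0 ≤ c i)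
    {w₁ w₂ w₃ : ℝ} (h12 : w₁ < w₂) (h23 : w₂ < w₃)
    (hD1 : ∀ i ∈ s, 0 < α i + β i * w₁) (hD3 : ∀ i ∈ s, 0 < α i + β i * w₃)
    (hG : 0 < ∑ i ∈ s, c i / (α i + β i * w₂)) :
    (w₃ - w₂) / (∑ i ∈ s, c i / (α i + β i * w₁)) + (w₂ - w₁) / (∑ i ∈ s, c i / (α i + β i * w₃)) ≤
      (w₃ - w₁) / ∑ i ∈ s, c i / (α i + β i * w₂) := by
  set D1 : ι → ℝ := fun i => α i + β i * w₁ with hD1e
  set D2 : ι → ℝ := fun i => α i + β i * w₂ with hD2e
  set D3 : ι → ℝ := fun i => α i + β i * w₃ with hD3e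
  have hD2 : ∀ i ∈ s, 0 < D2 i := by
    intro i hi
    have h1 := hD1 i hi
    have h3 := hD3 i hi
    have : (w₃ - w₁) * D2 i = (w₃ - w₂) * (α i + β i * w₁) + (w₂ - w₁) * (α i + β i * w₃) := by
      simp only [hD2e]; ring
    have h4 : 0 < (w₃ - w₁) * D2 i := by
      rw [this]
      exact add_pos (mul_pos (by linarith) h1) (mul_pos (by linarith) h3)
    exact (pos_iff_pos_of_mul_pos h4).1 (by linarith)
  set G1 := ∑ i ∈ s, c i / D1 i with hG1
  set G2 := ∑ i ∈ s, c i / D2 i with hG2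
  set G3 := ∑ i ∈ s, c i / D3 i with hG3
  -- Cauchy-Schwarz with `x = c / D2`
  have key : ∀ D : ι → ℝ, (∀ i ∈ s, 0 < D i) →
      G2 ^ 2 ≤ (∑ i ∈ s, c i / D i) * ∑ i ∈ s, D i * c i / D2 i ^ 2 := by
    intro D hD
    have h := Finset.sum_mul_sq_le_sq_mul_sq s (fun i => Real.sqrt (c i / D i))
      fun i => Real.sqrt (D i * c i / D2 i ^ 2)
    have e1 : ∑ i ∈ s, Real.sqrt (c i / D i) * Real.sqrt (D i * c i / D2 i ^ 2) = G2 := by
      refine Finset.sum_congr rfl fun i hi => ?_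
      rw [← Real.sqrt_mul (div_nonneg (hc i hi) (hD i hi).le)]
      have e : c i / D i * (D i * c i / D2 i ^ 2) = (c i / D2 i) ^ 2 := by
        have := (hD i hi).ne'
        field_simp
      rw [e, Real.sqrt_sq (div_nonneg (hc i hi) (hD2 i hi).le)]
    have e2 : ∑ i ∈ s, Real.sqrt (c i / D i) ^ 2 = ∑ i ∈ s, c i / D i :=
      Finset.sum_congr rfl fun i hi => Real.sq_sqrt (div_nonneg (hc i hi) (hD i hi).le)
    have e3 : ∑ i ∈ s, Real.sqrt (D i * c i / D2 i ^ 2) ^ 2 = ∑ i ∈ s, D i * c i / D2 i ^ 2 :=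
      Finset.sum_congr rfl fun i hi => Real.sq_sqrt
        (div_nonneg (mul_nonneg (hD i hi).le (hc i hi)) (sq_nonneg _))
    rw [e1, e2, e3] at h
    exact h
  have k1 := key D1 hD1
  have k3 := key D3 hD3
  have hG1p : 0 < G1 := by
    have h0 : 0 ≤ G1 := Finset.sum_nonneg fun i hi => div_nonneg (hc i hi) (hD1 i hi).le
    rcases h0.lt_or_eq with h | h
    · exact h
    · rw [← hG1, ← h, zero_mul] at k1
      nlinarith
  have hG3p : 0 < G3 := by
    have h0 : 0 ≤ G3 := Finset.sum_nonneg fun i hi => div_nonneg (hc i hi) (hD3 i hi).le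
    rcases h0.lt_or_eq with h | h
    · exact h
    · rw [← hG3, ← h, zero_mul] at k3
      nlinarith
  have hsum : (w₃ - w₂) * (∑ i ∈ s, D1 i * c i / D2 i ^ 2) +
      (w₂ - w₁) * (∑ i ∈ s, D3 i * c i / D2 i ^ 2) = (w₃ - w₁) * G2 := by
    rw [Finset.mul_sum, Finset.mul_sum, Finset.mul_sum, ← Finset.sum_add_distrib]
    refine Finset.sum_congr rfl fun i hi => ?_
    have := (hD2 i hi).ne'
    have e : (w₃ - w₂) * D1 i + (w₂ - w₁) * D3 i = (w₃ - w₁) * D2 i := by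
      simp only [hD1e, hD2e, hD3e]; ring
    field_simp
    linear_combination e
  have a1 : G2 ^ 2 / G1 ≤ ∑ i ∈ s, D1 i * c i / D2 i ^ 2 := by
    rw [div_le_iff₀ hG1p, mul_comm]; exact k1
  have a3 : G2 ^ 2 / G3 ≤ ∑ i ∈ s, D3 i * c i / D2 i ^ 2 := by
    rw [div_le_iff₀ hG3p, mul_comm]; exact k3
  have b : (w₃ - w₂) * (G2 ^ 2 / G1) + (w₂ - w₁) * (G2 ^ 2 / G3) ≤ (w₃ - w₁) * G2 := by
    rw [← hsum]
    exact add_le_add (mul_le_mul_of_nonneg_left a1 (by linarith))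
      (mul_le_mul_of_nonneg_left a3 (by linarith))
  rw [le_div_iff₀ hG]
  have e : ((w₃ - w₂) / G1 + (w₂ - w₁) / G3) * G2 =
      ((w₃ - w₂) * (G2 ^ 2 / G1) + (w₂ - w₁) * (G2 ^ 2 / G3)) / G2 := by
    field_simp
  rw [e, div_le_iff₀ hG]
  exact b

/-! ### the geometric Fourier sum -/

/-- `∑_{n < N} cos (φ n) λ^n μ^(N-n)` -/
noncomputable def gs (N : ℕ) (φ x y : ℝ) : ℝ :=
  ∑ n ∈ range N, Real.cos (φ * n) * x ^ n * y ^ (N - n)

lemma gs_mul {N : ℕ} {φ : ℝ} (hφ : ∃ k : ℤ, φ * N = 2 * Real.pi * k) (x y : ℝ) :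
    gs N φ x y * ((y - x) ^ 2 + x * y * (2 - 2 * Real.cos φ)) =
      (y ^ N - x ^ N) * (y ^ 2 - x * y * Real.cos φ) := by
  obtain ⟨k, hk⟩ := hφ
  set z : ℂ := Complex.exp (φ * Complex.I) with hz
  have hzN : z ^ N = 1 := by
    rw [hz, ← Complex.exp_nat_mul]
    have : (N : ℂ) * (φ * Complex.I) = (k : ℂ) * (2 * Real.pi * Complex.I) := by
      have h := congrArg (fun r : ℝ => (r : ℂ)) hk
      push_cast at h
      linear_combination Complex.I * h
    rw [this]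
    exact Complex.exp_int_mul_two_pi_mul_I k
  set E : ℂ := ∑ n ∈ range N, ((x : ℂ) * z) ^ n * (y : ℂ) ^ (N - 1 - n) with hE
  have h1 : E * ((x : ℂ) * z - y) = ((x : ℂ) ^ N - (y : ℂ) ^ N) := by
    rw [hE, Commute.geom_sum₂_mul (Commute.all _ _), mul_pow, hzN, mul_one]
  have hre : gs N φ x y = y * E.re := by
    unfold gs
    rw [hE, Complex.re_sum, Finset.mul_sum]
    refine Finset.sum_congr rfl fun n hn => ?_
    rw [Finset.mem_range] at hn
    have e1 : z ^ n = Complex.exp ((φ * n : ℝ) * Complex.I) := by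
      rw [hz, ← Complex.exp_nat_mul]
      congr 1
      push_cast
      ring
    have e2 : (((x : ℂ) * z) ^ n * (y : ℂ) ^ (N - 1 - n)).re =
        x ^ n * Real.cos (φ * n) * y ^ (N - 1 - n) := by
      rw [mul_pow, e1]
      have e3 : (x : ℂ) ^ n * Complex.exp ((φ * n : ℝ) * Complex.I) * (y : ℂ) ^ (N - 1 - n) =
          ((x ^ n * y ^ (N - 1 - n) : ℝ) : ℂ) * Complex.exp ((φ * n : ℝ) * Complex.I) := by
        push_cast
        ring
      rw [e3, Complex.re_ofReal_mul, Complex.exp_ofReal_mul_I_re]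
      ring
    rw [e2]
    have e4 : y ^ (N - n) = y * y ^ (N - 1 - n) := by
      rw [← pow_succ']
      congr 1
      omega
    rw [e4]
    ring
  have hc : (starRingEnd ℂ) z = Complex.exp (-(φ * Complex.I)) := by
    rw [hz, ← Complex.exp_conj]
    congr 1
    simp
  have hzz : z * (starRingEnd ℂ) z = 1 := by
    rw [hc, hz, ← Complex.exp_add]
    simp
  have h2 : E * (((y - x) ^ 2 + x * y * (2 - 2 * Real.cos φ) : ℝ) : ℂ) =
      (((y ^ N - x ^ N : ℝ) : ℂ)) * ((y : ℂ) - x * (starRingEnd ℂ) z) := by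
    have e5 : (((y - x) ^ 2 + x * y * (2 - 2 * Real.cos φ) : ℝ) : ℂ) =
        ((x : ℂ) * z - y) * ((x : ℂ) * (starRingEnd ℂ) z - y) := by
      have e6 : z + (starRingEnd ℂ) z = 2 * (Real.cos φ : ℂ) := by
        rw [Complex.add_conj, hz, Complex.exp_ofReal_mul_I_re]
        push_cast
        ring
      push_cast
      push_cast at e6
      linear_combination (x * y : ℂ) * e6 - (x : ℂ) ^ 2 * hzz
    rw [e5, ← mul_assoc, h1]
    push_cast
    ring
  have h3 := congrArg Complex.re h2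
  rw [Complex.re_mul_ofReal, Complex.re_ofReal_mul] at h3
  have e7 : ((y : ℂ) - x * (starRingEnd ℂ) z).re = y - x * Real.cos φ := by
    rw [Complex.sub_re, Complex.ofReal_re, Complex.re_ofReal_mul, Complex.conj_re, hz,
      Complex.exp_ofReal_mul_I_re]
  rw [e7] at h3
  rw [hre]
  linear_combination y * h3

/-- the symmetrised sum -/
lemma gs_symm {N : ℕ} {φ : ℝ} (hφ : ∃ k : ℤ, φ * N = 2 * Real.pi * k) (x y : ℝ) :
    (gs N φ x y + gs N φ y x) * ((y - x) ^ 2 + x * y * (2 - 2 * Real.cos φ)) =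
      (y ^ N - x ^ N) * (y ^ 2 - x ^ 2) := by
  have h1 := gs_mul hφ x y
  have h2 := gs_mul hφ y x
  linear_combination h1 + h2

lemma coef_nonneg {N : ℕ} {x y : ℝ} (hx : 0 ≤ x) (hy : 0 ≤ y) :
    0 ≤ (y ^ N - x ^ N) * (y ^ 2 - x ^ 2) := by
  rcases le_total x y with h | h
  · exact mul_nonneg (sub_nonneg.2 (pow_le_pow_left₀ hx h N))
      (sub_nonneg.2 (pow_le_pow_left₀ hx h 2))
  · exact mul_nonneg_of_nonpos_of_nonpos (sub_nonpos.2 (pow_le_pow_left₀ hy h N))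
      (sub_nonpos.2 (pow_le_pow_left₀ hy h 2))

/-- degenerate pairs do not contribute at `ω > 0` -/
lemma gs_deg {N : ℕ} {φ : ℝ} (hφ : ∃ k : ℤ, φ * N = 2 * Real.pi * k)
    (hw : 0 < 2 - 2 * Real.cos φ) {x : ℝ} (hx : 0 ≤ x) (hN : N ≠ 0) :
    gs N φ x x + gs N φ x x = 0 := by
  have h := gs_symm hφ x x
  simp only [sub_self, zero_mul, ne_eq, OfNat.ofNat_ne_zero, not_false_eq_true, zero_pow,
    zero_add] at h
  rcases hx.lt_or_eq with h0 | h0
  · have : x * x * (2 - 2 * Real.cos φ) ≠ 0 := (mul_pos (mul_pos h0 h0) hw).ne'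
    exact (mul_eq_zero.1 h).resolve_right this
  · rw [← h0]
    unfold gs
    have : ∑ n ∈ range N, Real.cos (φ * n) * (0 : ℝ) ^ n * (0 : ℝ) ^ (N - n) = 0 := by
      refine Finset.sum_eq_zero fun n hn => ?_
      rw [Finset.mem_range] at hn
      rw [zero_pow (by omega : N - n ≠ 0), mul_zero]
    rw [this, add_zero]

/-- at `φ` a multiple of `2π` everything is nonnegative -/
lemma gs_nonneg {N : ℕ} {φ : ℝ} (hw : Real.cos φ = 1) {x y : ℝ} (hx : 0 ≤ x) (hy : 0 ≤ y) :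
    0 ≤ gs N φ x y := by
  unfold gs
  refine Finset.sum_nonneg fun n _ => ?_
  have h1 : Real.cos (φ * n) = 1 := by
    obtain ⟨k, hk⟩ := (Real.cos_eq_one_iff φ).1 hw
    rw [← hk]
    have : (k : ℝ) * (2 * Real.pi) * n = ((k * n : ℤ) : ℝ) * (2 * Real.pi) := by
      push_cast; ring
    rw [this, Real.cos_int_mul_two_pi]
  rw [h1, one_mul]
  positivity

end Vale.Agent.P159.H37.RP
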