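import Vale.Agent.P159.H37.RPa

/-!
P159 / RP: trace representation and concavity for a positive semidefinite transfer matrix.
-/

namespace Vale.Agent.P159.H37.RP

open Finset Matrix

variable {S : Type*} [Fintype S] [DecidableEq S]

/-- spectral representation of `tr (D T^n D T^m)` -/
theorem trace_rep {T : Matrix S S ℝ} (hT : T.PosSemidef) :
    ∃ (l : S → ℝ) (U : Matrix S S ℝ), (∀ i, 0 ≤ l i) ∧ ∀ (D : Matrix S S ℝ) (n m : ℕ),
      trace (D * T ^ n * D * T ^ m) =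
        ∑ i, ∑ j, (star U * D * U) i j * (star U * D * U) j i * l j ^ n * l i ^ m := by
  refine ⟨hT.1.eigenvalues, (hT.1.eigenvectorUnitary : Matrix S S ℝ), hT.eigenvalues_nonneg,
    fun D n m => ?_⟩
  set U : Matrix S S ℝ := (hT.1.eigenvectorUnitary : Matrix S S ℝ) with hU
  have hUU : U * star U = 1 := Unitary.coe_mul_star_self _
  have hpow : ∀ n : ℕ, T ^ n = U * diagonal (fun i => hT.1.eigenvalues i ^ n) * star U := by
    intro n
    conv_lhs => rw [hT.1.spectral_theorem, ← map_pow, Unitary.conjStarAlgAut_apply]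
    rw [Matrix.diagonal_pow, ← hU]
    rfl
  rw [hpow n, hpow m]
  have e1 : D * (U * diagonal (fun i => hT.1.eigenvalues i ^ n) * star U) * D *
      (U * diagonal (fun i => hT.1.eigenvalues i ^ m) * star U) =
      (D * U * diagonal (fun i => hT.1.eigenvalues i ^ n) * (star U * D * U) *
        diagonal (fun i => hT.1.eigenvalues i ^ m)) * star U := by
    simp only [Matrix.mul_assoc]
  rw [e1, trace_mul_comm]
  have e2 : star U * (D * U * diagonal (fun i => hT.1.eigenvalues i ^ n) * (star U * D * U) *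
        diagonal (fun i => hT.1.eigenvalues i ^ m)) =
      ((star U * D * U) * diagonal (fun i => hT.1.eigenvalues i ^ n)) *
        ((star U * D * U) * diagonal (fun i => hT.1.eigenvalues i ^ m)) := by
    simp only [Matrix.mul_assoc]
  rw [e2]
  unfold trace
  refine Finset.sum_congr rfl fun i _ => ?_
  rw [diag_apply, mul_apply]
  refine Finset.sum_congr rfl fun j _ => ?_
  rw [mul_diagonal, mul_diagonal]
  ring

/-- the Fourier sum in the time direction, summed over a family of diagonal observables -/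
noncomputable def FT {κ : Type*} [Fintype κ] (N : ℕ) (T : Matrix S S ℝ) (f : κ → S → ℝ) (φ : ℝ) :
    ℝ :=
  ∑ a, ∑ n ∈ range N, Real.cos (φ * n) *
    trace (diagonal (f a) * T ^ n * diagonal (f a) * T ^ (N - n))

/-- the Fourier sum is a Stieltjes function of `2 - 2 cos φ` on the dual lattice -/
theorem FT_rep {κ : Type*} [Fintype κ] {N : ℕ} (hN : N ≠ 0) {T : Matrix S S ℝ}
    (hT : T.PosSemidef) (f : κ → S → ℝ) :
    ∃ (P : Finset (κ × S × S)) (c α β : κ × S × S → ℝ), (∀ p ∈ P, 0 ≤ c p) ∧ (∀ p ∈ P, 0 < α p) ∧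
      (∀ p ∈ P, 0 ≤ β p) ∧
      (∀ φ : ℝ, (∃ k : ℤ, φ * N = 2 * Real.pi * k) → 0 < 2 - 2 * Real.cos φ →
        FT N T f φ = ∑ p ∈ P, c p / (α p + β p * (2 - 2 * Real.cos φ))) ∧
      ∀ φ : ℝ, (∃ k : ℤ, φ * N = 2 * Real.pi * k) →
        ∑ p ∈ P, c p / (α p + β p * (2 - 2 * Real.cos φ)) ≤ FT N T f φ := by
  classical
  obtain ⟨l, U, hl, hrep⟩ := trace_rep hT
  -- coefficients
  set B : κ → S → S → ℝ := fun a i j => (star U * diagonal (f a) * U) i j with hB
  have hBs : ∀ a i j, B a i j = B a j i := by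
    intro a i j
    have h : star (star U * diagonal (f a) * U) = star U * diagonal (f a) * U := by
      rw [star_mul, star_mul, star_star, Matrix.star_eq_conjTranspose (diagonal (f a)),
        diagonal_conjTranspose, Matrix.mul_assoc]
      congr 2
    have h' := congrFun (congrFun h j) i
    rw [Matrix.star_eq_conjTranspose, conjTranspose_apply, star_trivial] at h'
    exact h'
  have hFT : ∀ φ, FT N T f φ = ∑ a, ∑ i, ∑ j, B a i j ^ 2 / 2 *
      (gs N φ (l j) (l i) + gs N φ (l i) (l j)) := by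
    intro φ
    unfold FT
    refine Finset.sum_congr rfl fun a _ => ?_
    have e1 : ∑ n ∈ range N, Real.cos (φ * n) *
        trace (diagonal (f a) * T ^ n * diagonal (f a) * T ^ (N - n)) =
        ∑ i, ∑ j, B a i j ^ 2 * gs N φ (l j) (l i) := by
      simp_rw [hrep, Finset.mul_sum]
      rw [Finset.sum_comm]
      refine Finset.sum_congr rfl fun i _ => ?_
      rw [Finset.sum_comm]
      refine Finset.sum_congr rfl fun j _ => ?_
      unfold gs
      rw [Finset.mul_sum]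
      refine Finset.sum_congr rfl fun n _ => ?_
      have := hBs a j i
      simp only [hB] at this ⊢
      rw [this]
      ring
    rw [e1]
    have e2 : ∑ i, ∑ j, B a i j ^ 2 * gs N φ (l j) (l i) =
        ∑ i, ∑ j, B a i j ^ 2 * gs N φ (l i) (l j) := by
      rw [Finset.sum_comm]
      refine Finset.sum_congr rfl fun i _ => Finset.sum_congr rfl fun j _ => ?_
      rw [hBs a j i]
    have e3 : ∑ i, ∑ j, B a i j ^ 2 / 2 * (gs N φ (l j) (l i) + gs N φ (l i) (l j)) =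
        (∑ i, ∑ j, B a i j ^ 2 * gs N φ (l j) (l i)) / 2 +
          (∑ i, ∑ j, B a i j ^ 2 * gs N φ (l i) (l j)) / 2 := by
      rw [Finset.sum_div, Finset.sum_div, ← Finset.sum_add_distrib]
      refine Finset.sum_congr rfl fun i _ => ?_
      rw [Finset.sum_div, Finset.sum_div, ← Finset.sum_add_distrib]
      refine Finset.sum_congr rfl fun j _ => ?_
      ring
    rw [e3, ← e2]
    ring
  -- index set of nondegenerate pairs
  set P : Finset (κ × S × S) := univ.filter fun p => l p.2.1 ≠ l p.2.2 with hP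
  set c : κ × S × S → ℝ := fun p => B p.1 p.2.1 p.2.2 ^ 2 / 2 *
    ((l p.2.1 ^ N - l p.2.2 ^ N) * (l p.2.1 ^ 2 - l p.2.2 ^ 2)) with hc
  set α : κ × S × S → ℝ := fun p => (l p.2.1 - l p.2.2) ^ 2 with hα
  set β : κ × S × S → ℝ := fun p => l p.2.2 * l p.2.1 with hβ
  have hc0 : ∀ p ∈ P, 0 ≤ c p := fun p _ =>
    mul_nonneg (by positivity) (coef_nonneg (hl _) (hl _))
  have hα0 : ∀ p ∈ P, 0 < α p := by
    intro p hp
    rw [hP, Finset.mem_filter] at hp
    have := sub_ne_zero.2 hp.2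
    simp only [hα]
    positivity
  have hβ0 : ∀ p ∈ P, 0 ≤ β p := fun p _ => mul_nonneg (hl _) (hl _)
  have hD : ∀ w : ℝ, 0 ≤ w → ∀ p ∈ P, 0 < α p + β p * w := fun w hw p hp =>
    add_pos_of_pos_of_nonneg (hα0 p hp) (mul_nonneg (hβ0 p hp) hw)
  have hterm : ∀ φ, (∃ k : ℤ, φ * N = 2 * Real.pi * k) → ∀ p ∈ P,
      B p.1 p.2.1 p.2.2 ^ 2 / 2 * (gs N φ (l p.2.2) (l p.2.1) + gs N φ (l p.2.1) (l p.2.2)) =
        c p / (α p + β p * (2 - 2 * Real.cos φ)) := by
    intro φ hφ p hp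
    have hpos := hD (2 - 2 * Real.cos φ) (by linarith [Real.cos_le_one φ]) p hp
    rw [eq_div_iff hpos.ne', mul_assoc]
    have h := gs_symm hφ (l p.2.2) (l p.2.1)
    simp only [hc, hα, hβ]
    rw [← h]
  have hsplit : ∀ φ, FT N T f φ = (∑ p ∈ P, B p.1 p.2.1 p.2.2 ^ 2 / 2 *
      (gs N φ (l p.2.2) (l p.2.1) + gs N φ (l p.2.1) (l p.2.2))) +
      ∑ p ∈ univ.filter (fun p : κ × S × S => ¬ l p.2.1 ≠ l p.2.2), B p.1 p.2.1 p.2.2 ^ 2 / 2 *
      (gs N φ (l p.2.2) (l p.2.1) + gs N φ (l p.2.1) (l p.2.2)) := by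
    intro φ
    rw [hP, Finset.sum_filter_add_sum_filter_not, hFT, ← Finset.univ_product_univ,
      Finset.sum_product]
    refine Finset.sum_congr rfl fun a _ => ?_
    rw [← Finset.univ_product_univ, Finset.sum_product]
  have hpos_case : ∀ φ, (∃ k : ℤ, φ * N = 2 * Real.pi * k) → 0 < 2 - 2 * Real.cos φ →
      FT N T f φ = ∑ p ∈ P, c p / (α p + β p * (2 - 2 * Real.cos φ)) := by
    intro φ hφ hw
    rw [hsplit, Finset.sum_congr rfl (hterm φ hφ)]
    have : ∑ p ∈ univ.filter (fun p : κ × S × S => ¬ l p.2.1 ≠ l p.2.2),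
        B p.1 p.2.1 p.2.2 ^ 2 / 2 *
        (gs N φ (l p.2.2) (l p.2.1) + gs N φ (l p.2.1) (l p.2.2)) = 0 := by
      refine Finset.sum_eq_zero fun p hp => ?_
      rw [Finset.mem_filter] at hp
      have he : l p.2.1 = l p.2.2 := not_not.1 hp.2
      rw [he, gs_deg hφ hw (hl _) hN, mul_zero]
    rw [this, add_zero]
  have hge : ∀ φ, (∃ k : ℤ, φ * N = 2 * Real.pi * k) →
      ∑ p ∈ P, c p / (α p + β p * (2 - 2 * Real.cos φ)) ≤ FT N T f φ := by
    intro φ hφ
    rcases (show 0 ≤ 2 - 2 * Real.cos φ by linarith [Real.cos_le_one φ]).lt_or_eq with hw | hw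
    · exact (hpos_case φ hφ hw).ge
    · rw [hsplit, Finset.sum_congr rfl (hterm φ hφ)]
      refine le_add_of_nonneg_right (Finset.sum_nonneg fun p _ => ?_)
      have hcos : Real.cos φ = 1 := by linarith
      exact mul_nonneg (by positivity)
        (add_nonneg (gs_nonneg hcos (hl _) (hl _)) (gs_nonneg hcos (hl _) (hl _)))
  exact ⟨P, c, α, β, hc0, hα0, hβ0, hpos_case, hge⟩

/-- monotonicity in `2 - 2 cos φ` -/
theorem FT_anti {κ : Type*} [Fintype κ] {N : ℕ} (hN : N ≠ 0) {T : Matrix S S ℝ}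
    (hT : T.PosSemidef) (f : κ → S → ℝ) {φ₁ φ₂ : ℝ} (h1 : ∃ k : ℤ, φ₁ * N = 2 * Real.pi * k)
    (h2 : ∃ k : ℤ, φ₂ * N = 2 * Real.pi * k)
    (h12 : 2 - 2 * Real.cos φ₁ < 2 - 2 * Real.cos φ₂) : FT N T f φ₂ ≤ FT N T f φ₁ := by
  obtain ⟨P, c, α, β, hc0, hα0, hβ0, heq, hge⟩ := FT_rep hN hT f
  have w1 : 0 ≤ 2 - 2 * Real.cos φ₁ := by linarith [Real.cos_le_one φ₁]
  rw [heq φ₂ h2 (by linarith)]
  refine le_trans (Finset.sum_le_sum fun p hp => ?_) (hge φ₁ h1)
  have h3 : 0 < α p + β p * (2 - 2 * Real.cos φ₁) :=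
    add_pos_of_pos_of_nonneg (hα0 p hp) (mul_nonneg (hβ0 p hp) w1)
  exact div_le_div_of_nonneg_left (hc0 p hp) h3
    (add_le_add le_rfl (mul_le_mul_of_nonneg_left h12.le (hβ0 p hp)))

theorem FT_nonneg {κ : Type*} [Fintype κ] {N : ℕ} (hN : N ≠ 0) {T : Matrix S S ℝ}
    (hT : T.PosSemidef) (f : κ → S → ℝ) {φ : ℝ} (h : ∃ k : ℤ, φ * N = 2 * Real.pi * k) :
    0 ≤ FT N T f φ := by
  obtain ⟨P, c, α, β, hc0, hα0, hβ0, heq, hge⟩ := FT_rep hN hT f
  refine le_trans (Finset.sum_nonneg fun p hp => ?_) (hge φ h)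
  have w1 : 0 ≤ 2 - 2 * Real.cos φ := by linarith [Real.cos_le_one φ]
  exact div_nonneg (hc0 p hp) (add_nonneg (hα0 p hp).le (mul_nonneg (hβ0 p hp) w1))

/-- **concavity of the inverse** for three momenta -/
theorem FT_concave {κ : Type*} [Fintype κ] {N : ℕ} (hN : N ≠ 0) {T : Matrix S S ℝ}
    (hT : T.PosSemidef) (f : κ → S → ℝ) {φ₁ φ₂ φ₃ : ℝ}
    (h1 : ∃ k : ℤ, φ₁ * N = 2 * Real.pi * k) (h2 : ∃ k : ℤ, φ₂ * N = 2 * Real.pi * k)
    (h3 : ∃ k : ℤ, φ₃ * N = 2 * Real.pi * k)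
    (h12 : 2 - 2 * Real.cos φ₁ < 2 - 2 * Real.cos φ₂)
    (h23 : 2 - 2 * Real.cos φ₂ < 2 - 2 * Real.cos φ₃) (hG : 0 < FT N T f φ₂) :
    ((2 - 2 * Real.cos φ₃) - (2 - 2 * Real.cos φ₂)) / FT N T f φ₁ +
      ((2 - 2 * Real.cos φ₂) - (2 - 2 * Real.cos φ₁)) / FT N T f φ₃ ≤
      ((2 - 2 * Real.cos φ₃) - (2 - 2 * Real.cos φ₁)) / FT N T f φ₂ := by
  obtain ⟨P, c, α, β, hc0, hα0, hβ0, heq, hge⟩ := FT_rep hN hT f
  have hD : ∀ w : ℝ, 0 ≤ w → ∀ p ∈ P, 0 < α p + β p * w := fun w hw p hp =>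
    add_pos_of_pos_of_nonneg (hα0 p hp) (mul_nonneg (hβ0 p hp) hw)
  have w1 : 0 ≤ 2 - 2 * Real.cos φ₁ := by linarith [Real.cos_le_one φ₁]
  have e2 := heq φ₂ h2 (by linarith)
  have e3 := heq φ₃ h3 (by linarith)
  have g1 := hge φ₁ h1
  have hmain := stj P c α β hc0 h12 h23 (hD _ w1) (hD _ (by linarith)) (by rw [← e2]; exact hG)
  rw [← e2, ← e3] at hmain
  refine le_trans (add_le_add ?_ le_rfl) hmain
  -- monotonicity in the first denominator
  have hpos1 : 0 < ∑ p ∈ P, c p / (α p + β p * (2 - 2 * Real.cos φ₁)) := by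
    -- some coefficient is positive
    have hex : ∃ p ∈ P, 0 < c p := by
      by_contra hne
      push Not at hne
      have : ∑ p ∈ P, c p / (α p + β p * (2 - 2 * Real.cos φ₂)) ≤ 0 := by
        refine Finset.sum_nonpos fun p hp => ?_
        exact div_nonpos_of_nonpos_of_nonneg (hne p hp) (hD _ (by linarith) p hp).le
      rw [← e2] at this
      linarith
    obtain ⟨p, hp, hcp⟩ := hex
    exact Finset.sum_pos' (fun q hq => div_nonneg (hc0 q hq) (hD _ w1 q hq).le)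
      ⟨p, hp, div_pos hcp (hD _ w1 p hp)⟩
  exact div_le_div_of_nonneg_left (by linarith) hpos1 g1

end Vale.Agent.P159.H37.RP
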