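import Vale.Agent.P159.H37.RPb
import Vale.Agent.P159.T1.H897.LogC

/-!
P159 / RP: the transfer matrix of a cyclic column system, and its positivity for the weights
`wI`.
-/

namespace Vale.Agent.P159.H37.RP

open Finset Matrix

section path

variable {S : Type*} [Fintype S] [DecidableEq S]

/-- `M 0 * M 1 * ... * M (n-1)` -/
noncomputable def PP (M : ℕ → Matrix S S ℝ) : ℕ → Matrix S S ℝ
  | 0 => 1
  | n + 1 => PP M n * M n

/-- open paths -/
lemma path_sum (M : ℕ → Matrix S S ℝ) (n : ℕ) (F : S → S → ℝ) :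
    ∑ a : Fin (n + 1) → S, (∏ i : Fin n, M i (a i.castSucc) (a i.succ)) * F (a 0) (a (Fin.last n)) =
      ∑ s, ∑ s', PP M n s s' * F s s' := by
  induction n generalizing F with
  | zero =>
    simp only [Finset.univ_eq_empty, Finset.prod_empty, one_mul, PP]
    rw [← (Equiv.funUnique (Fin 1) S).symm.sum_comp]
    refine Finset.sum_congr rfl fun s _ => ?_
    rw [Finset.sum_eq_single s]
    · simp
    · intro s' _ hs
      rw [Matrix.one_apply_ne hs.symm, zero_mul]
    · intro h
      exact absurd (Finset.mem_univ _) h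
  | succ n ih =>
    rw [← (Fin.snocEquiv (fun _ : Fin (n + 2) => S)).sum_comp, Fintype.sum_prod_type,
      Finset.sum_comm]
    have e1 : ∀ (a : Fin (n + 1) → S) (s'' : S),
        (∏ i : Fin (n + 1), M i ((Fin.snocEquiv fun _ : Fin (n + 2) => S) (s'', a) i.castSucc)
          ((Fin.snocEquiv fun _ : Fin (n + 2) => S) (s'', a) i.succ)) *
          F ((Fin.snocEquiv fun _ : Fin (n + 2) => S) (s'', a) 0)
            ((Fin.snocEquiv fun _ : Fin (n + 2) => S) (s'', a) (Fin.last (n + 1))) =
        (∏ i : Fin n, M i (a i.castSucc) (a i.succ)) *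
          (M n (a (Fin.last n)) s'' * F (a 0) s'') := by
      intro a s''
      have h1 : ∀ i : Fin (n + 1), (Fin.snocEquiv fun _ : Fin (n + 2) => S) (s'', a) i.castSucc =
          a i := fun i => by simp [Fin.snocEquiv]
      have h2 : (Fin.snocEquiv fun _ : Fin (n + 2) => S) (s'', a) (Fin.last (n + 1)) = s'' := by
        simp [Fin.snocEquiv]
      rw [Fin.prod_univ_castSucc, h2]
      have h3 : ∀ i : Fin n, (Fin.snocEquiv fun _ : Fin (n + 2) => S) (s'', a) i.castSucc.succ =
          a i.succ := fun i => by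
        rw [← Fin.castSucc_succ] 
        exact h1 i.succ
      have h4 : (Fin.snocEquiv fun _ : Fin (n + 2) => S) (s'', a) (Fin.last n).succ = s'' := by
        rw [Fin.succ_last]
        exact h2
      have h5 : (Fin.snocEquiv fun _ : Fin (n + 2) => S) (s'', a) 0 = a 0 := h1 0
      rw [h4, h5, h1 (Fin.last n)]
      simp only [h1, h3, Fin.val_castSucc, Fin.val_last]
      ring
    simp_rw [e1]
    rw [show (∑ a : Fin (n + 1) → S, ∑ s'' : S, (∏ i : Fin n, M i (a i.castSucc) (a i.succ)) *
          (M n (a (Fin.last n)) s'' * F (a 0) s'')) =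
        ∑ a : Fin (n + 1) → S, (∏ i : Fin n, M i (a i.castSucc) (a i.succ)) *
          (fun s s' => ∑ s'', M n s' s'' * F s s'') (a 0) (a (Fin.last n)) from
      Finset.sum_congr rfl fun a _ => by rw [Finset.mul_sum]]
    rw [ih fun s s' => ∑ s'', M n s' s'' * F s s'']
    refine Finset.sum_congr rfl fun s _ => ?_
    simp_rw [Finset.mul_sum]
    rw [Finset.sum_comm]
    refine Finset.sum_congr rfl fun s'' _ => ?_
    rw [PP, Matrix.mul_apply, Finset.sum_mul]
    refine Finset.sum_congr rfl fun s' _ => ?_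
    ring

/-- closed paths -/
lemma cyc_sum (N : ℕ) [NeZero N] (M : ℕ → Matrix S S ℝ) :
    ∑ a : ZMod N → S, ∏ i : ZMod N, M i.val (a i) (a (i + 1)) = trace (PP M N) := by
  obtain ⟨n, rfl⟩ : ∃ n, N = n + 1 := ⟨N - 1, by have := NeZero.ne N; omega⟩
  have h := path_sum M n fun s s' => M n s' s
  have e1 : ∀ a : ZMod (n + 1) → S, ∏ i : ZMod (n + 1), M i.val (a i) (a (i + 1)) =
      (∏ i : Fin n, M i ((show Fin (n + 1) → S from a) i.castSucc)
        ((show Fin (n + 1) → S from a) i.succ)) *
        M n ((show Fin (n + 1) → S from a) (Fin.last n)) ((show Fin (n + 1) → S from a) 0) := by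
    intro a
    rw [show (∏ i : ZMod (n + 1), M i.val (a i) (a (i + 1))) =
      ∏ i : Fin (n + 1), M (i : ℕ) ((show Fin (n + 1) → S from a) i)
        ((show Fin (n + 1) → S from a) (i + 1)) from rfl, Fin.prod_univ_castSucc]
    congr 1
    · refine Finset.prod_congr rfl fun i _ => ?_
      rw [Fin.coeSucc_eq_succ, Fin.val_castSucc]
    · rw [Fin.last_add_one, Fin.val_last]
  rw [Finset.sum_congr rfl fun a _ => e1 a]
  rw [show (∑ a : ZMod (n + 1) → S, (∏ i : Fin n, M i ((show Fin (n + 1) → S from a) i.castSucc)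
        ((show Fin (n + 1) → S from a) i.succ)) *
        M n ((show Fin (n + 1) → S from a) (Fin.last n)) ((show Fin (n + 1) → S from a) 0)) =
      ∑ a : Fin (n + 1) → S, (∏ i : Fin n, M i (a i.castSucc) (a i.succ)) *
        M n (a (Fin.last n)) (a 0) from rfl, h]
  unfold trace
  refine Finset.sum_congr rfl fun s _ => ?_
  rw [diag_apply, PP, mul_apply]

/-- `PP` of `diag (f_i) T` with only two nontrivial `f_i` -/
lemma PP_const (T : Matrix S S ℝ) (n : ℕ) : PP (fun _ => T) n = T ^ n := by
  induction n with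
  | zero => rfl
  | succ n ih => rw [PP, ih, pow_succ]

lemma PP_congr {M M' : ℕ → Matrix S S ℝ} (n : ℕ) (h : ∀ i < n, M i = M' i) :
    PP M n = PP M' n := by
  induction n with
  | zero => rfl
  | succ n ih => rw [PP, PP, ih fun i hi => h i (by omega), h n (by omega)]

lemma PP_add (M : ℕ → Matrix S S ℝ) (m n : ℕ) :
    PP M (m + n) = PP M m * PP (fun i => M (m + i)) n := by
  induction n with
  | zero => rw [add_zero, PP, mul_one]
  | succ n ih => rw [← add_assoc, PP, ih, PP, mul_assoc]

lemma PP_two (N j : ℕ) (hj : j < N) (T : Matrix S S ℝ) (f : S → ℝ) :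
    PP (fun i => diagonal (fun s => (if i = 0 then f s else 1) * if i = j then f s else 1) * T) N =
      diagonal f * T ^ j * diagonal f * T ^ (N - j) := by
  set M : ℕ → Matrix S S ℝ := fun i =>
    diagonal (fun s => (if i = 0 then f s else 1) * if i = j then f s else 1) * T with hM
  rcases Nat.eq_zero_or_pos j with h0 | h0
  · obtain ⟨n, rfl⟩ : ∃ n, N = 1 + n := ⟨N - 1, by omega⟩
    subst h0
    rw [PP_add]
    have a1 : PP M 1 = diagonal (fun s => f s * f s) * T := by
      rw [PP, PP, one_mul, hM]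
      simp
    have a2 : PP (fun i => M (1 + i)) n = T ^ n := by
      rw [← PP_const]
      refine PP_congr _ fun i _ => ?_
      have h1 : ¬ (1 + i = 0) := by omega
      simp [hM]
    rw [a1, a2, pow_zero, mul_one, Matrix.diagonal_mul_diagonal, Matrix.mul_assoc, ← pow_succ']
    congr 2
    omega
  · obtain ⟨j', rfl⟩ : ∃ j', j = 1 + j' := ⟨j - 1, by omega⟩
    obtain ⟨n, rfl⟩ : ∃ n, N = 1 + j' + (1 + n) := ⟨N - j' - 2, by omega⟩
    rw [PP_add, PP_add, PP_add]
    have a1 : PP M 1 = diagonal f * T := by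
      rw [PP, PP, one_mul, hM]
      have h1 : ¬ (0 = 1 + j') := by omega
      simp [h1]
    have a2 : PP (fun i => M (1 + i)) j' = T ^ j' := by
      rw [← PP_const]
      refine PP_congr _ fun i hi => ?_
      have h1 : ¬ (1 + i = 0) := by omega
      have h2 : ¬ (i = j') := by omega
      simp [hM, h2]
    have a3 : PP (fun i => M (1 + j' + i)) 1 = diagonal f * T := by
      rw [PP, PP, one_mul]
      have h1 : ¬ (1 + j' + 0 = 0) := by omega
      simp [hM]
    have a4 : PP (fun i => M (1 + j' + (1 + i))) n = T ^ n := by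
      rw [← PP_const]
      refine PP_congr _ fun i hi => ?_
      have h1 : ¬ (1 + j' + (1 + i) = 0) := by omega
      have h2 : ¬ (1 + j' + (1 + i) = 1 + j') := by omega
      simp [hM]
    rw [a1, a2, a3, a4]
    have b2 : 1 + j' + (1 + n) - (1 + j') = 1 + n := by omega
    rw [b2, pow_add, pow_one, pow_add T 1 n, pow_one]
    simp only [Matrix.mul_assoc]

/-- **two point function of a cyclic chain** -/
lemma cyc_two (N : ℕ) [NeZero N] (T : Matrix S S ℝ) (f : S → ℝ) (m : ZMod N) :
    ∑ a : ZMod N → S, f (a 0) * f (a m) * ∏ i : ZMod N, T (a i) (a (i + 1)) =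
      trace (diagonal f * T ^ m.val * diagonal f * T ^ (N - m.val)) := by
  classical
  have hm : m.val < N := ZMod.val_lt m
  rw [← PP_two N m.val hm T f, ← cyc_sum]
  refine Finset.sum_congr rfl fun a _ => ?_
  have h1 : ∀ i : ZMod N, (diagonal (fun s => (if i.val = 0 then f s else 1) *
      if i.val = m.val then f s else 1) * T) (a i) (a (i + 1)) =
      (if i = 0 then f (a i) else 1) * (if i = m then f (a i) else 1) * T (a i) (a (i + 1)) := by
    intro i
    simp only [Matrix.diagonal_mul]
    have h2 : (i.val = 0) ↔ (i = 0) := ZMod.val_eq_zero i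
    have h3 : (i.val = m.val) ↔ (i = m) := ⟨fun h => ZMod.val_injective N h, fun h => by rw [h]⟩
    simp only [h2, h3]
  rw [Finset.prod_congr rfl fun i _ => h1 i, Finset.prod_mul_distrib, Finset.prod_mul_distrib,
    Finset.prod_ite_eq', Finset.prod_ite_eq']
  simp

/-- partition function -/
lemma cyc_one (N : ℕ) [NeZero N] (T : Matrix S S ℝ) :
    ∑ a : ZMod N → S, ∏ i : ZMod N, T (a i) (a (i + 1)) = trace (T ^ N) := by
  rw [← PP_const, ← cyc_sum]

/-- the Fourier sum of the two point functions of a cyclic chain -/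
lemma FT_eq {κ : Type*} [Fintype κ] (N : ℕ) [NeZero N] (T : Matrix S S ℝ) (f : κ → S → ℝ)
    (φ : ℝ) :
    FT N T f φ = ∑ m : ZMod N, Real.cos (φ * m.val) *
      ∑ a : ZMod N → S, (∑ i, f i (a 0) * f i (a m)) * ∏ i : ZMod N, T (a i) (a (i + 1)) := by
  unfold FT
  have h1 : ∀ i, ∑ n ∈ range N, Real.cos (φ * n) *
      trace (diagonal (f i) * T ^ n * diagonal (f i) * T ^ (N - n)) =
      ∑ m : ZMod N, Real.cos (φ * m.val) *
        trace (diagonal (f i) * T ^ m.val * diagonal (f i) * T ^ (N - m.val)) := by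
    intro i
    rw [Finset.sum_range fun n => Real.cos (φ * n) *
      trace (diagonal (f i) * T ^ n * diagonal (f i) * T ^ (N - n))]
    obtain ⟨n, rfl⟩ : ∃ n, N = n + 1 := ⟨N - 1, by have := NeZero.ne N; omega⟩
    rfl
  simp_rw [h1]
  rw [Finset.sum_comm]
  refine Finset.sum_congr rfl fun m _ => ?_
  rw [← Finset.mul_sum]
  congr 1
  simp_rw [← cyc_two N T, Finset.sum_mul]
  rw [Finset.sum_comm]

end path

/-! ### positivity of the kernel -/

section pos

open Vale.Agent.P159.H353 (wI)

/-- Gram form of the weights -/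
lemma wI_gram {b : ℝ} (hb : 0 ≤ b) (m m' : ℤ) :
    HasSum (fun k : ℤ => T1.H897.poi (b / 2) (m - k) * T1.H897.poi (b / 2) (m' - k))
      (wI b (m - m')) := by
  have hx : 0 ≤ b / 2 := by linarith
  rw [T1.H897.wI_eq_pcv hb]
  have h := (T1.H897.summable_poi_sub hx (m - m')).hasSum
  have h2 := (Equiv.subRight m').hasSum_iff.2 h
  have e : (fun k : ℤ => T1.H897.poi (b / 2) (m - k) * T1.H897.poi (b / 2) (m' - k)) =
      (fun k : ℤ => T1.H897.poi (b / 2) (m - m' - k) * T1.H897.poi (b / 2) (-k)) ∘
        ⇑(Equiv.subRight m') := by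
    funext k
    simp only [Function.comp, Equiv.subRight_apply]
    congr 2 <;> ring
  rw [e]
  exact h2

/-- the kernel `wI b (g a' - g a)` is positive semidefinite for every `g : S → ℤ` -/
lemma wI_psd {S : Type*} [Fintype S] {b : ℝ} (hb : 0 ≤ b) (g : S → ℤ) :
    (Matrix.of fun a a' : S => wI b (g a' - g a)).PosSemidef := by
  refine Matrix.PosSemidef.of_dotProduct_mulVec_nonneg ?_ fun u => ?_
  · ext i j
    simp only [conjTranspose_apply, of_apply, star_trivial]
    rw [← H353.wI_neg]
    congr 1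
    ring
  · have h2 : ∀ a a', HasSum (fun k : ℤ => u a * u a' * (T1.H897.poi (b / 2) (g a - k) *
        T1.H897.poi (b / 2) (g a' - k))) (u a * u a' * wI b (g a - g a')) :=
      fun a a' => (wI_gram hb (g a) (g a')).mul_left _
    have h3 := hasSum_sum (s := univ) fun a _ => hasSum_sum (s := univ) fun a' _ => h2 a a'
    have h4 : ∀ k : ℤ, 0 ≤ ∑ a, ∑ a', u a * u a' * (T1.H897.poi (b / 2) (g a - k) *
        T1.H897.poi (b / 2) (g a' - k)) := by
      intro k
      have e : ∑ a, ∑ a', u a * u a' * (T1.H897.poi (b / 2) (g a - k) *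
          T1.H897.poi (b / 2) (g a' - k)) =
          (∑ a, u a * T1.H897.poi (b / 2) (g a - k)) ^ 2 := by
        rw [sq, Finset.sum_mul_sum]
        refine Finset.sum_congr rfl fun a _ => Finset.sum_congr rfl fun a' _ => ?_
        ring
      rw [e]
      positivity
    have h5 := h3.nonneg h4
    have e : star u ⬝ᵥ (Matrix.of fun a a' : S => wI b (g a' - g a)) *ᵥ u =
        ∑ a, ∑ a', u a * u a' * wI b (g a - g a') := by
      simp only [dotProduct, mulVec, star_trivial, of_apply, Finset.mul_sum]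
      refine Finset.sum_congr rfl fun a _ => Finset.sum_congr rfl fun a' _ => ?_
      rw [← H353.wI_neg b (g a - g a')]
      have : -(g a - g a') = g a' - g a := by ring
      rw [this]
      ring
    rw [e]
    exact h5

lemma psd_ones {S : Type*} [Fintype S] (c : S → ℝ) :
    (Matrix.of fun a a' : S => c a * c a').PosSemidef := by
  have h := Matrix.posSemidef_vecMulVec_self_star c
  have e : vecMulVec c (star c) = Matrix.of fun a a' : S => c a * c a' := by
    ext a a'
    simp [vecMulVec_apply]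
  rwa [e] at h

lemma psd_prod {S Y : Type*} [Fintype S] (s : Finset Y) (K : Y → S → S → ℝ)
    (hK : ∀ y, (Matrix.of (K y)).PosSemidef) :
    (Matrix.of fun a a' : S => ∏ y ∈ s, K y a a').PosSemidef := by
  classical
  induction s using Finset.induction_on with
  | empty =>
    have := psd_ones (fun _ : S => (1 : ℝ))
    simpa using this
  | insert y s hy ih =>
    have h := (hK y).hadamard ih
    have e : (Matrix.of fun a a' : S => ∏ y ∈ insert y s, K y a a') =
        Matrix.hadamard (Matrix.of (K y)) (Matrix.of fun a a' : S => ∏ y ∈ s, K y a a') := by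
      ext a a'
      simp only [of_apply, hadamard_apply]
      rw [Finset.prod_insert hy]
    rw [e]
    exact h

/-- the transfer matrix of the columns `g a : Y → ℤ`, `a ∈ S`, with the weight `v` of a column -/
noncomputable def TM' {S Y : Type*} [Fintype Y] (b : ℝ) (g : S → Y → ℤ) (v : (Y → ℤ) → ℝ) :
    Matrix S S ℝ :=
  Matrix.of fun a a' => Real.sqrt (v (g a)) * Real.sqrt (v (g a')) *
    ∏ y, wI b (g a' y - g a y)

lemma TM'_psd {S Y : Type*} [Fintype S] [Fintype Y] {b : ℝ} (hb : 0 ≤ b) (g : S → Y → ℤ)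
    (v : (Y → ℤ) → ℝ) : (TM' b g v).PosSemidef := by
  have h1 := psd_prod univ (fun (y : Y) (a a' : S) => wI b (g a' y - g a y))
    fun y => wI_psd hb fun a => g a y
  have h2 := psd_ones fun a : S => Real.sqrt (v (g a))
  exact h2.hadamard h1

/-- the weight of a cyclic family of columns -/
lemma prod_TM' {S Y : Type*} [Fintype Y] (N : ℕ) [NeZero N] (b : ℝ) (g : S → Y → ℤ)
    (v : (Y → ℤ) → ℝ) (hv : ∀ a, 0 ≤ v a) (a : ZMod N → S) :
    ∏ i : ZMod N, TM' b g v (a i) (a (i + 1)) =
      (∏ i : ZMod N, v (g (a i))) * ∏ i : ZMod N, ∏ y, wI b (g (a (i + 1)) y - g (a i) y) := by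
  simp only [TM', of_apply]
  rw [Finset.prod_mul_distrib, Finset.prod_mul_distrib]
  congr 1
  have h1 : ∏ i : ZMod N, Real.sqrt (v (g (a (i + 1)))) = ∏ i : ZMod N, Real.sqrt (v (g (a i))) :=
    Equiv.prod_comp (Equiv.addRight (1 : ZMod N)) fun i => Real.sqrt (v (g (a i)))
  rw [h1, ← Finset.prod_mul_distrib]
  exact Finset.prod_congr rfl fun i _ => Real.mul_self_sqrt (hv _)

end pos

end Vale.Agent.P159.H37.RP
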