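import Vale.Agent.P159.H37.RPc
import Vale.Agent.P159.H37.Spec0L

/-!
P159 / RP: the torus. The heights with scalar mass `t` and constant source `c` on the torus of
side `N` are a cyclic chain of columns; limit of finite sets of columns.
-/

namespace Vale.Agent.P159.H37.RP

open Finset Matrix Filter Topology
open Vale.Agent.P159.H353 (wI)
open Vale.Agent.P159.TM.SpecC (wT)
open Vale.Agent.P159.TM.H104 (EM Ex Cv K3 Lg li nh Gr)
open Vale.Agent.P159.TM.H764 (cN sN Gh)
open Vale.Agent.P159.TM.Spec (V)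

section lim

/-- heights bounded by `L` -/
abbrev Bx (L : ℕ) : Type := Finset.Icc (-(L : ℤ)) L

/-- box sums converge -/
lemma box_lim {W : Type*} [Fintype W] [DecidableEq W] {f : (W → ℤ) → ℝ} (hf : Summable f) :
    Tendsto (fun L : ℕ => ∑ h : W → Bx L, f fun x => (h x : ℤ)) atTop (𝓝 (∑' h, f h)) := by
  have h1 : ∀ L : ℕ, ∑ h : W → Bx L, f (fun x => (h x : ℤ)) =
      ∑ h ∈ Fintype.piFinset (fun _ : W => Finset.Icc (-(L : ℤ)) L), f h := by
    intro L
    refine Finset.sum_bij' (fun h _ x => (h x : ℤ))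
      (fun h hh x => ⟨h x, Fintype.mem_piFinset.1 hh x⟩) ?_ ?_ ?_ ?_ ?_
    · intro h _
      exact Fintype.mem_piFinset.2 fun x => (h x).2
    · intro h _
      exact Finset.mem_univ _
    · intro h _
      rfl
    · intro h _
      rfl
    · intro h _
      rfl
  have h2 : Tendsto (fun L : ℕ => Fintype.piFinset (fun _ : W => Finset.Icc (-(L : ℤ)) L))
      atTop atTop := by
    refine tendsto_atTop_finset_of_monotone ?_ ?_
    · intro L L' hL
      refine Fintype.piFinset_subset _ _ fun _ => ?_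
      have : (L : ℤ) ≤ L' := by exact_mod_cast hL
      exact Finset.Icc_subset_Icc (by omega) this
    · intro h
      refine ⟨∑ x, (h x).natAbs, Fintype.mem_piFinset.2 fun x => ?_⟩
      have h3 : (h x).natAbs ≤ ∑ x, (h x).natAbs :=
        Finset.single_le_sum (f := fun x => (h x).natAbs) (fun _ _ => Nat.zero_le _)
          (Finset.mem_univ x)
      rw [Finset.mem_Icc]
      constructor <;> omega
  simp_rw [h1]
  exact hf.hasSum.comp h2

end lim

section tor

variable (N : ℕ) [NeZero N]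

/-- weight of a column -/
noncomputable def colv (b t c : ℝ) (a : ZMod N → ℤ) : ℝ :=
  (∏ y, wI b (a (y + 1) - a y)) * Real.exp (-(t / 2 * ∑ y, (a y : ℝ) ^ 2) + c * ∑ y, (a y : ℝ))

variable {N}

lemma colv_nonneg {b : ℝ} (hb : 0 ≤ b) (t c : ℝ) (a : ZMod N → ℤ) : 0 ≤ colv N b t c a :=
  mul_nonneg (Finset.prod_nonneg fun _ _ => H353.wI_nonneg hb _) (Real.exp_pos _).le

/-- the weight of the torus in columns -/
lemma weight_split (b t c : ℝ) (h : V N → ℤ) :
    wt N b t h * Real.exp (li (fun _ => c) h) =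
      (∏ i : ZMod N, colv N b t c fun y => h (i, y)) *
        ∏ i : ZMod N, ∏ y : ZMod N, wI b (h (i + 1, y) - h (i, y)) := by
  unfold wt wM wT colv
  rw [qf_smul_one, Finset.prod_mul_distrib, Finset.prod_mul_distrib, ← Real.exp_sum]
  have e1 : ∏ x : V N, wI b (h (x + (1, 0)) - h x) =
      ∏ i : ZMod N, ∏ y : ZMod N, wI b (h (i + 1, y) - h (i, y)) := by
    rw [Fintype.prod_prod_type]
    refine Finset.prod_congr rfl fun i _ => Finset.prod_congr rfl fun y _ => ?_
    simp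
  have e2 : ∏ x : V N, wI b (h (x + (0, 1)) - h x) =
      ∏ i : ZMod N, ∏ y : ZMod N, wI b (h (i, y + 1) - h (i, y)) := by
    rw [Fintype.prod_prod_type]
    refine Finset.prod_congr rfl fun i _ => Finset.prod_congr rfl fun y _ => ?_
    simp
  have e3 : Real.exp (-(t * ∑ x : V N, re h x ^ 2 / 2)) * Real.exp (li (fun _ => c) h) =
      Real.exp (∑ i : ZMod N, (-(t / 2 * ∑ y, (h (i, y) : ℝ) ^ 2) + c * ∑ y, (h (i, y) : ℝ))) := by
    rw [← Real.exp_add]
    congr 1
    unfold li re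
    rw [Finset.sum_add_distrib, Fintype.sum_prod_type, Fintype.sum_prod_type]
    simp only [Finset.mul_sum, Finset.sum_neg_distrib]
    congr 2
    refine Finset.sum_congr rfl fun i _ => Finset.sum_congr rfl fun y _ => ?_
    ring
  have e4 : Real.exp (-(t * ∑ x : V N, re h x ^ 2) / 2) =
      Real.exp (-(t * ∑ x : V N, re h x ^ 2 / 2)) := by
    congr 1
    rw [← Finset.sum_div]
    ring
  have e5 : Real.exp (-(t * ∑ x : V N, re h x ^ 2 / 2)) =
      Real.exp (-((t * ∑ x : V N, re h x ^ 2) / 2)) := by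
    rw [← e4, neg_div]
  rw [e1, e2, ← e5, mul_assoc, e3]
  ring

/-- the columns of height at most `L` -/
def gB (L : ℕ) (s : ZMod N → Bx L) (y : ZMod N) : ℤ := (s y : ℤ)

/-- the truncated Fourier sum -/
lemma FT_box {κ : Type*} [Fintype κ] {b : ℝ} (hb : 0 ≤ b) (t c : ℝ) (L : ℕ)
    (F : κ → (ZMod N → ℤ) → ℝ) (φ : ℝ) :
    FT N (TM' b (gB (N := N) L) (colv N b t c)) (fun k s => F k (gB L s)) φ =
      ∑ m : ZMod N, Real.cos (φ * m.val) * ∑ h : V N → Bx L,
        (fun h : V N → ℤ => (∑ i, F i (fun y => h (0, y)) * F i (fun y => h (m, y))) *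
          (wt N b t h * Real.exp (li (fun _ => c) h))) fun x => (h x : ℤ) := by
  rw [FT_eq]
  refine Finset.sum_congr rfl fun m _ => ?_
  congr 1
  rw [← Equiv.sum_comp (Equiv.curry (ZMod N) (ZMod N) (Bx L))]
  refine Finset.sum_congr rfl fun h _ => ?_
  rw [prod_TM' N b _ _ (fun a => colv_nonneg hb t c a)]
  simp only
  rw [weight_split]
  rfl

/-- the limit of the Fourier sums -/
lemma FT_lim {κ : Type*} [Fintype κ] {b t : ℝ} (hb : 0 ≤ b) (hμ : EM (wt N b t)) (c : ℝ)
    (F : κ → (ZMod N → ℤ) → ℝ)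
    (hF : ∀ i (m : ZMod N), Gr fun h : V N → ℤ => F i fun y => h (m, y)) (φ : ℝ) :
    Tendsto (fun L : ℕ => FT N (TM' b (gB (N := N) L) (colv N b t c)) (fun k s => F k (gB L s)) φ)
      atTop (𝓝 (∑ m : ZMod N, Real.cos (φ * m.val) * TM.H104.T (wt N b t) (fun _ => c)
        fun h : V N → ℤ => ∑ i, F i (fun y => h (0, y)) * F i (fun y => h (m, y)))) := by
  simp_rw [FT_box hb]
  refine tendsto_finset_sum _ fun m _ => Tendsto.const_mul _ ?_
  have hG : Gr fun h : V N → ℤ => ∑ i, F i (fun y => h (0, y)) * F i (fun y => h (m, y)) := by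
    have h1 : ∀ i, Gr fun h : V N → ℤ => F i (fun y => h (0, y)) * F i (fun y => h (m, y)) :=
      fun i => (hF i 0).mul (hF i m)
    choose C hC using h1
    refine ⟨∑ i, |C i|, fun h => ?_⟩
    refine (Finset.abs_sum_le_sum_abs _ _).trans ?_
    rw [Finset.sum_mul]
    refine Finset.sum_le_sum fun i _ => (hC i h).trans ?_
    refine mul_le_mul (le_abs_self _) (Real.exp_le_exp.2 ?_) (Real.exp_pos _).le (abs_nonneg _)
    refine mul_le_mul_of_nonneg_right ?_ (TM.H104.nh_nonneg h)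
    exact (le_abs_self _).trans (Finset.single_le_sum (f := fun i => |C i|)
      (fun _ _ => abs_nonneg _) (Finset.mem_univ i))
  have h2 := hμ.summ hG fun _ => c
  have h3 := box_lim h2
  have e : TM.H104.T (wt N b t) (fun _ => c)
      (fun h : V N → ℤ => ∑ i, F i (fun y => h (0, y)) * F i (fun y => h (m, y))) =
      ∑' h : V N → ℤ, (∑ i, F i (fun y => h (0, y)) * F i (fun y => h (m, y))) * wt N b t h *
        Real.exp (li (fun _ => c) h) := rfl
  rw [e]
  refine h3.congr fun L => ?_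
  refine Finset.sum_congr rfl fun h _ => ?_
  simp only
  ring

end tor

/-! ### symmetries -/

section symm

variable {W : Type*} [Fintype W]

/-- a permutation of the sites -/
lemma T_perm {μ : (W → ℤ) → ℝ} (σ : W ≃ W) (hμ : ∀ h, μ (fun x => h (σ x)) = μ h) (J : W → ℝ)
    (F : (W → ℤ) → ℝ) :
    TM.H104.T μ (fun x => J (σ x)) (fun h => F fun x => h (σ.symm x)) = TM.H104.T μ J F := by
  unfold TM.H104.T
  rw [← (Equiv.arrowCongr σ (Equiv.refl ℤ)).symm.tsum_eq]
  refine tsum_congr fun h => ?_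
  have e1 : (Equiv.arrowCongr σ (Equiv.refl ℤ)).symm h = fun x => h (σ x) := by
    funext x
    simp [Equiv.arrowCongr]
  rw [e1]
  have e2 : (fun x => h (σ (σ.symm x))) = h := by
    funext x
    simp
  have e3 : li (fun x => J (σ x)) (fun x => h (σ x)) = li J h := by
    unfold li
    exact Equiv.sum_comp σ fun x => J x * (h x : ℝ)
  show F (fun x => h (σ (σ.symm x))) * μ (fun x => h (σ x)) *
    Real.exp (li (fun x => J (σ x)) fun x => h (σ x)) = _
  rw [e2, hμ h, e3]

lemma Ex_perm {μ : (W → ℤ) → ℝ} (σ : W ≃ W) (hμ : ∀ h, μ (fun x => h (σ x)) = μ h) (J : W → ℝ)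
    (F : (W → ℤ) → ℝ) :
    Ex μ (fun x => J (σ x)) (fun h => F fun x => h (σ.symm x)) = Ex μ J F := by
  unfold Ex
  rw [T_perm σ hμ J F]
  have := T_perm σ hμ J fun _ => 1
  rw [this]

lemma Cm_perm {μ : (W → ℤ) → ℝ} (σ : W ≃ W) (hμ : ∀ h, μ (fun x => h (σ x)) = μ h) (J : W → ℝ)
    (x y : W) : Cm μ (fun x => J (σ x)) (σ.symm x) (σ.symm y) = Cm μ J x y := by
  unfold Cm
  simp only [of_apply]
  unfold Cv
  rw [← Ex_perm σ hμ J fun h => (h x : ℝ) * h y, ← Ex_perm σ hμ J fun h => (h x : ℝ),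
    ← Ex_perm σ hμ J fun h => (h y : ℝ)]

variable {N : ℕ} [NeZero N]

lemma wt_shift (b t : ℝ) (a : V N) (h : V N → ℤ) :
    wt N b t (fun x => h (Equiv.addRight a x)) = wt N b t h := by
  unfold wt wM wT
  rw [qf_smul_one, qf_smul_one]
  congr 1
  · rw [← Equiv.prod_comp (Equiv.addRight a) fun x : V N => wI b (h (x + (1, 0)) - h x) *
      wI b (h (x + (0, 1)) - h x)]
    refine Finset.prod_congr rfl fun x _ => ?_
    simp only [Equiv.coe_addRight]
    congr 4 <;> abel_nf
  · rw [← Equiv.sum_comp (Equiv.addRight a) fun x : V N => re h x ^ 2]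
    rfl

lemma wt_refl (b t : ℝ) (h : V N → ℤ) :
    wt N b t (fun x => h (TM.H764.refl1 x)) = wt N b t h := by
  unfold wt wM wT
  rw [qf_smul_one, qf_smul_one]
  congr 1
  · rw [Finset.prod_mul_distrib, Finset.prod_mul_distrib]
    congr 1
    · have e : ∏ x : V N, wI b (h (TM.H764.refl1 (x + (1, 0))) - h (TM.H764.refl1 x)) =
          ∏ x : V N, wI b (h x - h (x + (1, 0))) := by
        rw [← Equiv.prod_comp (TM.H764.refl1.trans (Equiv.addRight (-(1, 0) : V N)))
          fun x : V N => wI b (h x - h (x + (1, 0)))]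
        refine Finset.prod_congr rfl fun x _ => ?_
        simp only [TM.H764.refl1_apply, Equiv.trans_apply, Equiv.coe_addRight]
        congr 3
        · ext <;> simp
          ring
        · ext <;> simp
      rw [e]
      refine Finset.prod_congr rfl fun x _ => ?_
      rw [← H353.wI_neg, neg_sub]
    · rw [← Equiv.prod_comp TM.H764.refl1 fun x : V N => wI b (h (x + (0, 1)) - h x)]
      refine Finset.prod_congr rfl fun x _ => ?_
      simp only [TM.H764.refl1_apply]
      congr 3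
      ext <;> simp
  · rw [← Equiv.sum_comp TM.H764.refl1 fun x : V N => re h x ^ 2]
    rfl

/-- the covariance kernel with the constant source `c` -/
noncomputable def Gc (N : ℕ) [NeZero N] (b t c : ℝ) (z : V N) : ℝ :=
  Cm (wt N b t) (fun _ => c) 0 z

lemma Cm_shift (b t c : ℝ) (x y : V N) :
    Cm (wt N b t) (fun _ => c) x y = Gc N b t c (y - x) := by
  have h := Cm_perm (Equiv.addRight x) (wt_shift b t x) (fun _ => c) x y
  rw [← h]
  unfold Gc
  congr 1
  · simp
  · simp [sub_eq_add_neg]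

lemma Gc_refl (b t c : ℝ) (w : V N) : Gc N b t c (-w.1, w.2) = Gc N b t c w := by
  have h := Cm_perm TM.H764.refl1 (wt_refl b t) (fun _ => c) 0 w
  unfold Gc
  rw [← h]
  congr 1
  have : (TM.H764.refl1 (N := N)).symm 0 = 0 := by
    rw [Equiv.symm_apply_eq]
    ext <;> simp
  rw [this]

lemma mn_const (b t c : ℝ) (x : V N) : mn (wt N b t) (fun _ => c) x = mn (wt N b t) (fun _ => c) 0 := by
  have h := Ex_perm (Equiv.addRight x) (wt_shift b t x) (fun _ => c) fun h : V N → ℤ => (h x : ℝ)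
  unfold mn
  rw [← h]
  congr 1
  funext h
  simp only [Equiv.addRight_symm, Equiv.coe_addRight]
  rw [add_neg_cancel]

end symm

section main

variable {N : ℕ} [NeZero N]

/-- the two observables of a column -/
noncomputable def obs (c0 : ℝ) (q : ZMod N) (i : Bool) (a : ZMod N → ℤ) : ℝ :=
  ∑ y, ((a y : ℝ) - c0) * (if i then cN (q * y) else sN (q * y))

lemma obs_sum (c0 : ℝ) (q : ZMod N) (a a' : ZMod N → ℤ) :
    ∑ i : Bool, obs c0 q i a * obs c0 q i a' =
      ∑ y, ∑ y', (((a y : ℝ) - c0) * ((a' y' : ℝ) - c0)) * cN (q * (y' - y)) := by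
  unfold obs
  simp only [Fintype.sum_bool, if_true, Bool.false_eq_true, if_false]
  rw [Finset.sum_mul_sum, Finset.sum_mul_sum, ← Finset.sum_add_distrib]
  refine Finset.sum_congr rfl fun y _ => ?_
  rw [← Finset.sum_add_distrib]
  refine Finset.sum_congr rfl fun y' _ => ?_
  have : q * (y' - y) = q * y' - q * y := by ring
  rw [this, TM.H764.cN_sub]
  ring

lemma Gr_sum {W ι : Type*} [Fintype W] (s : Finset ι) (F : ι → (W → ℤ) → ℝ) (hF : ∀ i, Gr (F i)) :
    Gr fun h => ∑ i ∈ s, F i h := by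
  classical
  induction s using Finset.induction_on with
  | empty => simpa using Gr.const 0
  | insert i s hi ih =>
    obtain ⟨C, hC⟩ := (hF i).add ih
    refine ⟨C, fun k => ?_⟩
    have e : ∑ j ∈ insert i s, F j k = F i k + ∑ j ∈ s, F j k := Finset.sum_insert hi
    show |∑ j ∈ insert i s, F j k| ≤ _
    rw [e]
    exact hC k

lemma Gr_site {W : Type*} [Fintype W] [DecidableEq W] (x : W) : Gr fun h : W → ℤ => (h x : ℝ) := by
  have h := Gr.li (Pi.single x (1 : ℝ))
  have e : li (Pi.single x (1 : ℝ)) = fun h : W → ℤ => (h x : ℝ) := by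
    funext h
    unfold li
    simp [Pi.single_apply]
  rwa [e] at h

lemma Gr_obs (c0 : ℝ) (q : ZMod N) (i : Bool) (m : ZMod N) :
    Gr fun h : V N → ℤ => obs c0 q i fun y => h (m, y) := by
  unfold obs
  refine Gr_sum _ _ fun y => ?_
  exact ((Gr_site (m, y)).sub (Gr.const c0)).mul (Gr.const _)

lemma T_sum {W ι : Type*} [Fintype W] {μ : (W → ℤ) → ℝ} (hμ : EM μ) (s : Finset ι)
    (F : ι → (W → ℤ) → ℝ) (hF : ∀ i, Gr (F i)) (J : W → ℝ) :
    TM.H104.T μ J (fun h => ∑ i ∈ s, F i h) = ∑ i ∈ s, TM.H104.T μ J (F i) := by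
  classical
  induction s using Finset.induction_on with
  | empty =>
    simp [TM.H104.T]
  | insert i s hi ih =>
    rw [Finset.sum_insert hi, ← ih, ← TM.H104.T_add hμ (hF i) (Gr_sum s F hF)]
    congr 1
    funext h
    rw [Finset.sum_insert hi]

/-- centred second moments -/
lemma T_centred {W : Type*} [Fintype W] [DecidableEq W] {μ : (W → ℤ) → ℝ} (hμ : EM μ) (J : W → ℝ)
    (x y : W) {c0 : ℝ} (hx : mn μ J x = c0) (hy : mn μ J y = c0) :
    TM.H104.T μ J (fun h => ((h x : ℝ) - c0) * ((h y : ℝ) - c0)) = Zs μ J * Cm μ J x y := by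
  have hZ : TM.H104.T μ J (fun _ => 1) ≠ 0 := (TM.H104.T_one_pos hμ J).ne'
  have e1 : TM.H104.T μ J (fun h => ((h x : ℝ) - c0) * ((h y : ℝ) - c0)) =
      Zs μ J * Ex μ J (fun h => ((h x : ℝ) - c0) * ((h y : ℝ) - c0)) := by
    unfold Ex Zs
    rw [mul_div_cancel₀ _ hZ]
  rw [e1]
  congr 1
  have gx := Gr_site (W := W) x
  have gy := Gr_site (W := W) y
  have e2 : (fun h : W → ℤ => ((h x : ℝ) - c0) * ((h y : ℝ) - c0)) =
      fun h => ((h x : ℝ) * h y - c0 * h x) - (c0 * h y - c0 * c0) := by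
    funext h
    ring
  rw [e2, TM.H104.Ex_sub hμ ((gx.mul gy).sub (gx.cmul c0)) ((gy.cmul c0).sub (Gr.const _)),
    TM.H104.Ex_sub hμ (gx.mul gy) (gx.cmul c0), TM.H104.Ex_sub hμ (gy.cmul c0) (Gr.const _),
    TM.H104.Ex_cmul, TM.H104.Ex_cmul, TM.H104.Ex_const hμ]
  unfold Cm
  simp only [of_apply]
  unfold Cv
  have h1 : Ex μ J (fun h => (h x : ℝ)) = c0 := hx
  have h2 : Ex μ J (fun h => (h y : ℝ)) = c0 := hy
  rw [h1, h2]
  ring

/-- **the Fourier sum of the chain is the Fourier transform of the covariance** -/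
lemma FT_Gh {b t : ℝ} (hμ : EM (wt N b t)) (c : ℝ) (k q : ZMod N) :
    (∑ m : ZMod N, Real.cos (2 * Real.pi * k.val / N * m.val) *
      TM.H104.T (wt N b t) (fun _ => c) fun h : V N → ℤ =>
        ∑ i, obs (mn (wt N b t) (fun _ => c) 0) q i (fun y => h (0, y)) *
          obs (mn (wt N b t) (fun _ => c) 0) q i (fun y => h (m, y))) =
      Zs (wt N b t) (fun _ => c) * N * Gh (Gc N b t c) (k, q) := by
  set c0 := mn (wt N b t) (fun _ => c) 0 with hc0
  have hcos : ∀ m : ZMod N, Real.cos (2 * Real.pi * k.val / N * m.val) = cN (k * m) := by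
    intro m
    have h1 : (k * m : ZMod N) = (((k.val * m.val : ℕ) : ℤ) : ZMod N) := by
      push_cast
      simp
    rw [h1, TM.H764.cN_int]
    congr 1
    push_cast
    ring
  have hT : ∀ m : ZMod N, (TM.H104.T (wt N b t) (fun _ => c) fun h : V N → ℤ =>
        ∑ i, obs c0 q i (fun y => h (0, y)) * obs c0 q i (fun y => h (m, y))) =
      Zs (wt N b t) (fun _ => c) * (N * ∑ z : ZMod N, Gc N b t c (m, z) * cN (q * z)) := by
    intro m
    have e1 : (fun h : V N → ℤ => ∑ i, obs c0 q i (fun y => h (0, y)) *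
        obs c0 q i (fun y => h (m, y))) = fun h : V N → ℤ => ∑ y : ZMod N, ∑ y' : ZMod N,
          cN (q * (y' - y)) * (((h (0, y) : ℝ) - c0) * ((h (m, y') : ℝ) - c0)) := by
      funext h
      rw [obs_sum]
      refine Finset.sum_congr rfl fun y _ => Finset.sum_congr rfl fun y' _ => ?_
      ring
    have g : ∀ y y' : ZMod N, Gr fun h : V N → ℤ =>
        ((h (0, y) : ℝ) - c0) * ((h (m, y') : ℝ) - c0) := fun y y' =>
      ((Gr_site _).sub (Gr.const _)).mul ((Gr_site _).sub (Gr.const _))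
    rw [e1, T_sum hμ _ _ fun y => Gr_sum _ _ fun y' => (g y y').cmul _]
    have e2 : ∀ y : ZMod N, TM.H104.T (wt N b t) (fun _ => c) (fun h : V N → ℤ =>
        ∑ y' : ZMod N, cN (q * (y' - y)) * (((h (0, y) : ℝ) - c0) * ((h (m, y') : ℝ) - c0))) =
        Zs (wt N b t) (fun _ => c) * ∑ z : ZMod N, Gc N b t c (m, z) * cN (q * z) := by
      intro y
      rw [T_sum hμ _ _ fun y' => (g y y').cmul _, Finset.mul_sum,
        ← Equiv.sum_comp (Equiv.addRight y)]
      refine Finset.sum_congr rfl fun z _ => ?_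
      rw [TM.H104.T_cmul, T_centred hμ _ _ _ (mn_const b t c _) (mn_const b t c _), Cm_shift]
      have e3 : ((m, Equiv.addRight y z) : V N) - (0, y) = (m, z) := by
        ext <;> simp
      have e4 : Equiv.addRight y z - y = z := by simp
      rw [e3, e4]
      ring
    rw [Finset.sum_congr rfl fun y _ => e2 y, Finset.sum_const, Finset.card_univ, ZMod.card,
      nsmul_eq_mul]
    ring
  simp_rw [hT, hcos]
  rw [TM.H764.Gh_prod _ (Gc_refl b t c), Fintype.sum_prod_type, Finset.mul_sum]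
  refine Finset.sum_congr rfl fun m _ => ?_
  rw [Finset.mul_sum, Finset.mul_sum, Finset.mul_sum, Finset.mul_sum]
  refine Finset.sum_congr rfl fun z _ => ?_
  ring

/-- **RP on the torus**: the inverse of the Fourier transform of the covariance, in every constant
background, is concave in `2 - 2 cos k₁` at fixed `k₂` -/
theorem rp {b t : ℝ} (hb : 0 ≤ b) (hμ : EM (wt N b t)) (c : ℝ)
    (hG : ∀ k, 0 < Gh (Gc N b t c) k) {k₁ k₂ k₃ : ZMod N} (h12 : cN k₂ < cN k₁)
    (h23 : cN k₃ < cN k₂) (q : ZMod N) :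
    (cN k₂ - cN k₃) / Gh (Gc N b t c) (k₁, q) + (cN k₁ - cN k₂) / Gh (Gc N b t c) (k₃, q) ≤
      (cN k₁ - cN k₃) / Gh (Gc N b t c) (k₂, q) := by
  set A : ℝ := Zs (wt N b t) (fun _ => c) * N with hA
  have hN : (0 : ℝ) < N := by exact_mod_cast NeZero.pos N
  have hA0 : 0 < A := mul_pos (TM.H104.T_one_pos hμ _) hN
  set Φ : ZMod N → ℕ → ℝ := fun k L => FT N (TM' b (gB (N := N) L) (colv N b t c))
    (fun i s => obs (mn (wt N b t) (fun _ => c) 0) q i (gB L s)) (2 * Real.pi * k.val / N) with hΦ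
  have hlim : ∀ k : ZMod N, Tendsto (Φ k) atTop (𝓝 (A * Gh (Gc N b t c) (k, q))) := by
    intro k
    have h := FT_lim hb hμ c (fun i => obs (mn (wt N b t) (fun _ => c) 0) q i)
      (fun i m => Gr_obs _ q i m) (2 * Real.pi * k.val / N)
    rw [FT_Gh hμ c k q] at h
    exact h
  have hw : ∀ k : ZMod N, 2 - 2 * Real.cos (2 * Real.pi * k.val / N) = 2 - 2 * cN k := fun k => rfl
  have hφ : ∀ k : ZMod N, ∃ j : ℤ, 2 * Real.pi * k.val / N * N = 2 * Real.pi * j := by
    intro k
    refine ⟨k.val, ?_⟩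
    rw [div_mul_cancel₀ _ hN.ne']
    push_cast
    rfl
  have hpos : ∀ k : ZMod N, 0 < A * Gh (Gc N b t c) (k, q) := fun k => mul_pos hA0 (hG _)
  have hev : ∀ᶠ L in atTop, ((2 - 2 * cN k₃) - (2 - 2 * cN k₂)) / Φ k₁ L +
      ((2 - 2 * cN k₂) - (2 - 2 * cN k₁)) / Φ k₃ L ≤
        ((2 - 2 * cN k₃) - (2 - 2 * cN k₁)) / Φ k₂ L := by
    filter_upwards [(hlim k₂).eventually (lt_mem_nhds (hpos k₂))] with L hL
    exact FT_concave (NeZero.ne N) (TM'_psd hb _ _) _ (hφ k₁) (hφ k₂) (hφ k₃)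
      (by rw [hw, hw]; linarith) (by rw [hw, hw]; linarith) hL
  have hle := le_of_tendsto_of_tendsto
    ((tendsto_const_nhds.div (hlim k₁) (hpos k₁).ne').add
      (tendsto_const_nhds.div (hlim k₃) (hpos k₃).ne'))
    (tendsto_const_nhds.div (hlim k₂) (hpos k₂).ne') hev
  have g1 := hG (k₁, q)
  have g2 := hG (k₂, q)
  have g3 := hG (k₃, q)
  have e : ∀ x g : ℝ, 0 < g → 2 * x / (A * g) = 2 / A * (x / g) := by
    intro x g hg
    field_simp
  have e1 : ((2 - 2 * cN k₃) - (2 - 2 * cN k₂)) = 2 * (cN k₂ - cN k₃) := by ring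
  have e2 : ((2 - 2 * cN k₂) - (2 - 2 * cN k₁)) = 2 * (cN k₁ - cN k₂) := by ring
  have e3 : ((2 - 2 * cN k₃) - (2 - 2 * cN k₁)) = 2 * (cN k₁ - cN k₃) := by ring
  rw [e1, e2, e3, e _ _ g1, e _ _ g2, e _ _ g3, ← mul_add] at hle
  exact le_of_mul_le_mul_left hle (by positivity)

end main

end Vale.Agent.P159.H37.RP
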