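import Vale.Agent.P159.H37.RPd
import Vale.Agent.P159.H789.Tor

/-!
P159 / RP: positivity of the Fourier transform of the covariance in every constant background, the
final form of the concavity and its corollaries.
-/

namespace Vale.Agent.P159.H37.RP

open Finset Matrix Filter Topology
open Vale.Agent.P159.H353 (wI)
open Vale.Agent.P159.TM.SpecC (wT)
open Vale.Agent.P159.TM.H104 (EM Ex Cv K3 Lg li nh Gr)
open Vale.Agent.P159.TM.H764 (cN sN Gh frm dt EE)
open Vale.Agent.P159.TM.Spec (V)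

section var

variable {W : Type*} [Fintype W]

/-- variances are positive as soon as the observable is not constant on the support -/
lemma var_pos {μ : (W → ℤ) → ℝ} (hμ : EM μ) (J u : W → ℝ) {h₁ h₂ : W → ℤ} (p₁ : 0 < μ h₁)
    (p₂ : 0 < μ h₂) (hne : li u h₁ ≠ li u h₂) : 0 < Cv μ J (li u) (li u) := by
  set m := Ex μ J (li u) with hm
  have hZ := TM.H104.T_one_pos hμ J
  have g : Gr (li u : (W → ℤ) → ℝ) := Gr.li u
  have g2 : Gr fun h : W → ℤ => (li u h - m) * (li u h - m) :=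
    (g.sub (Gr.const m)).mul (g.sub (Gr.const m))
  have e : Cv μ J (li u) (li u) = Ex μ J fun h => (li u h - m) * (li u h - m) := by
    have e2 : (fun h : W → ℤ => (li u h - m) * (li u h - m)) =
        fun h => (li u h * li u h - m * li u h) - (m * li u h - m * m) := by
      funext h
      ring
    rw [e2, TM.H104.Ex_sub hμ ((g.mul g).sub (g.cmul m)) ((g.cmul m).sub (Gr.const _)),
      TM.H104.Ex_sub hμ (g.mul g) (g.cmul m), TM.H104.Ex_sub hμ (g.cmul m) (Gr.const _),
      TM.H104.Ex_cmul, TM.H104.Ex_const hμ, ← hm]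
    unfold Cv
    rw [← hm]
    ring
  rw [e]
  refine div_pos ?_ hZ
  have hs := hμ.summ g2 J
  have h0 : ∀ h, 0 ≤ (li u h - m) * (li u h - m) * μ h * Real.exp (li J h) := fun h =>
    mul_nonneg (mul_nonneg (mul_self_nonneg _) (hμ.nn h)) (Real.exp_pos _).le
  by_cases hc : li u h₁ = m
  · have hc2 : li u h₂ ≠ m := fun h => hne (hc.trans h.symm)
    refine lt_of_lt_of_le ?_ (hs.le_tsum h₂ fun h _ => h0 h)
    exact mul_pos (mul_pos (mul_self_pos.2 (sub_ne_zero.2 hc2)) p₂) (Real.exp_pos _)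
  · refine lt_of_lt_of_le ?_ (hs.le_tsum h₁ fun h _ => h0 h)
    exact mul_pos (mul_pos (mul_self_pos.2 (sub_ne_zero.2 hc)) p₁) (Real.exp_pos _)

lemma var_nonneg {μ : (W → ℤ) → ℝ} (hμ : EM μ) (J u : W → ℝ) : 0 ≤ Cv μ J (li u) (li u) := by
  set m := Ex μ J (li u) with hm
  have hZ := TM.H104.T_one_pos hμ J
  have g : Gr (li u : (W → ℤ) → ℝ) := Gr.li u
  have e : Cv μ J (li u) (li u) = Ex μ J fun h => (li u h - m) * (li u h - m) := by
    have e2 : (fun h : W → ℤ => (li u h - m) * (li u h - m)) =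
        fun h => (li u h * li u h - m * li u h) - (m * li u h - m * m) := by
      funext h
      ring
    rw [e2, TM.H104.Ex_sub hμ ((g.mul g).sub (g.cmul m)) ((g.cmul m).sub (Gr.const _)),
      TM.H104.Ex_sub hμ (g.mul g) (g.cmul m), TM.H104.Ex_sub hμ (g.cmul m) (Gr.const _),
      TM.H104.Ex_cmul, TM.H104.Ex_const hμ, ← hm]
    unfold Cv
    rw [← hm]
    ring
  rw [e]
  exact TM.H104.Ex_nonneg hμ (fun h => mul_self_nonneg _) J

/-- the quadratic form of the covariance matrix is the variance -/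
lemma qf_Cm_eq [DecidableEq W] {μ : (W → ℤ) → ℝ} (hμ : EM μ) (J u : W → ℝ) :
    qf (Cm μ J) u = Cv μ J (li u) (li u) := by
  have hT : ∀ F : (W → ℤ) → ℝ, Ex μ J F = TM.H104.T μ J F / Zs μ J := fun F => rfl
  have e1 : Ex μ J (fun h => li u h * li u h) =
      ∑ x, ∑ y, u x * Ex μ J (fun h => (h x : ℝ) * h y) * u y := by
    rw [hT]
    have e2 : (fun h : W → ℤ => li u h * li u h) = fun h => ∑ x, ∑ y,
        (u x * u y) * ((h x : ℝ) * h y) := by
      funext h
      unfold li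
      rw [Finset.sum_mul_sum]
      refine Finset.sum_congr rfl fun x _ => Finset.sum_congr rfl fun y _ => ?_
      ring
    rw [e2, T_sum hμ _ _ fun x => Gr_sum _ _ fun y =>
      ((Gr_site x).mul (Gr_site y)).cmul _, Finset.sum_div]
    refine Finset.sum_congr rfl fun x _ => ?_
    rw [T_sum hμ _ _ fun y => ((Gr_site x).mul (Gr_site y)).cmul _, Finset.sum_div]
    refine Finset.sum_congr rfl fun y _ => ?_
    rw [TM.H104.T_cmul, hT]
    ring
  have e3 : Ex μ J (li u) = ∑ x, u x * Ex μ J (fun h => (h x : ℝ)) := by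
    rw [hT]
    have e4 : (li u : (W → ℤ) → ℝ) = fun h => ∑ x, u x * (h x : ℝ) := rfl
    rw [e4, T_sum hμ _ _ fun x => (Gr_site x).cmul _, Finset.sum_div]
    refine Finset.sum_congr rfl fun x _ => ?_
    rw [TM.H104.T_cmul, hT]
    ring
  unfold Cv
  rw [e1, e3, Finset.sum_mul_sum, ← Finset.sum_sub_distrib]
  unfold qf
  refine Finset.sum_congr rfl fun x _ => ?_
  rw [← Finset.sum_sub_distrib]
  refine Finset.sum_congr rfl fun y _ => ?_
  unfold Cm
  simp only [of_apply]
  unfold Cv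
  ring

end var

section tor

variable {N : ℕ} [NeZero N]

lemma wI_pos' {b : ℝ} (hb : 0 < b) (n : ℤ) : 0 < wI b n := by
  rw [H353.wI_eq]
  refine mul_pos (Real.exp_pos _) ?_
  have h := (H353.summable_aw_col hb.le n).le_tsum n.natAbs fun k _ => H353.aw_nonneg hb.le k n
  refine lt_of_lt_of_le ?_ h
  unfold H353.aw H353.cb
  rw [← two_mul, Nat.choose_self]
  positivity

lemma wt_pos {b : ℝ} (hb : 0 < b) (t : ℝ) (h : V N → ℤ) : 0 < wt N b t h := by
  unfold wt wM wT
  exact mul_pos (Finset.prod_pos fun x _ => mul_pos (wI_pos' hb _) (wI_pos' hb _))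
    (Real.exp_pos _)

/-- the form of the kernel is the variance -/
lemma frm_Gc {b t : ℝ} (hμ : EM (wt N b t)) (c : ℝ) (u : V N → ℝ) :
    frm (Gc N b t c) u = Cv (wt N b t) (fun _ => c) (li u) (li u) := by
  rw [← qf_Cm_eq hμ]
  unfold frm qf
  refine Finset.sum_congr rfl fun x _ => Finset.sum_congr rfl fun z _ => ?_
  rw [Cm_shift]
  ring

/-- the Fourier transform of the covariance is positive -/
theorem Gh_pos {b t : ℝ} (hb : 0 < b) (ht : 0 < t) (c : ℝ) (k : V N) :
    0 < Gh (Gc N b t c) k := by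
  classical
  have hμ : EM (wt N b t) := H789.em_wt hb.le ht
  have h := TM.H764.frm_wave (Gc N b t c) k
  have h1 : 0 < frm (Gc N b t c) fun x => cN (dt k x) := by
    rw [frm_Gc hμ]
    refine var_pos hμ _ _ (h₁ := 0) (h₂ := Pi.single 0 1) (wt_pos hb t _) (wt_pos hb t _) ?_
    rw [TM.H104.li, TM.H104.li]
    simp [Pi.single_apply, dt, TM.H764.cN_zero]
  have h2 : 0 ≤ frm (Gc N b t c) fun x => sN (dt k x) := by
    rw [frm_Gc hμ]
    exact var_nonneg hμ _ _
  have hN : (0 : ℝ) < (N : ℝ) ^ 2 := by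
    have : (0 : ℝ) < N := by exact_mod_cast NeZero.pos N
    positivity
  have h3 : 0 < (N : ℝ) ^ 2 * Gh (Gc N b t c) k := by rw [← h]; linarith
  exact (pos_iff_pos_of_mul_pos h3).1 hN

/-- **RP, final form** -/
theorem rp_final {b t : ℝ} (hb : 0 < b) (ht : 0 < t) (c : ℝ) {k₁ k₂ k₃ : ZMod N}
    (h12 : cN k₂ < cN k₁) (h23 : cN k₃ < cN k₂) (q : ZMod N) :
    (cN k₂ - cN k₃) / Gh (Gc N b t c) (k₁, q) + (cN k₁ - cN k₂) / Gh (Gc N b t c) (k₃, q) ≤
      (cN k₁ - cN k₃) / Gh (Gc N b t c) (k₂, q) :=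
  rp hb.le (H789.em_wt hb.le ht) c (fun k => Gh_pos hb ht c k) h12 h23 q

end tor

end Vale.Agent.P159.H37.RP
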