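import Vale.Agent.P159.H864.Fou2
import Vale.Agent.P159.TM.Spec.AB

/-!
P159 (helper37), module RNGX, part a: the one scale hypothesis from an upper profile of the
inverse covariance.

* `hyp_of_low`: `Ĝ(k)/ξ² ≥ 1/(1 + z + a ξ² E(k)) - ε` for `ξ² E(k) ≤ U` gives `Hyp 7 W`.
* `hyp_of_Pik`: `Π_τ(k) ≤ z/ξ² + a E(k)` at one mass `τ ≥ ξ⁻²` gives `Hyp 7 W` at `ξ`.
-/

set_option linter.unusedSectionVars false

namespace Vale.Agent.P159.H37

open Vale.Agent.P159.TM.Spec (V GT)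
open Vale.Agent.P159.TM.H764 (EE Gh pw Hyp H2 QK QU EE_le EE_nonneg)

variable {N : ℕ} [NeZero N] {b : ℝ}

/-- the one scale hypothesis from a lower bound of the transform at small momenta -/
theorem hyp_of_low {ξ W z a U ε : ℝ} (hξ : 0 < ξ) {G : ZMod N × ZMod N → ℝ}
    (hG : ∀ k, 0 ≤ Gh G k) (hU : 2 * W ^ 2 ≤ U) (ha0 : 0 ≤ a) (ha : a ≤ 5 / 2) (haU : 1 ≤ a * U)
    (hz0 : 0 ≤ z) (hz : z ≤ 1 / 2) (he0 : 0 ≤ ε) (he : 4 * (1 + 2 * W ^ 2) * ε ≤ 1)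
    (h : ∀ k, EE k * ξ ^ 2 ≤ U → 1 / (1 + z + a * (EE k * ξ ^ 2)) - ε ≤ Gh G k / ξ ^ 2) :
    Hyp 7 W ξ G (z + ε) a := by
  have hx2 : 0 < ξ ^ 2 := by positivity
  have key : ∀ k : ZMod N × ZMod N, 1 - (z + ε) - a * (EE k * ξ ^ 2) ≤ Gh G k / ξ ^ 2 := by
    intro k
    have hE : 0 ≤ EE k * ξ ^ 2 := mul_nonneg (EE_nonneg k) hx2.le
    by_cases hk : EE k * ξ ^ 2 ≤ U
    · have h1 := h k hk
      set x := EE k * ξ ^ 2 with hx
      have h2 : 0 < 1 + z + a * x := by positivity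
      have h3 : 1 - (z + a * x) ≤ 1 / (1 + z + a * x) := by
        rw [le_div_iff₀ h2]
        nlinarith [sq_nonneg (z + a * x)]
      linarith
    · push Not at hk
      have h1 : a * U ≤ a * (EE k * ξ ^ 2) := mul_le_mul_of_nonneg_left hk.le ha0
      have h2 : 0 ≤ Gh G k / ξ ^ 2 := div_nonneg (hG k) hx2.le
      linarith
  refine ⟨QK.qu fun k => ?_, fun k h1 h2 => ?_⟩
  · have h1 := key k
    rw [le_div_iff₀ hx2] at h1
    refine le_trans (le_of_eq ?_) h1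
    ring
  · have w1 : pw k.1 ^ 2 * ξ ^ 2 ≤ W ^ 2 := by
      rw [← sq_abs, ← mul_pow]
      refine pow_le_pow_left₀ (by positivity) ?_ 2
      rwa [le_div_iff₀ hξ] at h1
    have w2 : pw k.2 ^ 2 * ξ ^ 2 ≤ W ^ 2 := by
      rw [← sq_abs, ← mul_pow]
      refine pow_le_pow_left₀ (by positivity) ?_ 2
      rwa [le_div_iff₀ hξ] at h2
    set s := (pw k.1 ^ 2 + pw k.2 ^ 2) * ξ ^ 2 with hs
    have hs0 : 0 ≤ s := by positivity
    have hsW : s ≤ 2 * W ^ 2 := by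
      rw [hs, add_mul]
      linarith
    have hEs : EE k * ξ ^ 2 ≤ s := mul_le_mul_of_nonneg_right (EE_le k) hx2.le
    have hE : 0 ≤ EE k * ξ ^ 2 := mul_nonneg (EE_nonneg k) hx2.le
    have h3 := h k (hEs.trans (hsW.trans hU))
    have h4 : 0 < 1 + z + a * (EE k * ξ ^ 2) := by positivity
    have h5 : 1 + z + a * (EE k * ξ ^ 2) ≤ 5 / 2 * (1 + s) := by nlinarith
    have h6 : 1 / (5 / 2 * (1 + s)) ≤ 1 / (1 + z + a * (EE k * ξ ^ 2)) :=
      one_div_le_one_div_of_le h4 h5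
    have h7 : 1 / (5 / 2 * (1 + s)) - ε ≤ Gh G k / ξ ^ 2 := by linarith
    have h8 : 7 * (1 + s) * (1 / (5 / 2 * (1 + s)) - ε) ≤ 7 * (1 + s) * (Gh G k / ξ ^ 2) :=
      mul_le_mul_of_nonneg_left h7 (by positivity)
    have h9 : 7 * (1 + s) * (1 / (5 / 2 * (1 + s)) - ε) = 14 / 5 - 7 * ((1 + s) * ε) := by
      have : (1 + s) ≠ 0 := by positivity
      field_simp
      ring
    have h10 : (1 + s) * ε ≤ (1 + 2 * W ^ 2) * ε := mul_le_mul_of_nonneg_right (by linarith) he0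
    have h11 : 7 * (1 + s) * (Gh G k / ξ ^ 2) =
        7 * (1 / ξ ^ 2 + pw k.1 ^ 2 + pw k.2 ^ 2) * Gh G k := by
      rw [hs]
      field_simp
      ring
    rw [h9, h11] at h8
    linarith

/-- the transform from the self energy -/
theorem Ght_low (hb : 0 < b) {t z a : ℝ} (ht : 0 < t) {k : V N} (hz : 0 ≤ z) (ha : 0 ≤ a)
    (h : Pik N b t k ≤ z * t + a * EE k) :
    1 / (1 + z + a * (EE k / t)) ≤ t * Ght N b t k := by
  rw [H864.Ght_eq_inv hb ht]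
  have h0 := H864.Pik_nonneg (N := N) hb ht k
  have hE := EE_nonneg k
  rw [← div_eq_mul_inv, div_le_div_iff₀ (by positivity) (by positivity), one_mul]
  have e : t * (1 + z + a * (EE k / t)) = t + (z * t + a * EE k) := by
    field_simp
    ring
  rw [e]
  linarith

/-- **the one scale hypothesis at `ξ` from an upper profile at one mass `τ ≥ ξ⁻²`** -/
theorem hyp_of_Pik (hb : 0 < b) {ξ : ℕ} (hξ : 1 ≤ ξ) {τ W z a U : ℝ}
    (hτ : 1 / (ξ : ℝ) ^ 2 ≤ τ) (hU : 2 * W ^ 2 ≤ U) (ha0 : 0 ≤ a) (ha : a ≤ 5 / 2)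
    (haU : 1 ≤ a * U) (hz0 : 0 ≤ z) (hz : z ≤ 1 / 2)
    (h : ∀ k : V N, EE k * (ξ : ℝ) ^ 2 ≤ U → Pik N b τ k ≤ z * (1 / (ξ : ℝ) ^ 2) + a * EE k) :
    Hyp 7 W (ξ : ℝ) (GT N b ξ) z a := by
  have hξ' : (0 : ℝ) < ξ := by exact_mod_cast hξ
  have hx2 : (0 : ℝ) < (ξ : ℝ) ^ 2 := by positivity
  have ht : (0 : ℝ) < 1 / (ξ : ℝ) ^ 2 := by positivity
  have e : ∀ k : V N, Gh (GT N b ξ) k = Ght N b (1 / (ξ : ℝ) ^ 2) k := fun k =>
    (H864.Ght_eq_Gh hξ' k).symm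
  have h1 := hyp_of_low (N := N) (G := GT N b ξ) (W := W) (z := z) (a := a) (U := U) (ε := 0) hξ'
    (fun k => by rw [e]; exact H864.Ght_nonneg hb.le ht k) hU ha0 ha haU hz0 hz le_rfl
    (by rw [mul_zero]; exact zero_le_one) fun k hk => by
      have h2 := (H864.Pik_mono (N := N) hb ht hτ k).trans (h k hk)
      have h3 := Ght_low hb ht hz0 ha0 h2
      rw [sub_zero, e]
      refine le_trans (le_of_eq ?_) (h3.trans (le_of_eq ?_))
      · congr 2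
        field_simp
      · field_simp
  rwa [add_zero] at h1

end Vale.Agent.P159.H37
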