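import Vale.Agent.P159.H197.Near2

/-!
P159 (helper37), module RNGX, part b: change of the torus at one natural scale `ξ`.

`rx_torus`: the one scale hypothesis with a crude activity `e` and the exact value
`1 - ξ⁻² Ĝ(0) ≤ z` on ONE torus `N = n ξ`, `n e^5 ≤ 1`, gives
(i) on `N` the activity `z`; (ii) on EVERY torus `N' ≥ K ξ` (`8 ≤ K ≤ n`, `K z ≤ c`, larger or
smaller than `N`) the activity `C (z + e^{-cK})`; slope `a + C (√e + 1/n²)`.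
-/

set_option linter.unusedSectionVars false

open Finset

namespace Vale.Agent.P159.H37

open Vale.Agent.P159.TM
open Vale.Agent.P159.TM.Spec (V GT Rng ThmA)
open Vale.Agent.P159.TM.H764 (EE Gh pw Hyp H2 QK QU M2)
open Vale.Agent.P159.TM.H265 (HA K2 K3 K4 K2_pos K3_pos K4_nonneg tsn_full v3)
open Vale.Agent.P159.TM.H705 (tsn)

variable {N : ℕ} [NeZero N] {b : ℝ} {ξ : ℕ} {c C : ℝ}

/-- the full second moment from the one scale hypothesis with a crude activity -/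
theorem m2_le (hb : 0 ≤ b) (hξ : 1 ≤ ξ) (hc : 0 < c) (hC : 0 ≤ C) {e a : ℝ} (he : 0 < e)
    (hA : HA N b ξ hb e c C) {n : ℕ} (hn : 2 ≤ n) (hN : N = n * ξ) (ha : 0 ≤ a)
    (h2 : QU (ξ : ℝ) (H41.G b N (ξ : ℝ)) e a) (hec : 3 * e ≤ c)
    (hp : (n : ℝ) * e ^ 5 ≤ 1) :
    M2 (H41.G b N (ξ : ℝ)) ≤
      2 * (a + (1 + K4 c C 5) * (√e + 40 / (n : ℝ) ^ 2)) * (ξ : ℝ) ^ 4 := by
  have hξ' : (0 : ℝ) < ξ := by exact_mod_cast hξ
  have hG := fun w => H41.G_nonneg (N := N) hb hξ' w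
  have hNr : (N : ℝ) = n * ξ := by rw [hN]; push_cast; ring
  have h2ξ : 2 * ξ ≤ N := by rw [hN]; exact Nat.mul_le_mul_right ξ hn
  have hp' : (N : ℝ) * e ^ 5 ≤ ξ := by
    rw [hNr]
    calc (n : ℝ) * ξ * e ^ 5 = ((n : ℝ) * e ^ 5) * ξ := by ring
      _ ≤ 1 * (ξ : ℝ) := mul_le_mul_of_nonneg_right hp hξ'.le
      _ = (ξ : ℝ) := one_mul _
  have h4 := v3 hb hξ h2ξ hc hC he hA hec 5 hp'
  have h4' : tsn N (H41.G b N (ξ : ℝ)) (fun w => (w.1.valMinAbs : ℝ) ^ 4) ≤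
      K4 c C 5 * (ξ : ℝ) ^ 6 := by
    rw [tsn_full]
    exact h4
  have h0 : Gh (H41.G b N (ξ : ℝ)) 0 ≤ (ξ : ℝ) ^ 2 := H41.Gh_le hb hξ' 0
  have hch := H705.chord_trunc (r := N) hξ' (by omega : 1 ≤ n) hNr hG h0 h2.qk he ha h4'
  rw [tsn_full] at hch
  exact hch

/-- (i): the exact activity on the torus `N` -/
theorem qu_exact (hb : 0 ≤ b) (hξ : 1 ≤ ξ) {z a : ℝ}
    (h1 : (1 - z) * (ξ : ℝ) ^ 2 ≤ ∑ w, H41.G b N (ξ : ℝ) w)
    (h2 : M2 (H41.G b N (ξ : ℝ)) ≤ 2 * a * (ξ : ℝ) ^ 4) :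
    QU (ξ : ℝ) (H41.G b N (ξ : ℝ)) z a := by
  have hξ' : (0 : ℝ) < ξ := by exact_mod_cast hξ
  have hG := fun w => H41.G_nonneg (N := N) hb hξ' w
  have h5 := H764.QU_of_moments hξ' (H41.G b N (ξ : ℝ)) hG (H41.G_refl b _) (H41.G_swap b _) h1
  refine (h5.qk.mono hξ'.le le_rfl ?_).qu
  rw [div_le_iff₀ (by positivity)]
  linarith

/-- the error of `near_tori` -/
theorem near_err (hc : 0 < c) {K : ℕ} {z a A : ℝ} (hz : 0 ≤ z) (ha : 0 ≤ a) (haA : a ≤ A) :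
    z + √C * K * Real.exp c * Real.exp (-(c * K / 4)) +
      (K2 c C * Real.exp (-(c * K / 32)) + 2 * (2 + 80 * a) * (1 + 2 / c) * z) ≤
    (1 + √C * Real.exp c * (16 / c) + K2 c C + 2 * (2 + 80 * A) * (1 + 2 / c)) *
      (z + Real.exp (-(c / 32 * K))) := by
  have hsC := Real.sqrt_nonneg C
  have hK0 : (0 : ℝ) ≤ K := Nat.cast_nonneg K
  have hK2 := (K2_pos (C := C) hc).le
  have h1 : (K : ℝ) ≤ 16 / c * Real.exp (c * K / 16) := by
    have h2 : c * K / 16 ≤ Real.exp (c * K / 16) := by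
      have := Real.add_one_le_exp (c * K / 16)
      linarith
    have h3 : (K : ℝ) = 16 / c * (c * K / 16) := by field_simp
    calc (K : ℝ) = 16 / c * (c * K / 16) := h3
      _ ≤ _ := mul_le_mul_of_nonneg_left h2 (by positivity)
  have h4 : √C * K * Real.exp c * Real.exp (-(c * K / 4)) ≤
      √C * Real.exp c * (16 / c) * Real.exp (-(c / 32 * K)) := by
    calc √C * K * Real.exp c * Real.exp (-(c * K / 4))
        ≤ √C * (16 / c * Real.exp (c * K / 16)) * Real.exp c * Real.exp (-(c * K / 4)) := by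
          gcongr
      _ = √C * Real.exp c * (16 / c) * (Real.exp (c * K / 16) * Real.exp (-(c * K / 4))) := by
          ring
      _ ≤ √C * Real.exp c * (16 / c) * Real.exp (-(c / 32 * K)) := by
          refine mul_le_mul_of_nonneg_left ?_ (by positivity)
          rw [← Real.exp_add]
          refine Real.exp_le_exp.2 ?_
          have : 0 ≤ c * K := by positivity
          nlinarith
  have h5 : Real.exp (-(c * K / 32)) = Real.exp (-(c / 32 * K)) := by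
    congr 1
    ring
  rw [h5]
  set E := Real.exp (-(c / 32 * K)) with hE
  have hE0 : 0 < E := Real.exp_pos _
  have h6 : 2 * (2 + 80 * a) * (1 + 2 / c) * z ≤ 2 * (2 + 80 * A) * (1 + 2 / c) * z := by
    gcongr
  have h7 : 0 ≤ √C * Real.exp c * (16 / c) := by positivity
  have h8 : 0 ≤ 2 * (2 + 80 * A) * (1 + 2 / c) := by
    have : 0 ≤ A := ha.trans haA
    positivity
  generalize √C * Real.exp c * (16 / c) = u at *
  generalize 2 * (2 + 80 * A) * (1 + 2 / c) = v at *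
  have g1 : 0 ≤ u * z := mul_nonneg h7 hz
  have g2 : 0 ≤ v * E := mul_nonneg h8 hE0.le
  have g3 : 0 ≤ K2 c C * z := mul_nonneg hK2 hz
  have g4 : (1 + u + K2 c C + v) * (z + E) = z + E + u * z + u * E + K2 c C * z + K2 c C * E +
      v * z + v * E := by ring
  rw [g4]
  linarith

/-- smallness for `(H2)` -/
theorem h2_small {e' a A W n : ℝ} (haA : a ≤ A) (ha : 0 ≤ a) (hn0 : 0 < n)
    (he' : 280 * (1 + 2 * W ^ 2) * e' ≤ 1)
    (hn : 280 * Real.pi * (1 + 2 * A) * (1 + 2 * W ^ 2) ≤ n) :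
    (2 * e' + 2 * Real.pi * (1 + 2 * a) * (1 / n)) * (7 * 10 * (1 + 2 * W ^ 2)) ≤ 10 - 7 := by
  have hw : 0 < 1 + 2 * W ^ 2 := by positivity
  have h1 : 2 * e' * (7 * 10 * (1 + 2 * W ^ 2)) = 1 / 2 * (280 * (1 + 2 * W ^ 2) * e') := by ring
  have h2 : 2 * Real.pi * (1 + 2 * a) * (1 / n) * (7 * 10 * (1 + 2 * W ^ 2)) =
      1 / 2 * (280 * Real.pi * (1 + 2 * a) * (1 + 2 * W ^ 2)) / n := by
    field_simp
    ring
  have h3 : 280 * Real.pi * (1 + 2 * a) * (1 + 2 * W ^ 2) ≤ n := by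
    refine le_trans ?_ hn
    have := Real.pi_pos
    gcongr
  have h4 : 1 / 2 * (280 * Real.pi * (1 + 2 * a) * (1 + 2 * W ^ 2)) / n ≤ 1 / 2 := by
    rw [div_le_iff₀ hn0]
    linarith
  rw [add_mul, h1, h2]
  linarith

/-- the constant of the error of the activity -/
noncomputable def C1 (c C A : ℝ) : ℝ := 1 + √C * Real.exp c * (16 / c) + K2 c C +
    2 * (2 + 80 * A) * (1 + 2 / c)

/-- the constant of the change of the torus -/
noncomputable def C2 (c C A : ℝ) : ℝ := 3 * C1 c C A + 40 * (1 + K4 c C 5)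

theorem one_le_C1 {A : ℝ} (hc : 0 < c) (hA : 0 ≤ A) : 1 ≤ C1 c C A := by
  unfold C1
  have hK2 := (K2_pos (C := C) hc).le
  have h1 : 0 ≤ √C * Real.exp c * (16 / c) := by positivity
  have h2 : 0 ≤ 2 * (2 + 80 * A) * (1 + 2 / c) := by positivity
  linarith

theorem C2_pos {A : ℝ} (hc : 0 < c) (hA : 0 ≤ A) : 0 < C2 c C A := by
  unfold C2
  have h1 := one_le_C1 (C := C) hc hA
  have h2 := K4_nonneg (C := C) hc 5
  positivity

/-- step (i): the exact activity on `N` -/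
theorem rx_one {A W : ℝ} (hc : 0 < c) (hC : 0 ≤ C) (hA0 : 0 ≤ A) {N : ℕ} [NeZero N] {b : ℝ}
    {n ξ : ℕ} {e a : ℝ} (hb : 0 ≤ b) (hξ : 1 ≤ ξ) (hN : N = n * ξ) (hn : 2 ≤ n) (he : 0 < e)
    (hec : 3 * e ≤ c) (ha0 : 0 ≤ a) (haA : a ≤ A) (hp : (n : ℝ) * e ^ 5 ≤ 1)
    (hHA : HA N b ξ hb e c C) (hQ : Hyp 7 W (ξ : ℝ) (GT N b ξ) e a)
    (ht : C2 c C (A + 1) * √e ≤ 1 / 2) (hx : 2 * C2 c C (A + 1) ≤ (n : ℝ)) :
    M2 (H41.G b N (ξ : ℝ)) ≤ 2 * (a + C2 c C (A + 1) * (√e + 1 / (n : ℝ) ^ 2)) * (ξ : ℝ) ^ 4 ∧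
      0 ≤ a + C2 c C (A + 1) * (√e + 1 / (n : ℝ) ^ 2) ∧
      a + C2 c C (A + 1) * (√e + 1 / (n : ℝ) ^ 2) ≤ A + 1 := by
  have hk4 := K4_nonneg (C := C) hc 5
  have hC1p := one_le_C1 (C := C) hc (by linarith : 0 ≤ A + 1)
  have hC2p := C2_pos (C := C) hc (by linarith : 0 ≤ A + 1)
  have hξ' : (0 : ℝ) < ξ := by exact_mod_cast hξ
  have hn1 : (1 : ℝ) ≤ n := by
    have : 1 ≤ n := by omega
    exact_mod_cast this
  have hn0 : (0 : ℝ) < n := by linarith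
  have hm2 := m2_le (N := N) hb hξ hc hC he hHA hn hN ha0 hQ.qu hec hp
  have hse : 0 ≤ √e := Real.sqrt_nonneg e
  have hn2 : 0 ≤ 1 / (n : ℝ) ^ 2 := by positivity
  have e1 : 40 / (n : ℝ) ^ 2 = 40 * (1 / (n : ℝ) ^ 2) := by ring
  rw [e1] at hm2
  have hg : (1 + K4 c C 5) * (√e + 40 * (1 / (n : ℝ) ^ 2)) ≤
      C2 c C (A + 1) * (√e + 1 / (n : ℝ) ^ 2) := by
    unfold C2
    generalize K4 c C 5 = k at *
    generalize C1 c C (A + 1) = v at *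
    generalize √e = s at *
    generalize 1 / (n : ℝ) ^ 2 = t at *
    have g1 : 0 ≤ k * s := mul_nonneg hk4 hse
    have g2 : 0 ≤ k * t := mul_nonneg hk4 hn2
    have g3 : 0 ≤ v * (s + t) := mul_nonneg (by linarith) (by linarith)
    nlinarith
  refine ⟨hm2.trans ?_, ?_, ?_⟩
  · have g4 : a + (1 + K4 c C 5) * (√e + 40 * (1 / (n : ℝ) ^ 2)) ≤
        a + C2 c C (A + 1) * (√e + 1 / (n : ℝ) ^ 2) := by linarith
    have h4 : 0 ≤ (ξ : ℝ) ^ 4 := by positivity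
    exact mul_le_mul_of_nonneg_right (by linarith) h4
  · positivity
  · have g2 : C2 c C (A + 1) * (1 / (n : ℝ) ^ 2) ≤ 1 / 2 := by
      rw [mul_one_div, div_le_div_iff₀ (by positivity) (by norm_num)]
      nlinarith
    rw [mul_add]
    linarith

/-- step (ii): every other torus -/
theorem rx_two {A W : ℝ} (hc : 0 < c) (hC : 0 ≤ C) (hA0 : 0 ≤ A) {N N' : ℕ} [NeZero N]
    [NeZero N'] {b : ℝ} {n ξ K : ℕ} {z a3 : ℝ} (hb : 0 ≤ b) (hξ : 1 ≤ ξ) (hN : N = n * ξ)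
    (hz : 0 < z) (hzc : z ≤ c) (ha30 : 0 ≤ a3) (ha3A : a3 ≤ A + 1)
    (hHA : HA N b ξ hb z c C) (hm3 : M2 (H41.G b N (ξ : ℝ)) ≤ 2 * a3 * (ξ : ℝ) ^ 4)
    (hQ : Hyp 7 W (ξ : ℝ) (GT N b ξ) z a3) (hK8 : 8 ≤ K) (hKn : K ≤ n)
    (hKz : (K : ℝ) * z ≤ 2 * c) (hKN' : K * ξ ≤ N')
    (ht : 280 * (1 + 2 * W ^ 2) * (C1 c C (A + 1) * (z + Real.exp (-(c / 32 * K)))) ≤ 1)
    (hx : 280 * Real.pi * (1 + 2 * (A + 1)) * (1 + 2 * W ^ 2) ≤ n) :
    Hyp 10 W (ξ : ℝ) (GT N' b ξ) (C2 c C (A + 1) * (z + Real.exp (-(c / 32 * K)))) a3 := by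
  have hk4 := K4_nonneg (C := C) hc 5
  have hξ' : (0 : ℝ) < ξ := by exact_mod_cast hξ
  have hn0 : (0 : ℝ) < n := by
    have : 0 < n := by omega
    exact_mod_cast this
  have hKN : K * ξ ≤ N := by rw [hN]; exact Nat.mul_le_mul_right ξ hKn
  have hnear := H197.near_tori (N := N) (M := N') hb hξ hc hC hz hzc hHA ha30
    hQ.qu.qk hK8 hKN hKN' hKz
  have her2 := near_err (C := C) (K := K) hc hz.le ha30 ha3A
  have hw : 0 ≤ 280 * (1 + 2 * W ^ 2) := by positivity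
  have her3 := (mul_le_mul_of_nonneg_left her2 hw).trans ht
  have hNr : (ξ : ℝ) / N = 1 / n := by
    rw [hN]
    push_cast
    field_simp
  have hh := hnear.hyp (C2 := 7) (C2' := 10) (W := W) hξ' hm3 (by norm_num) (by norm_num) hQ.h2
    (by
      rw [hNr]
      exact h2_small ha3A ha30 hn0 her3 hx)
  refine hh.mono (by norm_num : (0 : ℝ) ≤ 10) le_rfl hξ'.le ?_ le_rfl
  have hE0 : 0 < Real.exp (-(c / 32 * K)) := Real.exp_pos _
  have g4 : 3 * C1 c C (A + 1) ≤ C2 c C (A + 1) := by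
    unfold C2
    linarith
  have g3 : 0 ≤ z + Real.exp (-(c / 32 * K)) := by positivity
  have g5 := mul_le_mul_of_nonneg_right g4 g3
  have g6 := mul_le_mul_of_nonneg_left her2 (by norm_num : (0 : ℝ) ≤ 3)
  refine le_trans g6 (le_trans (le_of_eq ?_) g5)
  unfold C1
  ring

/-- the constants -/
theorem rx_consts {c ys C1' C2' w : ℝ} (hc : 0 < c) (hys : 0 < ys) (h1 : 1 ≤ C1')
    (h2 : 0 < C2') (hw : 0 < w) : ∃ es : ℝ, 0 < es ∧ es ≤ ys ∧ es ≤ c / 3 ∧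
      C2' * √es ≤ 1 / 2 ∧ 560 * w * C1' * es ≤ 1 := by
  refine ⟨min (min ys (c / 3)) (min ((1 / (2 * C2')) ^ 2) (1 / (560 * w * C1'))), ?_, ?_,
      ?_, ?_, ?_⟩
  · refine lt_min (lt_min hys (by positivity)) (lt_min (by positivity) (by positivity))
  · exact (min_le_left _ _).trans (min_le_left _ _)
  · exact (min_le_left _ _).trans (min_le_right _ _)
  · have h3 : √(min (min ys (c / 3)) (min ((1 / (2 * C2')) ^ 2) (1 / (560 * w * C1')))) ≤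
        √((1 / (2 * C2')) ^ 2) :=
      Real.sqrt_le_sqrt ((min_le_right _ _).trans (min_le_left _ _))
    rw [Real.sqrt_sq (by positivity)] at h3
    refine (mul_le_mul_of_nonneg_left h3 h2.le).trans (le_of_eq ?_)
    field_simp
  · have h3 : min (min ys (c / 3)) (min ((1 / (2 * C2')) ^ 2) (1 / (560 * w * C1'))) ≤
        1 / (560 * w * C1') := (min_le_right _ _).trans (min_le_right _ _)
    rw [le_div_iff₀ (by positivity)] at h3
    linarith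

/-- **change of the torus** -/
theorem rx_torus {b1 b2 A : ℝ} (hb1 : 0 < b1) (hA0 : 0 ≤ A) (hT : ThmA b1 b2 (A + 1)) :
    ∃ W₀ : ℝ, ∀ W : ℝ, W₀ ≤ W → ∃ (c C es : ℝ) (X : ℕ), 0 < c ∧ 0 < C ∧ 0 < es ∧ 8 ≤ X ∧
    ∀ (N : ℕ) [NeZero N] (b : ℝ) (n ξ : ℕ) (z e a : ℝ), b1 ≤ b → b ≤ b2 → X ≤ ξ → N = n * ξ →
      X ≤ n → 0 < z → z ≤ e → e ≤ es → 0 ≤ a → a ≤ A → (n : ℝ) * e ^ 5 ≤ 1 →
      (1 - z) * (ξ : ℝ) ^ 2 ≤ ∑ w, GT N b ξ w → Hyp 7 W (ξ : ℝ) (GT N b ξ) e a →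
      Hyp 7 W (ξ : ℝ) (GT N b ξ) z (a + C * (√e + 1 / (n : ℝ) ^ 2)) ∧
      ∀ K : ℕ, X ≤ K → K ≤ n → (K : ℝ) * z ≤ c → Real.exp (-(c * K)) ≤ es →
        ∀ (N' : ℕ) [NeZero N'], K * ξ ≤ N' →
        Hyp 10 W (ξ : ℝ) (GT N' b ξ) (C * (z + Real.exp (-(c * K))))
          (a + C * (√e + 1 / (n : ℝ) ^ 2)) := by
  obtain ⟨W₀, h⟩ := hT
  refine ⟨W₀, fun W hW => ?_⟩
  obtain ⟨c, C, ys, X, hc, hC, hys, hX, h⟩ := h W hW
  have hC1p := one_le_C1 (C := C) hc (by linarith : 0 ≤ A + 1)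
  have hC2p := C2_pos (C := C) hc (by linarith : 0 ≤ A + 1)
  have hwp : 0 < 1 + 2 * W ^ 2 := by positivity
  obtain ⟨es, hes, t1, t2, t3, t4⟩ := rx_consts hc hys hC1p hC2p hwp
  obtain ⟨XT, x1, x2, x3, x4⟩ : ∃ XT : ℕ, X ≤ XT ∧ 8 ≤ XT ∧
      280 * Real.pi * (1 + 2 * (A + 1)) * (1 + 2 * W ^ 2) ≤ (XT : ℝ) ∧
      2 * C2 c C (A + 1) ≤ (XT : ℝ) := by
    refine ⟨max (max X 8) (max ⌈280 * Real.pi * (1 + 2 * (A + 1)) * (1 + 2 * W ^ 2)⌉₊
      ⌈2 * C2 c C (A + 1)⌉₊),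
      (le_max_left _ _).trans (le_max_left _ _), (le_max_right _ _).trans (le_max_left _ _), ?_, ?_⟩
    · exact (Nat.le_ceil _).trans (by exact_mod_cast (le_max_left _ _).trans (le_max_right _ _))
    · exact (Nat.le_ceil _).trans (by exact_mod_cast (le_max_right _ _).trans (le_max_right _ _))
  refine ⟨c / 32, C2 c C (A + 1), es, XT, by positivity, hC2p, hes, x2, ?_⟩
  intro N _ b n ξ z e a hbb1 hbb2 hXξ hN hXn hz hze hees ha0 haA hp h0 hQ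
  have hb : 0 ≤ b := (hb1.trans_le hbb1).le
  have hξ : 1 ≤ ξ := by omega
  have hξ' : (0 : ℝ) < ξ := by exact_mod_cast hξ
  have he : 0 < e := hz.trans_le hze
  have hn8 : 8 ≤ n := x2.trans hXn
  have hnr : (XT : ℝ) ≤ n := by exact_mod_cast hXn
  have hNdiv : ξ ∣ N := ⟨n, by rw [hN]; ring⟩
  have hXN : X * ξ ≤ N := by
    rw [hN]
    exact Nat.mul_le_mul_right ξ (x1.trans hXn)
  have hrng : Rng b1 b2 (A + 1) W ys X N b ξ e :=
    ⟨hbb1, hbb2, x1.trans hXξ, hXN, hNdiv, he.le, by linarith,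
      hQ.mono (by norm_num) (by norm_num) hξ'.le le_rfl (by linarith)⟩
  have hHA : HA N b ξ hb e c C := fun x0 m hm => (h N b hb ξ e hrng x0 m hm).1
  obtain ⟨hm3, ha30, ha3A⟩ := rx_one hc hC.le hA0 hb hξ hN (by omega) he (by linarith) ha0 haA hp
    hHA hQ ((mul_le_mul_of_nonneg_left (Real.sqrt_le_sqrt hees) hC2p.le).trans t3) (x4.trans hnr)
  have hyp : Hyp 7 W (ξ : ℝ) (GT N b ξ) z (a + C2 c C (A + 1) * (√e + 1 / (n : ℝ) ^ 2)) :=
    ⟨qu_exact hb hξ h0 hm3, hQ.h2⟩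
  refine ⟨hyp, fun K hXK hKn hKz hKe N' _ hKN' => ?_⟩
  have hrng' : Rng b1 b2 (A + 1) W ys X N b ξ z :=
    ⟨hbb1, hbb2, x1.trans hXξ, hXN, hNdiv, hz.le, by linarith,
      hyp.mono (by norm_num) (by norm_num) hξ'.le le_rfl ha3A⟩
  have hHA' : HA N b ξ hb z c C := fun x0 m hm => (h N b hb ξ z hrng' x0 m hm).1
  refine rx_two hc hC.le hA0 hb hξ hN hz (by linarith) ha30 ha3A hHA' hm3 hyp (x2.trans hXK) hKn
    (by linarith) hKN' ?_ (x3.trans hnr)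
  have g1 : z + Real.exp (-(c / 32 * K)) ≤ 2 * es := by linarith
  calc 280 * (1 + 2 * W ^ 2) * (C1 c C (A + 1) * (z + Real.exp (-(c / 32 * K)))) ≤
      280 * (1 + 2 * W ^ 2) * (C1 c C (A + 1) * (2 * es)) := by
        have := mul_le_mul_of_nonneg_left g1 (by linarith : 0 ≤ C1 c C (A + 1))
        gcongr
    _ = 560 * (1 + 2 * W ^ 2) * C1 c C (A + 1) * es := by ring
    _ ≤ 1 := t4

end Vale.Agent.P159.H37
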