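import Vale.Agent.P159.H37.Rxa
import Vale.Agent.P159.H37.Rxb
import Vale.Agent.P159.H37.Rxc

/-!
P159 (helper37), module RNGX, part d: **the standing range `Rng` on all tori from ONE neutral
profile.**

`rng_all`: on one torus `N = n ξ`, at one real mass `τ ∈ [ξ⁻², r ξ⁻²]`:
`Π_τ(0) ≤ z ξ⁻²` (integer model, constant mode) and `Π⁰_τ(k) ≤ δ ξ⁻² + a E(k)` (neutral model,
`0 < E(k) ≤ (2 W² + 1) ξ⁻²`), `e := z + δ + C r n √z` small, `n e⁵ ≤ 1`.  Then at the scale `ξ`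
(i) on `N`: activity `z`, slope `a + C (√e + n⁻²)`;
(ii) on every torus `N' ≥ K ξ`, `X ≤ K ≤ n`: activity `C (z + e^{-cK})`, the same slope.
-/

set_option linter.unusedSectionVars false

namespace Vale.Agent.P159.H37

open Vale.Agent.P159.TM
open Vale.Agent.P159.TM.Spec (V GT Rng ThmA)
open Vale.Agent.P159.TM.H764 (EE Gh pw Hyp H2 QK QU M2 EE_nonneg EE_zero)
open Vale.Agent.P159.H963 (Gnh Pin)

variable {N : ℕ} [NeZero N] {b : ℝ}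

/-- susceptibility from the self energy of the constant mode -/
theorem sus_low (hb : 0 < b) {ξ : ℕ} (hξ : 1 ≤ ξ) {τ z : ℝ} (hτ : 1 / (ξ : ℝ) ^ 2 ≤ τ)
    (hz : 0 ≤ z) (h : Pik N b τ 0 ≤ z * (1 / (ξ : ℝ) ^ 2)) :
    (1 - z) * (ξ : ℝ) ^ 2 ≤ ∑ w, GT N b ξ w := by
  have hξ' : (0 : ℝ) < ξ := by exact_mod_cast hξ
  have ht : (0 : ℝ) < 1 / (ξ : ℝ) ^ 2 := by positivity
  have h1 := (H864.Pik_mono (N := N) hb ht hτ 0).trans h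
  have h2 : Ght N b (1 / (ξ : ℝ) ^ 2) 0 = ∑ w, GT N b ξ w := by
    rw [H864.Ght_eq_Gh hξ']
    exact H705.Gh_zero _
  rw [← h2, H864.Ght_eq_inv hb ht]
  have h0 := H864.Pik_nonneg (N := N) hb ht 0
  have h3 : 1 / (ξ : ℝ) ^ 2 + Pik N b (1 / (ξ : ℝ) ^ 2) 0 ≤ (1 + z) * (1 / (ξ : ℝ) ^ 2) := by
    linarith
  have h4 := inv_anti₀ (by positivity) h3
  refine le_trans ?_ h4
  have h5 : ((1 + z) * (1 / (ξ : ℝ) ^ 2))⁻¹ = (ξ : ℝ) ^ 2 / (1 + z) := by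
    field_simp
  rw [h5, le_div_iff₀ (by positivity)]
  have h6 : (0 : ℝ) ≤ (ξ : ℝ) ^ 2 := by positivity
  nlinarith [mul_nonneg h6 (sq_nonneg z)]

/-- the crude one scale hypothesis from the neutral profile -/
theorem hyp_crude (hb : 0 < b) {n ξ : ℕ} (hξ : 1 ≤ ξ) (hN : N = n * ξ) {W τ r z δ a B : ℝ}
    (hτ : 1 / (ξ : ℝ) ^ 2 ≤ τ) (hτr : τ ≤ r * (1 / (ξ : ℝ) ^ 2)) (hz : 0 ≤ z) (hδ0 : 0 ≤ δ)
    (hδ1 : δ ≤ 1) (ha1 : 1 ≤ a) (ha2 : a ≤ 2) (hBd : B = 3 + 4 * W ^ 2)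
    (hs : 60 * ((n : ℝ) * √z) * (1 + B) ≤ 1)
    (he : z + δ + 60 * (1 + B) ^ 2 * (r * (n * √z)) ≤ 1 / 2)
    (h0 : Pik N b τ 0 ≤ z * (1 / (ξ : ℝ) ^ 2))
    (h : ∀ k : V N, k ≠ 0 → EE k * (ξ : ℝ) ^ 2 ≤ 2 * W ^ 2 + 1 →
      Pin N b τ k ≤ δ * (1 / (ξ : ℝ) ^ 2) + a * EE k) :
    Hyp 7 W (ξ : ℝ) (GT N b ξ) (z + δ + 60 * (1 + B) ^ 2 * (r * (n * √z))) a := by
  have hξ' : (0 : ℝ) < ξ := by exact_mod_cast hξ
  have ht : (0 : ℝ) < 1 / (ξ : ℝ) ^ 2 := by positivity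
  have hτ0 : 0 < τ := ht.trans_le hτ
  have hr1 : 1 ≤ r := by
    have h1 : 1 * (1 / (ξ : ℝ) ^ 2) ≤ r * (1 / (ξ : ℝ) ^ 2) := by linarith
    exact le_of_mul_le_mul_right h1 ht
  have hB0 : 0 ≤ B := by rw [hBd]; positivity
  have hnz : 0 ≤ (n : ℝ) * √z := by positivity
  -- the oscillation
  set δo : ℝ := ((n : ℝ) * √z) ^ 2 / 4 with hδo
  have hsq : √δo = (n : ℝ) * √z / 2 := by
    have e : δo = ((n : ℝ) * √z / 2) ^ 2 := by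
      rw [hδo]
      ring
    rw [e, Real.sqrt_sq (by positivity)]
  have hosc : ∀ c d : ℝ, Real.log (H612.ZC N b τ c) - Real.log (H612.ZC N b τ d) ≤ δo := by
    intro c d
    refine (osc_le hb hτ0 c d).trans ?_
    have h1 := mul_le_mul_of_nonneg_left h0 (sq_nonneg (N : ℝ))
    have e : (N : ℝ) ^ 2 * (z * (1 / (ξ : ℝ) ^ 2)) = ((n : ℝ) * √z) ^ 2 := by
      rw [hN, mul_pow (n : ℝ), Real.sq_sqrt hz]
      push_cast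
      field_simp
    rw [e] at h1
    rw [hδo]
    linarith
  have hnz1 : (n : ℝ) * √z ≤ 1 := by
    have h1 : 60 * ((n : ℝ) * √z) * 1 ≤ 60 * ((n : ℝ) * √z) * (1 + B) :=
      mul_le_mul_of_nonneg_left (by linarith) (by positivity)
    linarith
  have hδo1 : 4 * δo ≤ 1 := by
    rw [hδo]
    nlinarith
  refine hyp_of_Pik (U := 2 * W ^ 2 + 1) hb hξ hτ (by linarith) (by linarith) (by linarith) ?_ ?_
    he ?_
  · nlinarith [sq_nonneg W]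
  · positivity
  intro k hk
  have hE := EE_nonneg k
  by_cases hk0 : k = 0
  · subst hk0
    rw [EE_zero, mul_zero, add_zero]
    refine h0.trans (mul_le_mul_of_nonneg_right ?_ ht.le)
    have : 0 ≤ 60 * (1 + B) ^ 2 * (r * (n * √z)) := by positivity
    linarith
  have hp := h k hk0 hk
  have hEt : EE k ≤ (2 * W ^ 2 + 1) * (1 / (ξ : ℝ) ^ 2) := by
    rw [mul_one_div, le_div_iff₀ (by positivity)]
    exact hk
  have hpB : δ * (1 / (ξ : ℝ) ^ 2) + a * EE k ≤ B * τ := by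
    have h1 : a * EE k ≤ 2 * ((2 * W ^ 2 + 1) * (1 / (ξ : ℝ) ^ 2)) := by
      refine mul_le_mul ha2 hEt hE (by norm_num)
    have h2 : δ * (1 / (ξ : ℝ) ^ 2) ≤ 1 * (1 / (ξ : ℝ) ^ 2) :=
      mul_le_mul_of_nonneg_right hδ1 ht.le
    have h3 : B * (1 / (ξ : ℝ) ^ 2) ≤ B * τ := mul_le_mul_of_nonneg_left hτ hB0
    have h4 : B * (1 / (ξ : ℝ) ^ 2) = 1 * (1 / (ξ : ℝ) ^ 2) +
        2 * ((2 * W ^ 2 + 1) * (1 / (ξ : ℝ) ^ 2)) := by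
      rw [hBd]
      ring
    linarith
  have h5 := Pik_le_of_Pin hb hτ0 hosc hk0 hp hpB hB0 (by
    rw [hsq]
    linarith) hδo1
  have h6 : 120 * √δo * (1 + B) ^ 2 * τ ≤ 60 * (1 + B) ^ 2 * (r * (n * √z)) *
      (1 / (ξ : ℝ) ^ 2) := by
    rw [hsq]
    have h7 : 0 ≤ 60 * (1 + B) ^ 2 * (n * √z) := by positivity
    have h8 := mul_le_mul_of_nonneg_left hτr h7
    calc 120 * ((n : ℝ) * √z / 2) * (1 + B) ^ 2 * τ = 60 * (1 + B) ^ 2 * (n * √z) * τ := by ring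
      _ ≤ 60 * (1 + B) ^ 2 * (n * √z) * (r * (1 / (ξ : ℝ) ^ 2)) := h8
      _ = _ := by ring
  have h7 : (z + δ + 60 * (1 + B) ^ 2 * (r * (n * √z))) * (1 / (ξ : ℝ) ^ 2) =
      z * (1 / (ξ : ℝ) ^ 2) + δ * (1 / (ξ : ℝ) ^ 2) +
        60 * (1 + B) ^ 2 * (r * (n * √z)) * (1 / (ξ : ℝ) ^ 2) := by ring
  have h8 : 0 ≤ z * (1 / (ξ : ℝ) ^ 2) := by positivity
  rw [h7]
  linarith

theorem mono_C {N : ℕ} [NeZero N] {C2 W ξ a C C' s y : ℝ} {G : ZMod N × ZMod N → ℝ}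
    (h2 : 0 ≤ C2) (hξ : 0 ≤ ξ) (hCC : C ≤ C') (hs : 0 ≤ s) (hy : 0 ≤ y)
    (h : Hyp C2 W ξ G (C * y) (a + C * s)) : Hyp C2 W ξ G (C' * y) (a + C' * s) :=
  h.mono h2 le_rfl hξ (mul_le_mul_of_nonneg_right hCC hy)
    (by linarith [mul_le_mul_of_nonneg_right hCC hs])

theorem mono_C' {N : ℕ} [NeZero N] {C2 W ξ a C C' s y : ℝ} {G : ZMod N × ZMod N → ℝ}
    (h2 : 0 ≤ C2) (hξ : 0 ≤ ξ) (hCC : C ≤ C') (hs : 0 ≤ s)
    (h : Hyp C2 W ξ G y (a + C * s)) : Hyp C2 W ξ G y (a + C' * s) :=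
  h.mono h2 le_rfl hξ le_rfl (by linarith [mul_le_mul_of_nonneg_right hCC hs])

/-- bookkeeping of the constants -/
theorem rng_nums {es C B : ℝ} (hes : 0 < es) (hC : 0 < C) :
    ∃ C' es' : ℝ, C ≤ C' ∧ 60 * (1 + B) ^ 2 ≤ C' ∧ 0 < es' ∧ es' ≤ es ∧ es' ≤ 1 / 2 ∧
      C' * √es' ≤ 1 / 4 := by
  have hC'0 : 0 < max C (60 * (1 + B) ^ 2) := hC.trans_le (le_max_left _ _)
  set C' : ℝ := max C (60 * (1 + B) ^ 2) with hC'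
  refine ⟨C', min (min es (1 / 2)) ((1 / (4 * C')) ^ 2), le_max_left _ _, le_max_right _ _,
    by positivity, (min_le_left _ _).trans (min_le_left _ _),
    (min_le_left _ _).trans (min_le_right _ _), ?_⟩
  have h1 : √(min (min es (1 / 2)) ((1 / (4 * C')) ^ 2)) ≤ 1 / (4 * C') := by
    rw [Real.sqrt_le_left (by positivity)]
    exact min_le_right _ _
  refine (mul_le_mul_of_nonneg_left h1 hC'0.le).trans (le_of_eq ?_)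
  field_simp

/-- bookkeeping of one application -/
theorem rng_app {C' B z δ r m es' : ℝ} (hB0 : 0 ≤ B) (hCB : 60 * (1 + B) ^ 2 ≤ C')
    (he2 : es' ≤ 1 / 2) (hz : 0 < z) (hδ : 0 ≤ δ) (hr1 : 1 ≤ r) (hm : 0 ≤ m)
    (hees : z + δ + C' * (r * m) ≤ es') :
    z + δ + 60 * (1 + B) ^ 2 * (r * m) ≤ z + δ + C' * (r * m) ∧ 60 * m * (1 + B) ≤ 1 ∧
      z + δ + 60 * (1 + B) ^ 2 * (r * m) ≤ 1 / 2 ∧ δ ≤ 1 ∧ z ≤ z + δ + C' * (r * m) := by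
  have h0 : 0 ≤ r * m := by positivity
  have h60 : 0 ≤ 60 * (1 + B) ^ 2 := by positivity
  have h1 := mul_le_mul_of_nonneg_right hCB h0
  have h2 : 0 ≤ 60 * (1 + B) ^ 2 * (r * m) := mul_nonneg h60 h0
  have h3 : m ≤ r * m := by nlinarith
  have h4 : 60 * (1 + B) ≤ 60 * (1 + B) ^ 2 := by nlinarith
  have h5 : 60 * m * (1 + B) ≤ 60 * (1 + B) ^ 2 * (r * m) := by
    calc 60 * m * (1 + B) = 60 * (1 + B) * m := by ring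
      _ ≤ 60 * (1 + B) ^ 2 * (r * m) := mul_le_mul h4 h3 hm h60
  refine ⟨by linarith, by linarith, by linarith, by linarith, by linarith⟩

/-- **the standing range on all tori from one neutral profile** -/
theorem rng_all {b1 : ℝ} (hb1 : 0 < b1) (b2 : ℝ) :
    ∃ W₀ : ℝ, ∀ W : ℝ, W₀ ≤ W → ∃ (c C es : ℝ) (X : ℕ), 0 < c ∧ 0 < C ∧ 0 < es ∧ 8 ≤ X ∧
    ∀ (N : ℕ) [NeZero N] (b : ℝ) (n ξ : ℕ) (τ r z δ a e : ℝ), b1 ≤ b → b ≤ b2 → X ≤ ξ →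
      N = n * ξ → X ≤ n → 1 / (ξ : ℝ) ^ 2 ≤ τ → τ ≤ r * (1 / (ξ : ℝ) ^ 2) → 0 < z → 0 ≤ δ →
      1 ≤ a → a ≤ 2 → z + δ + C * (r * (n * √z)) ≤ e → e ≤ es → (n : ℝ) * e ^ 5 ≤ 1 →
      Pik N b τ 0 ≤ z * (1 / (ξ : ℝ) ^ 2) →
      (∀ k : V N, k ≠ 0 → EE k * (ξ : ℝ) ^ 2 ≤ 2 * W ^ 2 + 1 →
        Pin N b τ k ≤ δ * (1 / (ξ : ℝ) ^ 2) + a * EE k) →
      Hyp 7 W (ξ : ℝ) (GT N b ξ) z (a + C * (√e + 1 / (n : ℝ) ^ 2)) ∧
      a + C * (√e + 1 / (n : ℝ) ^ 2) ≤ 5 / 2 ∧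
      ∀ K : ℕ, X ≤ K → K ≤ n → (K : ℝ) * z ≤ c → Real.exp (-(c * K)) ≤ es →
        ∀ (N' : ℕ) [NeZero N'], K * ξ ≤ N' →
        Hyp 10 W (ξ : ℝ) (GT N' b ξ) (C * (z + Real.exp (-(c * K))))
          (a + C * (√e + 1 / (n : ℝ) ^ 2)) := by
  obtain ⟨W₀, h⟩ := rx_torus (b2 := b2) (A := 2) hb1 (by norm_num) (H352.thmA hb1 b2 _)
  refine ⟨W₀, fun W hW => ?_⟩
  obtain ⟨c, C, es, X, hc, hC, hes, hX, h⟩ := h W hW
  obtain ⟨B, hB⟩ : ∃ B : ℝ, B = 3 + 4 * W ^ 2 := ⟨_, rfl⟩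
  have hB0 : 0 ≤ B := by rw [hB]; positivity
  obtain ⟨C', es', hCC, hCB, hes'0, he1, he2, he3⟩ := rng_nums (B := B) hes hC
  have hC'0 : 0 < C' := hC.trans_le hCC
  obtain ⟨X', hX'1, hX'2⟩ : ∃ X' : ℕ, X ≤ X' ∧ 4 * C' ≤ (X' : ℝ) :=
    ⟨max X ⌈4 * C'⌉₊, le_max_left _ _, (Nat.le_ceil _).trans (by exact_mod_cast le_max_right _ _)⟩
  refine ⟨c, C', es', X', hc, hC'0, hes'0, hX.trans hX'1, ?_⟩
  intro N _ b n ξ τ r z δ a e hbb1 hbb2 hXξ hN hXn hτ hτr hz hδ ha1 ha2 hze hees hp h0 hprof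
  have hb : 0 < b := hb1.trans_le hbb1
  have hξ : 1 ≤ ξ := by omega
  have hξ' : (0 : ℝ) < ξ := by exact_mod_cast hξ
  have ht : (0 : ℝ) < 1 / (ξ : ℝ) ^ 2 := by positivity
  have hr1 : 1 ≤ r := by
    have h1 : 1 * (1 / (ξ : ℝ) ^ 2) ≤ r * (1 / (ξ : ℝ) ^ 2) := by linarith
    exact le_of_mul_le_mul_right h1 ht
  have hn1 : (1 : ℝ) ≤ n := by
    have : 1 ≤ n := by omega
    exact_mod_cast this
  have hnz : 0 ≤ (n : ℝ) * √z := by positivity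
  obtain ⟨q1, q2, q3, q4, q5⟩ := rng_app hB0 hCB he2 hz hδ hr1 hnz (hze.trans hees)
  have hcr := hyp_crude hb hξ hN hτ hτr hz.le hδ q4 ha1 ha2 hB q2 q3 h0 hprof
  have hQ : Hyp 7 W (ξ : ℝ) (GT N b ξ) e a :=
    hcr.mono (by norm_num : (0 : ℝ) ≤ 7) le_rfl hξ'.le (q1.trans hze) le_rfl
  obtain ⟨g1, g2⟩ := h N b n ξ z e a hbb1 hbb2 (hX'1.trans hXξ) hN (hX'1.trans hXn) hz
    (q5.trans hze) (hees.trans he1) (by linarith) ha2 hp (sus_low hb hξ hτ hz.le h0) hQ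
  have hs0 : 0 ≤ √e + 1 / (n : ℝ) ^ 2 := by positivity
  refine ⟨mono_C' (by norm_num) hξ'.le hCC hs0 g1, ?_, fun K hXK hKn hKz hKe N' _ hKN' => ?_⟩
  · have k1 : C' * √e ≤ 1 / 4 :=
      (mul_le_mul_of_nonneg_left (Real.sqrt_le_sqrt hees) hC'0.le).trans he3
    have k2 : C' * (1 / (n : ℝ) ^ 2) ≤ 1 / 4 := by
      rw [mul_one_div, div_le_div_iff₀ (by positivity) (by norm_num)]
      have k3 : 4 * C' ≤ n := hX'2.trans (by exact_mod_cast hXn)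
      nlinarith
    rw [mul_add]
    linarith
  · have hy0 : 0 ≤ z + Real.exp (-(c * K)) := by positivity
    exact mono_C (by norm_num) hξ'.le hCC hs0 hy0
      (g2 K (hX'1.trans hXK) hKn hKz (hKe.trans he1) N' hKN')

end Vale.Agent.P159.H37
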