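import Vale.Agent.P159.H37.Rxd

/-!
P159 (helper37), module RNGX, part e: the literal `Spec.Rng` on every torus of a family.

`rng_family`: the hypotheses of `rng_all` on ONE torus `N = n ξ`; then for every `K`, `X ≤ K ≤ n`,
`K z ≤ c`, and every `y ≥ C (z + e^{-cK})`: `Rng b1 b2 (5/2) W ys X₀ N' b ξ y` on EVERY torus
`N' ≥ K ξ`, `ξ ∣ N'`, for arbitrary consumer thresholds `ys, X₀` (`y ≤ ys`, `X₀ ≤ ξ`,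
`X₀ ξ ≤ N'`).
-/

set_option linter.unusedSectionVars false

namespace Vale.Agent.P159.H37

open Vale.Agent.P159.TM
open Vale.Agent.P159.TM.Spec (V GT Rng ThmA)
open Vale.Agent.P159.TM.H764 (EE Gh pw Hyp)
open Vale.Agent.P159.H963 (Gnh Pin)

/-- the input of `rng_family` : one torus, one real mass -/
structure Prof (N : ℕ) [NeZero N] (b : ℝ) (n ξ : ℕ) (W τ r z δ a : ℝ) : Prop where
  hN : N = n * ξ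
  τ1 : 1 / (ξ : ℝ) ^ 2 ≤ τ
  τ2 : τ ≤ r * (1 / (ξ : ℝ) ^ 2)
  z0 : 0 < z
  δ0 : 0 ≤ δ
  a1 : 1 ≤ a
  a2 : a ≤ 2
  zero : Pik N b τ 0 ≤ z * (1 / (ξ : ℝ) ^ 2)
  prof : ∀ k : V N, k ≠ 0 → EE k * (ξ : ℝ) ^ 2 ≤ 2 * W ^ 2 + 1 →
    Pin N b τ k ≤ δ * (1 / (ξ : ℝ) ^ 2) + a * EE k

/-- **the literal `Rng` on every torus** -/
theorem rng_family {b1 : ℝ} (hb1 : 0 < b1) (b2 : ℝ) :
    ∃ W₀ : ℝ, ∀ W : ℝ, W₀ ≤ W → ∃ (c C es : ℝ) (X : ℕ), 0 < c ∧ 0 < C ∧ 0 < es ∧ 8 ≤ X ∧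
    ∀ (N : ℕ) [NeZero N] (b : ℝ) (n ξ : ℕ) (τ r z δ a e : ℝ), b1 ≤ b → b ≤ b2 → X ≤ ξ →
      X ≤ n → Prof N b n ξ W τ r z δ a →
      z + δ + C * (r * (n * √z)) ≤ e → e ≤ es → (n : ℝ) * e ^ 5 ≤ 1 →
      ∀ K : ℕ, X ≤ K → K ≤ n → (K : ℝ) * z ≤ c → Real.exp (-(c * K)) ≤ es →
        ∀ y : ℝ, C * (z + Real.exp (-(c * K))) ≤ y →
        ∀ (N' : ℕ) [NeZero N'] (ys : ℝ) (X₀ : ℕ), K * ξ ≤ N' → ξ ∣ N' → y ≤ ys → X₀ ≤ ξ →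
          X₀ * ξ ≤ N' → Rng b1 b2 (5 / 2) W ys X₀ N' b ξ y := by
  obtain ⟨W₀, h⟩ := rng_all hb1 b2
  refine ⟨W₀, fun W hW => ?_⟩
  obtain ⟨c, C, es, X, hc, hC, hes, hX, h⟩ := h W hW
  refine ⟨c, C, es, X, hc, hC, hes, hX, ?_⟩
  intro N _ b n ξ τ r z δ a e hbb1 hbb2 hXξ hXn hP hze hees hp K hXK hKn hKz hKe y hy N' _ ys X₀
    hKN' hdv hys hX₀ hX₀N
  obtain ⟨-, g2, g3⟩ := h N b n ξ τ r z δ a e hbb1 hbb2 hXξ hP.hN hXn hP.τ1 hP.τ2 hP.z0 hP.δ0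
    hP.a1 hP.a2 hze hees hp hP.zero hP.prof
  have hz := hP.z0
  exact ⟨hbb1, hbb2, hX₀, hX₀N, hdv, le_trans (by positivity) hy, hys,
    (g3 K hXK hKn hKz hKe N' hKN').mono (by norm_num : (0 : ℝ) ≤ 10) le_rfl (Nat.cast_nonneg _)
      hy g2⟩

end Vale.Agent.P159.H37
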