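import Vale.Agent.P159.H773.Sk4
import Vale.Agent.P159.H801.SFlow

/-!
P159 (helper37), final glue of S, part 1: the numbers of one level of the chain (`Sml`, contraction)
from bounds in powers of `y`.
-/

open Filter Topology Finset

namespace Vale.Agent.P159.H37.Sf

open Vale.Agent.P159.H686 (Sml al)

/-- the numbers of one level of S, in powers of `y` -/
structure NumS (y c3 c4 δ q b Λ h τ η κP bW : ℝ) : Prop where
  δ0 : 0 ≤ δ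
  δ1 : δ ≤ y ^ (1 + c4)
  q0 : 0 ≤ q
  q1 : q ≤ Real.exp (-y ^ (-c3))
  b0 : 0 ≤ b
  b1 : b ≤ Real.exp (-y ^ (-c3))
  Λ1 : 1 ≤ Λ
  Λ2 : Λ ≤ Real.exp (y ^ (-c3) / 8)
  h0 : 0 ≤ h
  h1 : h ≤ 1 / 40
  τ0 : 0 ≤ τ
  τ1 : τ ≤ Real.exp (-y ^ (-c3))
  η0 : 0 ≤ η
  η1 : η ≤ 1 / 500
  κ0 : 0 ≤ κP
  κ1 : κP ≤ 1 / 30
  W0 : 0 ≤ bW
  W1 : bW ≤ Real.exp (-y ^ (-c3))

lemma NumS.zero (y c3 c4 : ℝ) (hy : 0 < y) : NumS y c3 c4 0 0 0 1 0 0 0 0 0 where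
  δ0 := le_rfl
  δ1 := Real.rpow_nonneg hy.le _
  q0 := le_rfl
  q1 := (Real.exp_pos _).le
  b0 := le_rfl
  b1 := (Real.exp_pos _).le
  Λ1 := le_rfl
  Λ2 := Real.one_le_exp (by have := Real.rpow_nonneg hy.le (-c3); positivity)
  h0 := le_rfl
  h1 := by norm_num
  τ0 := le_rfl
  τ1 := (Real.exp_pos _).le
  η0 := le_rfl
  η1 := by norm_num
  κ0 := le_rfl
  κ1 := by norm_num
  W0 := le_rfl
  W1 := (Real.exp_pos _).le

/-- `exp (-(3/16) y^(-c3))` is smaller than every power of `y` -/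
lemma exp_small {c3 c' : ℝ} (h3 : 0 < c3) (hc' : 0 < c') : ∃ y0 : ℝ, 0 < y0 ∧ ∀ y, 0 < y → y ≤ y0 →
    Real.exp (-(3 / 16) * y ^ (-c3)) ≤ y ^ (1 + c') / 1000 := by
  have h1 := tendsto_rpow_mul_exp_neg_mul_atTop_nhds_zero ((1 + c') / c3) (3 / 16) (by norm_num)
  have h2 : ∀ᶠ Z : ℝ in atTop, Z ^ ((1 + c') / c3) * Real.exp (-(3 / 16) * Z) ≤ 1 / 1000 :=
    h1.eventually (ge_mem_nhds (by norm_num))
  obtain ⟨Z0, hZ0⟩ := eventually_atTop.1 (h2.and (eventually_gt_atTop 0))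
  have hZp : 0 < Z0 := (hZ0 Z0 le_rfl).2
  refine ⟨Z0 ^ (-1 / c3), Real.rpow_pos_of_pos hZp _, fun y hy hy0 => ?_⟩
  have hZ : Z0 ≤ y ^ (-c3) := by
    have h4 : (Z0 ^ (-1 / c3)) ^ (-c3) = Z0 := by
      rw [← Real.rpow_mul hZp.le]
      have : -1 / c3 * -c3 = 1 := by field_simp
      rw [this, Real.rpow_one]
    rw [← h4]
    exact Real.rpow_le_rpow_of_nonpos hy hy0 (by linarith)
  have h5 := (hZ0 _ hZ).1
  have h6 : (y ^ (-c3)) ^ ((1 + c') / c3) = (y ^ (1 + c'))⁻¹ := by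
    rw [← Real.rpow_mul hy.le, ← Real.rpow_neg hy.le]
    congr 1
    field_simp
  have h7 : 0 < y ^ (1 + c') := Real.rpow_pos_of_pos hy _
  rw [h6, inv_mul_le_iff₀ h7] at h5
  linarith

lemma pow_small {s e : ℝ} (hs : 0 < s) (he : 0 < e) : ∃ y0 : ℝ, 0 < y0 ∧ ∀ y, 0 < y → y ≤ y0 →
    y ^ s ≤ e := by
  refine ⟨e ^ (1 / s), Real.rpow_pos_of_pos he _, fun y hy hy0 => ?_⟩
  calc y ^ s ≤ (e ^ (1 / s)) ^ s := Real.rpow_le_rpow hy.le hy0 hs.le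
    _ = e := by
      rw [← Real.rpow_mul he.le]
      have : 1 / s * s = 1 := by field_simp
      rw [this, Real.rpow_one]

/-- `y'^(-c3)` is between `Z/2` and `2 Z` -/
lemma z_cmp {c3 y y' : ℝ} (h3 : 0 < c3) (hy : 0 < y) (hy' : 0 < y')
    (h : |Real.log y' - Real.log y| ≤ Real.log 2 / c3) :
    y' ^ (-c3) ≤ 2 * y ^ (-c3) ∧ y ^ (-c3) / 2 ≤ y' ^ (-c3) := by
  have h1 := abs_le.1 h
  have h2 : c3 * (Real.log 2 / c3) = Real.log 2 := by field_simp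
  have key : ∀ u v : ℝ, 0 < u → 0 < v → Real.log u - Real.log v ≤ Real.log 2 / c3 →
      v ^ (-c3) ≤ 2 * u ^ (-c3) := by
    intro u v hu hv huv
    rw [Real.rpow_def_of_pos hu, Real.rpow_def_of_pos hv]
    have h4 : (2 : ℝ) = Real.exp (Real.log 2) := (Real.exp_log two_pos).symm
    rw [h4, ← Real.exp_add]
    apply Real.exp_le_exp.2
    have h5 := mul_le_mul_of_nonneg_left huv h3.le
    rw [h2] at h5
    linarith
  constructor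
  · exact key y y' hy hy' (by linarith)
  · have := key y' y hy' hy (by linarith)
    linarith

/-- the four products of two small numbers -/
lemma exp_E (Z : ℝ) : Real.exp (-(3 / 16) * Z) ^ 2 = Real.exp (-(3 / 8) * Z) := by
  rw [← Real.exp_nat_mul]
  congr 1
  push_cast
  ring

lemma num_s {Z q b Λ : ℝ} (hZ : 0 < Z) (hq : q ≤ Real.exp (-Z)) (hb0 : 0 ≤ b)
    (hb : b ≤ Real.exp (-Z)) (hΛ : Λ ≤ Real.exp (Z / 8)) :
    q + 2 * Λ * b ≤ 3 * Real.exp (-(7 / 8) * Z) := by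
  have a1 : Λ * b ≤ Real.exp (Z / 8) * Real.exp (-Z) :=
    mul_le_mul hΛ hb hb0 (Real.exp_pos _).le
  have a2 : Real.exp (Z / 8) * Real.exp (-Z) = Real.exp (-(7 / 8) * Z) := by
    rw [← Real.exp_add]
    congr 1
    ring
  have a3 : q ≤ Real.exp (-(7 / 8) * Z) := hq.trans (Real.exp_le_exp.2 (by linarith))
  rw [a2] at a1
  linarith

lemma num_qL {Z ε E s Λ : ℝ} (hE0 : 0 < E) (hEE : E ^ 2 ≤ ε ^ 2 / 100) (hε1 : ε ^ 2 ≤ 1)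
    (hE : Real.exp (-(3 / 8) * Z) = E ^ 2) (hs0 : 0 ≤ s) (hε0 : 0 < ε)
    (hs : s ≤ 3 * Real.exp (-(7 / 8) * Z)) (hΛ : Λ ≤ Real.exp (Z / 8)) :
    √(2 * (2 * Λ) * s) ≤ ε := by
  refine Real.sqrt_le_iff.2 ⟨hε0.le, ?_⟩
  have a1 : 2 * (2 * Λ) * s ≤ 2 * (2 * Real.exp (Z / 8)) * (3 * Real.exp (-(7 / 8) * Z)) :=
    mul_le_mul (by linarith) hs hs0 (by positivity)
  have a2 : 2 * (2 * Real.exp (Z / 8)) * (3 * Real.exp (-(7 / 8) * Z)) =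
      12 * Real.exp (-(3 / 4) * Z) := by
    have : Real.exp (-(3 / 4) * Z) = Real.exp (Z / 8) * Real.exp (-(7 / 8) * Z) := by
      rw [← Real.exp_add]
      congr 1
      ring
    rw [this]
    ring
  have a3 : Real.exp (-(3 / 4) * Z) = E ^ 2 * E ^ 2 := by
    rw [← hE, ← Real.exp_add]
    congr 1
    ring
  rw [a2, a3] at a1
  have a4 : E ^ 2 * E ^ 2 ≤ (ε ^ 2 / 100) * (ε ^ 2 / 100) :=
    mul_le_mul hEE hEE (by positivity) (by positivity)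
  have a5 : ε ^ 2 * ε ^ 2 ≤ ε ^ 2 * 1 := mul_le_mul_of_nonneg_left hε1 (by positivity)
  have a6 : 0 ≤ ε ^ 2 := by positivity
  linarith

lemma sqrt_exp {Z τ : ℝ} (h : τ ≤ Real.exp (-Z)) : √τ ≤ Real.exp (-Z / 2) := by
  refine Real.sqrt_le_iff.2 ⟨(Real.exp_pos _).le, ?_⟩
  rw [← Real.exp_nat_mul]
  refine h.trans (Real.exp_le_exp.2 ?_)
  push_cast
  linarith

lemma num_τ {Z τ Λ : ℝ} (h : τ ≤ Real.exp (-Z)) (hΛ0 : 0 ≤ Λ) (hΛ : Λ ≤ Real.exp (Z / 8)) :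
    √τ * Λ ≤ Real.exp (-(3 / 8) * Z) := by
  calc √τ * Λ ≤ Real.exp (-Z / 2) * Real.exp (Z / 8) :=
        mul_le_mul (sqrt_exp h) hΛ hΛ0 (Real.exp_pos _).le
    _ = Real.exp (-(3 / 8) * Z) := by
        rw [← Real.exp_add]
        congr 1
        ring

lemma num_W {Z bW Λ η : ℝ} (h : bW ≤ Real.exp (-Z)) (hΛ0 : 0 ≤ Λ) (hΛ : Λ ≤ Real.exp (Z / 8))
    (hη : η ≤ 1 / 500) :
    (4 + 2 * η) * (2 * Λ) * √bW ≤ 10 * Real.exp (-(3 / 8) * Z) := by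
  have a1 := num_τ h hΛ0 hΛ
  have a2 : 0 ≤ √bW * Λ := by positivity
  have a3 : (4 + 2 * η) * (√bW * Λ) ≤ 5 * (√bW * Λ) :=
    mul_le_mul_of_nonneg_right (by linarith) a2
  calc (4 + 2 * η) * (2 * Λ) * √bW = 2 * ((4 + 2 * η) * (√bW * Λ)) := by ring
    _ ≤ 2 * (5 * (√bW * Λ)) := by linarith
    _ ≤ 10 * Real.exp (-(3 / 8) * Z) := by linarith

lemma num_nxt {Z Z' ε E s Λ' b' : ℝ} (hZ : 0 < Z) (z1 : Z' ≤ 2 * Z) (z2 : Z / 2 ≤ Z')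
    (hEE : E ^ 2 ≤ ε ^ 2 / 100) (hE : Real.exp (-(3 / 8) * Z) = E ^ 2) (hs0 : 0 ≤ s)
    (hε0 : 0 < ε) (hs : s ≤ 3 * Real.exp (-(7 / 8) * Z)) (hΛ0 : 0 ≤ Λ')
    (hΛ : Λ' ≤ Real.exp (Z' / 8)) (hb0 : 0 ≤ b') (hb : b' ≤ Real.exp (-Z')) :
    √(2 * Λ' * s + Λ' ^ 2 * b') ≤ ε := by
  refine Real.sqrt_le_iff.2 ⟨hε0.le, ?_⟩
  have ex : ∀ u : ℝ, u ≤ -(3 / 8) * Z → Real.exp u ≤ E ^ 2 := fun u hu => by
    rw [← hE]
    exact Real.exp_le_exp.2 hu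
  have a0 : Λ' ≤ Real.exp (Z / 4) := hΛ.trans (Real.exp_le_exp.2 (by linarith))
  have a1 : 2 * Λ' * s ≤ 2 * Real.exp (Z / 4) * (3 * Real.exp (-(7 / 8) * Z)) :=
    mul_le_mul (by linarith) hs hs0 (by positivity)
  have a2 : 2 * Real.exp (Z / 4) * (3 * Real.exp (-(7 / 8) * Z)) =
      6 * Real.exp (-(5 / 8) * Z) := by
    have : Real.exp (-(5 / 8) * Z) = Real.exp (Z / 4) * Real.exp (-(7 / 8) * Z) := by
      rw [← Real.exp_add]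
      congr 1
      ring
    rw [this]
    ring
  have a3 := ex (-(5 / 8) * Z) (by linarith)
  have a4 : Λ' ^ 2 * b' ≤ Real.exp (Z' / 8) ^ 2 * Real.exp (-Z') :=
    mul_le_mul (pow_le_pow_left₀ hΛ0 hΛ 2) hb hb0 (by positivity)
  have a5 : Real.exp (Z' / 8) ^ 2 * Real.exp (-Z') = Real.exp (-(3 / 4) * Z') := by
    rw [← Real.exp_nat_mul, ← Real.exp_add]
    congr 1
    push_cast
    ring
  have a6 := ex (-(3 / 4) * Z') (by linarith)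
  rw [a2] at a1
  rw [a5] at a4
  have a7 : 0 ≤ ε ^ 2 := by positivity
  linarith

lemma num_al {κP η : ℝ} (h0 : 0 ≤ κP) (h1 : κP ≤ 1 / 30) (h2 : 0 ≤ η) (h3 : η ≤ 1 / 500) :
    al κP η ≤ 1001 / 1000 * (1 / 30 + 1 / 250) := by
  have a1 : √(1 + η) ≤ 1001 / 1000 := by
    refine Real.sqrt_le_iff.2 ⟨by norm_num, ?_⟩
    norm_num
    linarith
  have a2 : κP + 2 * η ≤ 1 / 30 + 1 / 250 := by linarith
  exact mul_le_mul a1 a2 (by linarith) (by norm_num)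

/-- **the numbers of 686 from `NumS`** -/
theorem sml_of {c3 c4 c' : ℝ} (h3 : 0 < c3) (hc' : 0 < c') (h4 : c' < c4) :
    ∃ y0 : ℝ, 0 < y0 ∧ y0 ≤ 1 ∧ ∀ (y y' δ q b Λ h τ η κP bW Λ' b' : ℝ), 0 < y → y ≤ y0 → 0 < y' →
      |Real.log y' - Real.log y| ≤ Real.log 2 / c3 → NumS y c3 c4 δ q b Λ h τ η κP bW →
      1 ≤ Λ' → Λ' ≤ Real.exp (y' ^ (-c3) / 8) → 0 ≤ b' → b' ≤ Real.exp (-y' ^ (-c3)) →
      Sml (y ^ (1 + c') / 100) δ q b Λ h τ η κP bW Λ' b' ∧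
        5 * al κP η + 4 * (y ^ (1 + c') / 100) ≤ 1 / 4 := by
  obtain ⟨y1, hy1, hE⟩ := exp_small h3 hc'
  obtain ⟨y2, hy2, hP⟩ := pow_small (s := c4 - c') (e := 1 / 100) (by linarith) (by norm_num)
  refine ⟨min (min y1 y2) 1, by positivity, min_le_right _ _, ?_⟩
  intro y y' δ q b Λ h τ η κP bW Λ' b' hy hyy hy' hlog H hΛ1 hΛ2 hb0 hb1
  have g1 : y ≤ y1 := hyy.trans ((min_le_left _ _).trans (min_le_left _ _))
  have g2 : y ≤ y2 := hyy.trans ((min_le_left _ _).trans (min_le_right _ _))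
  have g3 : y ≤ 1 := hyy.trans (min_le_right _ _)
  have hZ0 : 0 < y ^ (-c3) := Real.rpow_pos_of_pos hy _
  obtain ⟨z1, z2⟩ := z_cmp h3 hy hy' hlog
  have hyp : 0 < y ^ (1 + c') := Real.rpow_pos_of_pos hy _
  have hyp1 : y ^ (1 + c') ≤ 1 := Real.rpow_le_one hy.le g3 (by linarith)
  have hδ : y ^ (1 + c4) ≤ y ^ (1 + c') / 100 := by
    have e1 : y ^ (1 + c4) = y ^ (c4 - c') * y ^ (1 + c') := by
      rw [← Real.rpow_add hy]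
      congr 1
      ring
    rw [e1]
    have := mul_le_mul_of_nonneg_right (hP y hy g2) hyp.le
    linarith
  have hE' := hE y hy g1
  have hE2 := (exp_E (y ^ (-c3))).symm
  have hE0 : 0 < Real.exp (-(3 / 16) * y ^ (-c3)) := Real.exp_pos _
  generalize Real.exp (-(3 / 16) * y ^ (-c3)) = E at hE' hE2 hE0
  obtain ⟨ε, hε⟩ : ∃ ε, ε = y ^ (1 + c') / 100 := ⟨_, rfl⟩
  have hε0 : 0 < ε := by rw [hε]; positivity
  have hε1 : ε ≤ 1 / 100 := by rw [hε]; linarith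
  have hEε : E ≤ ε / 10 := by rw [hε]; linarith
  have hEE : E ^ 2 ≤ ε ^ 2 / 100 := by
    have := pow_le_pow_left₀ hE0.le hEε 2
    calc E ^ 2 ≤ (ε / 10) ^ 2 := this
      _ = ε ^ 2 / 100 := by ring
  have hεε : ε ^ 2 ≤ ε / 100 := by nlinarith
  have hε2 : ε ^ 2 ≤ 1 := by linarith
  have hEs : E ^ 2 ≤ ε / 10000 := by linarith
  have hs := num_s hZ0 H.q1 H.b0 H.b1 H.Λ2
  have hΛ0 : 0 ≤ Λ := by linarith [H.Λ1]
  have hΛ'0 : 0 ≤ Λ' := by linarith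
  have hs0 : 0 ≤ q + 2 * Λ * b := by
    have := H.q0
    have := H.b0
    positivity
  have hsE : q + 2 * Λ * b ≤ 3 * E ^ 2 := by
    have : Real.exp (-(7 / 8) * y ^ (-c3)) ≤ E ^ 2 := by
      rw [← hE2]
      exact Real.exp_le_exp.2 (by linarith)
    linarith
  rw [← hε] at hδ ⊢
  have hτ := num_τ H.τ1 hΛ0 H.Λ2
  have hW := num_W H.W1 hΛ0 H.Λ2 H.η1
  rw [hE2] at hτ hW
  have hal := num_al H.κ0 H.κ1 H.η0 H.η1
  have hτ1 : τ ≤ 1 := H.τ1.trans (Real.exp_le_one_iff.2 (by linarith))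
  refine ⟨⟨hε1, H.δ0, H.δ1.trans hδ, H.q0, H.b0, H.Λ1, hΛ1, by linarith, ?_, H.h0, H.h1, H.τ0,
    hτ1, by linarith, H.η0, H.κ0, by linarith, ?_⟩, by linarith⟩
  · exact num_qL hE0 hEE hε2 hE2 hs0 hε0 hs H.Λ2
  · exact num_nxt hZ0 z1 z2 hEE hE2 hs0 hε0 hs hΛ'0 hΛ2 hb0 hb1

end Vale.Agent.P159.H37.Sf
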