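import Vale.Agent.P159.H37.Sf1
import Vale.Agent.P159.H686.LvS

/-!
P159 (helper37), final glue of S, part 2: **the amplitude theorem from one statement per level**.
The level may use the relation for all pairs of the windows below and the slopes of the two point
function; all numbers of the chain (`Sml`, `Sma`, `slow`, contraction) are supplied here.
-/

open Filter Topology Finset

set_option linter.all false

namespace Vale.Agent.P159.H37.Sf

open Vale.Agent.P159.TM.Spec (V)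
open Vale.Agent.P159.H552.Dx7 (kk nx invS)
open Vale.Agent.P159.H801 (itw T3 Fl Wn itw_succ itw_zero itw_ge itw_tend rp_cmp)
open Vale.Agent.P159.H264 (kap)
open Vale.Agent.P159.H686 (Sml al LvlW)
open Vale.Agent.P159.H708 (Bx)
open Vale.Agent.P159.H770 (wTD Ed)
open Vale.Agent.P159.H817 (eD)
open Vale.Agent.P159.H27 (Rb BelR Slo Rb_pos)
open Vale.Agent.P159.H773 (sd de ej Pth Sma Blw cMn cMn_pt cT0)
open Vale.Agent.P159.H972 (tn)

noncomputable section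

/-- log of the two point function of the distance `R` on the torus of ratio `2^i` -/
def Lc (b : ℝ) (i R : ℕ) : ℝ := Real.log (cT0 (sd i R - 2) b R)

/-- the constant of the slopes: independent of the level, of the start and of the ratio -/
def Dsl : ℝ := Real.pi * de 1 + 3 * (1 / 2)

/-- **what the level `j` may assume**: the relation of all windows below (errors `≤ 1/2`) and the
lower slopes with exponent `β` -/
structure Kn (b β : ℝ) (i : ℕ) (a : ℕ → ℝ) (k w : ℕ → ℕ) (n0 j : ℕ) : Prop where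
  rel : BelR (Lc b i) (fun R => eD (sd i R) R) a k w n0 (fun _ => 1 / 2) j
  slope : ∀ r R : ℕ, Rb k w n0 0 ≤ r → r ≤ R → R ≤ Rb k w n0 j →
    -(β * (Real.log R - Real.log r)) - Dsl ≤ Lc b i R - Lc b i r
  slo : ∃ κ, Slo (fun R => eD (sd i R) R) a (fun _ => 1 / 2) k w n0 κ (de 1) β (1 / 2)

/-- **the output of one level** `n` (next level `n'`), distances `R0 ≤ R ≤ R1`, any windows `W R` -/
def LvOut (b : ℝ) (i : ℕ) (η : ∀ R, Ed (sd i R) → ℤ) (φ : ∀ R, V (sd i R) → ℝ)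
    (c3 c4 y a : ℝ) (n n' R0 R1 : ℕ) : Prop :=
  ∃ (D : ℕ) (W : ∀ R, (V (sd i R) → ℝ) → Bx D ⊕ Bx D → ℝ) (G : (Bx D ⊕ Bx D → ℝ) → ℝ)
    (δ q bb Λ h τ ηn κP bW : ℝ),
    NumS y c3 c4 δ q bb Λ h τ ηn κP bW ∧
    LvlW b (sd i) (fun R => wTD (sd i R) b (η R)) φ (fun R => eD (sd i R) R) (tn n) (tn n') a
      R0 R1 D W G δ q bb Λ h τ ηn κP bW

lemma tn_pos (n : ℕ) : 0 < tn n := by unfold tn; positivity

/-- the data of a level, chosen once for all -/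
lemma lv_choice {b : ℝ} {i : ℕ} {η : ∀ R, Ed (sd i R) → ℤ} {φ : ∀ R, V (sd i R) → ℝ}
    {c3 c4 y a : ℝ} {n n' R0 R1 : ℕ} (hy : 0 < y) :
    ∃ (D : ℕ) (W : ∀ R, (V (sd i R) → ℝ) → Bx D ⊕ Bx D → ℝ) (G : (Bx D ⊕ Bx D → ℝ) → ℝ)
      (δ q bb Λ h τ ηn κP bW : ℝ),
      NumS y c3 c4 δ q bb Λ h τ ηn κP bW ∧ (LvOut b i η φ c3 c4 y a n n' R0 R1 →
      LvlW b (sd i) (fun R => wTD (sd i R) b (η R)) φ (fun R => eD (sd i R) R) (tn n) (tn n') a
        R0 R1 D W G δ q bb Λ h τ ηn κP bW) := by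
  classical
  by_cases H : LvOut b i η φ c3 c4 y a n n' R0 R1
  · obtain ⟨D, W, G, δ, q, bb, Λ, h, τ, ηn, κP, bW, h1, h2⟩ := H
    exact ⟨D, W, G, δ, q, bb, Λ, h, τ, ηn, κP, bW, h1, fun _ => h2⟩
  · exact ⟨0, fun _ _ _ => 0, fun _ => 0, 0, 0, 0, 1, 0, 0, 0, 0, 0, NumS.zero y c3 c4 hy,
      fun h => absurd h H⟩

/-- the error of the relation is at most `1/2` -/
lemma ej_half {ε h Λ : ℕ → ℝ} (h1 : ∀ j, ε j ≤ 1 / 100) (hh0 : ∀ j, 0 ≤ h j)
    (hh : ∀ j, h j ≤ 1 / 40) (j : ℕ) : ej ε h Λ j ≤ 1 / 2 := by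
  unfold ej
  have g1 : h j * min ((1 / 4) ^ j * Λ 0 + 184 * ε j) 3 ≤ h j * 3 :=
    mul_le_mul_of_nonneg_left (min_le_right _ _) (hh0 j)
  have g2 := h1 j
  have g3 := hh j
  linarith

lemma de_mono {i : ℕ} (hi : 1 ≤ i) : de i ≤ de 1 := by
  unfold de
  have h1 : (1 / 2 : ℝ) ^ i ≤ (1 / 2) ^ 1 := pow_le_pow_of_le_one (by norm_num) (by norm_num) hi
  have h2 : √((1 / 2 : ℝ) ^ i) ≤ √((1 / 2 : ℝ) ^ 1) := Real.sqrt_le_sqrt h1
  have h3 : ((1 / 2 : ℝ) ^ i) ^ 2 ≤ ((1 / 2 : ℝ) ^ 1) ^ 2 := pow_le_pow_left₀ (by positivity) h1 2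
  linarith

lemma de1_nonneg : 0 ≤ de 1 := by unfold de; positivity

/-- the relation in the letters of `Lc` -/
lemma belR_Lc {b : ℝ} (hb : 0 ≤ b) {i : ℕ} (hi : 1 ≤ i) {η : ∀ R, Ed (sd i R) → ℤ} (hη : Pth i η)
    {e a : ℕ → ℝ} {k w : ℕ → ℕ} {n0 j : ℕ} {F F' : ℕ → ℝ} (hF : ∀ j, F j ≤ F' j)
    (h : Blw b (sd i) (fun R => wTD (sd i R) b (η R)) e a k w n0 F j) :
    BelR (Lc b i) e a k w n0 F' j := by
  intro m hm R h1 h2
  have h3 := h m hm R h1 h2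
  have hR : 1 ≤ R := (Rb_pos k w n0 m).trans_le h1
  have hR0 : 1 ≤ Rb k w n0 m := Rb_pos k w n0 m
  simp only [cMn_pt hb hi hη hR, cMn_pt hb hi hη hR0] at h3
  exact h3.trans (hF m)

/-- numbers of the slopes -/
lemma slo_of {i : ℕ} {κ β : ℝ} {a : ℕ → ℝ} {k w : ℕ → ℕ} {n0 : ℕ} (hβ : 1 / 4 < β)
    (hw1 : ∀ n, n0 ≤ n → 1 ≤ w n)
    (ha : ∀ n, n0 ≤ n → 0 ≤ a n ∧ a n ≤ Real.pi / 2)
    (hk : ∀ n, n0 ≤ n → k n ≤ 1 + k (n + w n))
    (hwin : ∀ n, n0 ≤ n → Real.pi / 2 * de 1 + 1 / 2 ≤ (β - 1 / 4) * (((w n : ℝ) - 1) * Real.log 2))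
    (he : ∀ R : ℕ, Rb k w n0 0 ≤ R →
      |eD (sd i R) R - 1 / Real.pi * Real.log R - κ| ≤ de 1) :
    Slo (fun R => eD (sd i R) R) a (fun _ => 1 / 2) k w n0 κ (de 1) β (1 / 2) where
  mon := fun j => by
    have h1 := itw_ge (N := n0) hw1 le_rfl j
    have h2 := hk (itw w n0 j) (by omega)
    have h3 := hw1 (itw w n0 j) (by omega)
    unfold Rb
    refine Nat.pow_le_pow_right (by norm_num) ?_
    unfold kk
    rw [itw_succ]
    omega
  a0 := fun j => (ha _ (by have := itw_ge (N := n0) hw1 le_rfl j; omega)).1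
  a1 := fun j => (ha _ (by have := itw_ge (N := n0) hw1 le_rfl j; omega)).2
  en := he
  β0 := hβ.le
  F0 := fun j => le_rfl
  win := fun j => by
    have h1 := itw_ge (N := n0) hw1 le_rfl j
    have h2 := hk (itw w n0 j) (by omega)
    have h4 := hwin (itw w n0 j) (by omega)
    refine h4.trans (mul_le_mul_of_nonneg_left ?_ (by linarith))
    have e1 : ∀ m, Real.log (Rb k w n0 m) = (kk k (itw w n0 m) : ℝ) * Real.log 2 := fun m => by
      unfold Rb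
      push_cast
      rw [Real.log_pow]
    rw [e1, e1, ← sub_mul]
    refine mul_le_mul_of_nonneg_right ?_ (Real.log_pos one_lt_two).le
    unfold kk
    rw [itw_succ]
    have h5 : (k (itw w n0 j) : ℝ) ≤ 1 + k (itw w n0 j + w (itw w n0 j)) := by exact_mod_cast h2
    push_cast
    linarith

/-- `y` along the chain decreases at most like `2^(-j)` -/
lemma y_chain {y : ℕ → ℝ} {w : ℕ → ℕ} {n0 : ℕ} {s : ℝ} (hy : ∀ n, 0 < y n) (hs : 0 < s)
    (hw1 : ∀ n, n0 ≤ n → 1 ≤ w n)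
    (hv : ∀ n, n0 ≤ n → |Real.log (y (n + w n)) - Real.log (y n)| ≤ Real.log 2 / s) (j : ℕ) :
    y (itw w n0 j) ^ s ≤ 2 * y (itw w n0 (j + 1)) ^ s ∧
      (1 / 2) ^ j * y n0 ^ s ≤ y (itw w n0 j) ^ s := by
  have key : ∀ j, y (itw w n0 j) ^ s ≤ 2 * y (itw w n0 (j + 1)) ^ s := by
    intro j
    have h1 := hv (itw w n0 j) (by have := itw_ge (N := n0) hw1 le_rfl j; omega)
    rw [itw_succ]
    have h2 := rp_cmp (hy _) (hy _) h1 hs.le
    have h3 : s * (Real.log 2 / s) = Real.log 2 := by field_simp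
    rwa [h3, Real.exp_log two_pos] at h2
  refine ⟨key j, ?_⟩
  induction j with
  | zero => simp [itw_zero]
  | succ j ih =>
    have h1 := key j
    rw [pow_succ]
    nlinarith

/-- the smallness `(1/4)^j Λ_0 ≤ y^s / 100` -/
lemma lam_small {y : ℕ → ℝ} {w : ℕ → ℕ} {n0 : ℕ} {s : ℝ} (hy0 : 0 < y n0)
    (hv : ∀ j, (1 / 2) ^ j * y n0 ^ s ≤ y (itw w n0 j) ^ s) (Λ0 : ℝ) :
    ∀ᶠ j : ℕ in atTop, (1 / 4) ^ j * Λ0 ≤ y (itw w n0 j) ^ s / 100 := by
  have h1 : Tendsto (fun j : ℕ => (1 / 2 : ℝ) ^ j * Λ0) atTop (𝓝 (0 * Λ0)) :=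
    (tendsto_pow_atTop_nhds_zero_of_lt_one (by norm_num) (by norm_num)).mul_const Λ0
  rw [zero_mul] at h1
  have h2 : 0 < y n0 ^ s / 100 := by
    have := Real.rpow_pos_of_pos hy0 s
    positivity
  filter_upwards [h1.eventually (ge_mem_nhds h2)] with j hj
  have h3 := mul_le_mul_of_nonneg_left hj (show (0 : ℝ) ≤ (1 / 2) ^ j by positivity)
  have h4 : (1 / 2 : ℝ) ^ j * ((1 / 2) ^ j * Λ0) = (1 / 4) ^ j * Λ0 := by
    rw [← mul_assoc, ← mul_pow]
    norm_num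
  rw [h4] at h3
  have h5 := hv j
  linarith

/-- **THE AMPLITUDE THEOREM FROM ONE STATEMENT PER LEVEL.** `Rc` = the property of the starting
distances (records), `Kn` = what the level may use about the levels below. -/
theorem s_glue {b : ℝ} (hb : 0 < b) {x y a : ℕ → ℝ} {c r q B A : ℝ} {w k : ℕ → ℕ} {N : ℕ}
    (hT : T3 x y kap c r q B A w N) (hw : Tendsto w atTop atTop)
    (hk1 : ∀ᶠ n in atTop, k n ≤ 1 + k (n + w n)) (hk3 : ∀ᶠ n in atTop, k (n + w n) ≤ 3 * w n)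
    (ha : ∀ᶠ n in atTop, 0 ≤ a n ∧ a n ≤ Real.pi / 2) {c5 : ℝ} (hc5 : 0 < c5)
    (hav : ∀ᶠ n in atTop, |a n - invS x n| ≤ y n ^ (1 + c5)) {c3 c4 β : ℝ} (h3 : 0 < c3)
    (h4 : 0 < c4) (hβ : 1 / 4 < β) {Rc : ℕ → Prop} {i1 : ℕ}
    (hR : ∀ n1, ∃ n0, n1 ≤ n0 ∧ Rc (Rb k w n0 0))
    (hL : ∀ i, i1 ≤ i → ∃ (η : ∀ R, Ed (sd i R) → ℤ) (φ : ∀ R, V (sd i R) → ℝ), Pth i η ∧
      ∃ N1 : ℕ, ∀ n0, N1 ≤ n0 → Rc (Rb k w n0 0) → ∀ j, Kn b β i a k w n0 j →
        LvOut b i η φ c3 c4 (y (itw w n0 j)) (a (itw w n0 j)) (itw w n0 j) (itw w n0 (j + 1))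
          (Rb k w n0 j) (Rb k w n0 (j + 1))) :
    ∃ A : ℝ, 0 < A ∧ Tendsto (fun r : ℕ => Vale.Agent.P159.corrInf b ((r : ℤ), 0) /
      ((r : ℝ) ^ (-(1 / 4) : ℝ) * Real.log r ^ (1 / 8 : ℝ))) atTop (𝓝 A) := by
  classical
  obtain ⟨κ, hκ⟩ := H773.eD_fam
  set c' : ℝ := min c4 c5 / 2 with hc'
  have hc'0 : 0 < c' := by have : 0 < min c4 c5 := lt_min h4 hc5; linarith
  have hc'4 : c' < c4 := by have := min_le_left c4 c5; linarith
  have hc'5 : c' < c5 := by have := min_le_right c4 c5; linarith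
  obtain ⟨y0, hy0, hy01, hS⟩ := sml_of h3 hc'0 hc'4
  have hy := hT.fl.y0
  -- variation of `y`
  have hη1 : 0 < Real.log 2 / c3 := div_pos (Real.log_pos one_lt_two) h3
  have hη2 : 0 < Real.log 2 / (1 + c') := div_pos (Real.log_pos one_lt_two) (by linarith)
  have hV1 := hT.fl.var hT.wn hη1
  have hV2 := hT.fl.var hT.wn hη2
  have hwin : ∀ᶠ n in atTop, Real.pi / 2 * de 1 + 1 / 2 ≤
      (β - 1 / 4) * (((w n : ℝ) - 1) * Real.log 2) := by
    have h1 : Tendsto (fun n => (β - 1 / 4) * (((w n : ℝ) - 1) * Real.log 2)) atTop atTop := by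
      refine Tendsto.const_mul_atTop (by linarith) ?_
      refine Tendsto.atTop_mul_const (Real.log_pos one_lt_two) ?_
      exact tendsto_atTop_add_const_right _ _ (tendsto_natCast_atTop_atTop.comp hw)
    exact h1.eventually_ge_atTop _
  have hys : ∀ᶠ n in atTop, y n ≤ y0 := by
    filter_upwards [hT.fl.yt.eventually (gt_mem_nhds hy0)] with n hn using hn.le
  refine H686.xy_amp_SInW hb (x := x) (y := y) (i1 := max i1 1) fun i hi => ?_
  have hi1 : 1 ≤ i := (le_max_right _ _).trans hi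
  obtain ⟨η, φ, hη, N1, hN1⟩ := hL i ((le_max_left _ _).trans hi)
  have hN : ∀ᶠ R : ℕ in atTop, (2 : ℝ) ^ i * R ≤ sd i R := Eventually.of_forall fun R => by
    exact_mod_cast H773.sd_ge i R
  obtain ⟨R1, hR1⟩ := eventually_atTop.1 (hκ i hi1 _ hN)
  obtain ⟨N2, hN2⟩ := eventually_atTop.1 ((hV1.and hV2).and ((hk1.and hk3).and
    ((ha.and hwin).and hys)))
  obtain ⟨n0, hn0, hRc⟩ := hR (max (max N N1) (max N2 R1))
  have g1 : N ≤ n0 := ((le_max_left _ _).trans (le_max_left _ _)).trans hn0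
  have g2 : N1 ≤ n0 := ((le_max_right _ _).trans (le_max_left _ _)).trans hn0
  have g3 : N2 ≤ n0 := ((le_max_left _ _).trans (le_max_right _ _)).trans hn0
  have g4 : R1 ≤ n0 := ((le_max_right _ _).trans (le_max_right _ _)).trans hn0
  have w1 : ∀ n, n0 ≤ n → 1 ≤ w n := fun n hn => hT.wn.w1 n (g1.trans hn)
  have hge : ∀ j, n0 ≤ itw w n0 j := fun j => by
    have := itw_ge (N := n0) w1 le_rfl j
    omega
  have v1 : ∀ n, n0 ≤ n → |Real.log (y (n + w n)) - Real.log (y n)| ≤ Real.log 2 / c3 :=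
    fun n hn => (hN2 n (g3.trans hn)).1.1 _ (Nat.le_add_right _ _) (by omega)
  have v2 : ∀ n, n0 ≤ n → |Real.log (y (n + w n)) - Real.log (y n)| ≤ Real.log 2 / (1 + c') :=
    fun n hn => (hN2 n (g3.trans hn)).1.2 _ (Nat.le_add_right _ _) (by omega)
  have slo : Slo (fun R => eD (sd i R) R) a (fun _ => 1 / 2) k w n0 κ (de 1) β (1 / 2) := by
    refine slo_of hβ w1 (fun n hn => (hN2 n (g3.trans hn)).2.2.1.1)
      (fun n hn => (hN2 n (g3.trans hn)).2.1.1) (fun n hn => (hN2 n (g3.trans hn)).2.2.1.2) ?_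
    intro R hR
    have h1 : R1 ≤ R := by
      refine (g4.trans ?_).trans hR
      have h2 : n0 < 2 ^ n0 := Nat.lt_two_pow_self
      have h3 : 2 ^ n0 ≤ Rb k w n0 0 := by
        unfold Rb kk
        rw [itw_zero]
        exact Nat.pow_le_pow_right (by norm_num) (Nat.le_add_right _ _)
      omega
    exact (hR1 R h1).trans (de_mono hi1)
  choose D W G δ q bb Λ h τ ηn κP bW hNum hLv using fun j : ℕ =>
    lv_choice (b := b) (i := i) (η := η) (φ := φ) (c3 := c3) (c4 := c4)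
      (y := y (itw w n0 j)) (a := a (itw w n0 j)) (n := itw w n0 j) (n' := itw w n0 (j + 1))
      (R0 := Rb k w n0 j) (R1 := Rb k w n0 (j + 1)) (hy _)
  have hyj : ∀ j, y (itw w n0 j) ≤ y0 := fun j => (hN2 _ (g3.trans (hge j))).2.2.2
  have hsm : ∀ j, Sml (y (itw w n0 j) ^ (1 + c') / 100) (δ j) (q j) (bb j) (Λ j) (h j) (τ j)
      (ηn j) (κP j) (bW j) (Λ (j + 1)) (bb (j + 1)) ∧
      5 * al (κP j) (ηn j) + 4 * (y (itw w n0 j) ^ (1 + c') / 100) ≤ 1 / 4 := fun j => by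
    refine hS (y (itw w n0 j)) (y (itw w n0 (j + 1))) _ _ _ _ _ _ _ _ _ _ _ (hy _) (hyj j)
      (hy _) ?_ (hNum j) (hNum (j + 1)).Λ1 (hNum (j + 1)).Λ2 (hNum (j + 1)).b0 (hNum (j + 1)).b1
    rw [itw_succ]
    exact v1 _ (hge j)
  have hch := y_chain (y := y) (s := 1 + c') hy (by linarith) w1 v2
  refine ⟨c, r, _, B, A, w, N, n0, a, k, c', η, φ, hT, g1, hη, ?_⟩
  refine ⟨⟨fun j => tn (itw w n0 j), D, W, G, fun j => y (itw w n0 j) ^ (1 + c') / 100, δ, q, bb, Λ,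
    h, τ, ηn, κP, bW, fun j => tn_pos _, ?_, fun j => (hsm j).1, fun j => (hsm j).2, ?_, ?_⟩,
    ?_, hc'0, ?_, ?_, ?_⟩
  · intro j hB
    refine hLv j (hN1 n0 g2 hRc j ?_)
    have hB' := belR_Lc hb.le hi1 hη
      (fun m => ej_half (fun j => (hsm j).1.ε1) (fun j => (hNum j).h0) (fun j => (hNum j).h1) m) hB
    refine ⟨hB', fun r R h1 h2 h3 => ?_, κ, slo⟩
    have := slo.slope hB' h1 h2 h3 (by norm_num)
    unfold Dsl
    exact this
  · intro j
    have := (hch j).1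
    linarith
  · exact ⟨fun j => by have := Real.rpow_pos_of_pos (hy (itw w n0 j)) (1 + c'); positivity,
      fun j => (hNum j).h0, fun j => (hNum j).h1, Eventually.of_forall fun j => le_rfl,
      lam_small (hy n0) (fun j => (hch j).2) _⟩
  · exact fun R => H883.bw_wTD hb _
  · exact slo.mon
  · exact Eventually.of_forall fun j => (hN2 _ (g3.trans (hge j))).2.1.2
  · filter_upwards [hav, hys] with n hn hn2
    exact hn.trans (Real.rpow_le_rpow_of_exponent_ge (hy n) (hn2.trans hy01) (by linarith))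

end

end Vale.Agent.P159.H37.Sf
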