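import Vale.Agent.P159.H37.Sf2

/-!
P159 (helper37), final glue of S, part 3: **from the flow `SFlow` (801) to the amplitude theorem**,
the window exponent `k n = ⌈ck log2 (1 / y n)⌉`, records hit by the base distances.
-/

open Filter Topology Finset

set_option linter.all false

namespace Vale.Agent.P159.H37.Sf

open Vale.Agent.P159.TM.Spec (V)
open Vale.Agent.P159.H552.Dx7 (kk nx invS)
open Vale.Agent.P159.H801 (itw T3 Fl Wn itw_succ itw_zero itw_ge itw_tend rp_cmp SFlow xa Bw)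
open Vale.Agent.P159.H264 (kap)
open Vale.Agent.P159.H770 (wTD Ed)
open Vale.Agent.P159.H27 (Rb)
open Vale.Agent.P159.H773 (sd Pth)
open Vale.Agent.P159.H972 (tn lg Par Good YBn)

noncomputable section

/-! ### `lg` -/

lemma lb_eq {y : ℝ} : Real.logb 2 (1 / y) = -Real.log y / Real.log 2 := by
  rw [Real.logb, one_div, Real.log_inv]

lemma le_lg (c y : ℝ) : c * Real.logb 2 (1 / y) ≤ lg c y := Nat.le_ceil _

lemma lg_le {c y : ℝ} (h : 0 ≤ c * Real.logb 2 (1 / y)) : (lg c y : ℝ) ≤ c * Real.logb 2 (1 / y) + 1 :=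
  (Nat.ceil_lt_add_one h).le

lemma lb_sub {c u v : ℝ} (hc : 0 < c) (h : |Real.log v - Real.log u| ≤ Real.log 2 / c) :
    c * Real.logb 2 (1 / u) ≤ c * Real.logb 2 (1 / v) + 1 := by
  have h1 := (abs_le.1 h).2
  have hl : 0 < Real.log 2 := Real.log_pos one_lt_two
  rw [lb_eq, lb_eq]
  have h2 : c * (-Real.log u / Real.log 2) - c * (-Real.log v / Real.log 2) =
      c / Real.log 2 * (Real.log v - Real.log u) := by field_simp; ring
  have h3 : c / Real.log 2 * (Real.log v - Real.log u) ≤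
      c / Real.log 2 * (Real.log 2 / c) := mul_le_mul_of_nonneg_left h1 (by positivity)
  have h4 : c / Real.log 2 * (Real.log 2 / c) = 1 := by field_simp
  linarith

lemma lg_step {c u v : ℝ} (hc : 0 < c) (h : |Real.log v - Real.log u| ≤ Real.log 2 / c) :
    lg c u ≤ 1 + lg c v := by
  have h1 := lb_sub hc h
  have h2 := le_lg c v
  have h3 : lg c u = ⌈c * Real.logb 2 (1 / u)⌉₊ := rfl
  rw [h3, Nat.ceil_le]
  push_cast
  linarith

/-! ### the base distances hit the records -/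

/-- a function with steps `0, 1, 2` from `n1` on, unbounded, hits `K` or `K - 1` -/
lemma hit {f : ℕ → ℕ} {n1 : ℕ} (hs : ∀ n, n1 ≤ n → f (n + 1) ≤ f n + 2) (hf : ∀ n, n ≤ f n) {K : ℕ}
    (hK : f n1 < K) : ∃ n, n1 ≤ n ∧ (f n = K ∨ f n + 1 = K) := by
  classical
  have hex : ∃ n, n1 ≤ n ∧ K ≤ f n + 1 :=
    ⟨max n1 K, le_max_left _ _, ((le_max_right _ _).trans (hf _)).trans (Nat.le_succ _)⟩
  obtain ⟨h1, h2⟩ := Nat.find_spec hex
  set m := Nat.find hex with hm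
  by_cases h3 : m = n1
  · rw [h3] at h2
    exact ⟨n1, le_rfl, by omega⟩
  · have h4 : ¬ (n1 ≤ m - 1 ∧ K ≤ f (m - 1) + 1) := Nat.find_min hex (by omega)
    have h5 : f (m - 1) + 1 < K := by
      by_contra hcon
      exact h4 ⟨by omega, by omega⟩
    have h6 := hs (m - 1) (by omega)
    have h7 : m - 1 + 1 = m := by omega
    rw [h7] at h6
    exact ⟨m, h1, by omega⟩

/-- records: `Rc` at `2^K` and at `2^(K-1)` for arbitrarily large `K` gives starting levels -/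
lemma start_of {k w : ℕ → ℕ} (hk : ∀ᶠ n in atTop, k (n + 1) ≤ k n + 1) {Rc : ℕ → Prop}
    (hR : ∀ K1, ∃ K, K1 ≤ K ∧ Rc (2 ^ K) ∧ Rc (2 ^ (K - 1))) (n1 : ℕ) :
    ∃ n0, n1 ≤ n0 ∧ Rc (Rb k w n0 0) := by
  obtain ⟨n2, hn2⟩ := eventually_atTop.1 hk
  set n3 := max n1 n2 with hn3
  obtain ⟨K, hK, hK1, hK2⟩ := hR (kk k n3 + 1)
  obtain ⟨n, h1, h2⟩ := hit (f := kk k) (n1 := n3) (K := K) (fun n hn => by
    have := hn2 n ((le_max_right n1 n2).trans hn)
    unfold kk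
    omega) (fun n => Nat.le_add_right _ _) (by omega)
  refine ⟨n, (le_max_left n1 n2).trans h1, ?_⟩
  have e : Rb k w n 0 = 2 ^ kk k n := by
    unfold Rb
    rw [itw_zero]
  rw [e]
  rcases h2 with h2 | h2
  · rwa [h2]
  · have h3 : kk k n = K - 1 := by omega
    rwa [h3]

/-! ### the flow -/

section flow

variable {P : Par} {b σ c c1 q2 qx : ℝ} {a y ε xs : ℕ → ℝ} {c' r q A : ℝ} {N : ℕ}

/-- the window exponent -/
def kf (ck : ℝ) (y : ℕ → ℝ) (n : ℕ) : ℕ := lg ck (y n)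

lemma sf_eps (h : SFlow P b σ c c1 q2 qx a y ε xs c' r q A N) {n : ℕ} (hn : N ≤ n) :
    0 < ε n := (Real.rpow_pos_of_pos (h.fl.y0 n) _).trans_le (h.lo n hn)

/-- `log2 (1 / ε) ≥ (2 - 3σ) log2 (1 / y)` -/
lemma sf_lb (h : SFlow P b σ c c1 q2 qx a y ε xs c' r q A N) {n : ℕ} (hn : N ≤ n) :
    (2 - 3 * σ) * Real.logb 2 (1 / y n) ≤ Real.logb 2 (1 / ε n) := by
  have hl : 0 < Real.log 2 := Real.log_pos one_lt_two
  have h1 := h.up n hn
  have h2 := Real.log_le_log (sf_eps h hn) h1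
  rw [Real.log_rpow (h.fl.y0 n)] at h2
  rw [lb_eq, lb_eq, mul_div_assoc']
  refine div_le_div_of_nonneg_right ?_ hl.le
  linarith

lemma lb_tend (hy : ∀ n, 0 < y n) (ht : Tendsto y atTop (𝓝 0)) :
    Tendsto (fun n => Real.logb 2 (1 / y n)) atTop atTop := by
  have h1 : Tendsto y atTop (𝓝[>] 0) :=
    tendsto_nhdsWithin_iff.2 ⟨ht, Eventually.of_forall hy⟩
  have h2 := Real.tendsto_log_nhdsGT_zero.comp h1
  have h3 : (fun n => Real.logb 2 (1 / y n)) = fun n => (Real.log 2)⁻¹ * -(Real.log (y n)) := by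
    funext n
    rw [lb_eq]
    ring
  rw [h3]
  refine Tendsto.const_mul_atTop (inv_pos.2 (Real.log_pos one_lt_two)) ?_
  exact tendsto_neg_atBot_atTop.comp h2

lemma sf_w (h : SFlow P b σ c c1 q2 qx a y ε xs c' r q A N) (hσ : σ ≤ 1 / 4) {n : ℕ} (hn : N ≤ n) :
    P.thp * ((2 - 3 * σ) * Real.logb 2 (1 / y n)) ≤ (P.w (ε n) : ℝ) :=
  (mul_le_mul_of_nonneg_left (sf_lb h hn) P.thp0.le).trans (le_lg _ _)

lemma sf_wt (h : SFlow P b σ c c1 q2 qx a y ε xs c' r q A N) (hσ : σ ≤ 1 / 4) :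
    Tendsto (fun n => P.w (ε n)) atTop atTop := by
  have h1 : Tendsto (fun n => P.thp * ((2 - 3 * σ) * Real.logb 2 (1 / y n))) atTop atTop :=
    Tendsto.const_mul_atTop P.thp0 (Tendsto.const_mul_atTop (by linarith)
      (lb_tend h.fl.y0 h.fl.yt))
  refine tendsto_natCast_atTop_iff.1 (tendsto_atTop_mono' atTop ?_ h1)
  filter_upwards [eventually_ge_atTop N] with n hn
  exact sf_w h hσ hn

/-- step of `y` -/
lemma sf_var (h : SFlow P b σ c c1 q2 qx a y ε xs c' r q A N) {η : ℝ} (hη : 0 < η) :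
    ∀ᶠ n in atTop, |Real.log (y (n + P.w (ε n))) - Real.log (y n)| ≤ η ∧
      |Real.log (y (n + 1)) - Real.log (y n)| ≤ η := by
  filter_upwards [h.t3.fl.var h.t3.wn hη, eventually_ge_atTop N] with n h1 hn
  have hw := h.t3.wn.w1 n hn
  exact ⟨h1 _ (Nat.le_add_right _ _) (by omega), h1 _ (by omega) (by omega)⟩

lemma sf_k1 (h : SFlow P b σ c c1 q2 qx a y ε xs c' r q A N) {ck : ℝ} (hck : 0 < ck) :
    (∀ᶠ n in atTop, kf ck y n ≤ 1 + kf ck y (n + P.w (ε n))) ∧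
    ∀ᶠ n in atTop, kf ck y (n + 1) ≤ kf ck y n + 1 := by
  have hη : 0 < Real.log 2 / ck := div_pos (Real.log_pos one_lt_two) hck
  refine ⟨?_, ?_⟩
  · filter_upwards [sf_var h hη] with n hn
    exact lg_step hck hn.1
  · filter_upwards [sf_var h hη] with n hn
    rw [add_comm (kf ck y n)]
    exact lg_step hck (by rw [abs_sub_comm]; exact hn.2)

lemma sf_k3 (h : SFlow P b σ c c1 q2 qx a y ε xs c' r q A N) (hσ : σ ≤ 1 / 4) {ck : ℝ}
    (hck : 0 < ck) (hck1 : ck ≤ P.thp) :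
    ∀ᶠ n in atTop, kf ck y (n + P.w (ε n)) ≤ 3 * P.w (ε n) := by
  have hη : 0 < Real.log 2 / ck := div_pos (Real.log_pos one_lt_two) hck
  have hth := P.thp0
  have h1 := (lb_tend h.fl.y0 h.fl.yt).eventually_ge_atTop (1 + 1 / P.thp)
  have h1' : ∀ᶠ n in atTop, ∀ m, n ≤ m → 1 + 1 / P.thp ≤ Real.logb 2 (1 / y m) := by
    obtain ⟨M, hM⟩ := eventually_atTop.1 h1
    filter_upwards [eventually_ge_atTop M] with n hn m hm using hM m (hn.trans hm)
  filter_upwards [sf_var h hη, h1', eventually_ge_atTop N] with n hn hl hN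
  have a1 := sf_w h hσ hN
  have hl0 := hl n le_rfl
  have hl1 := hl (n + P.w (ε n)) (Nat.le_add_right _ _)
  have ht : 0 < 1 / P.thp := by positivity
  have a2 : (kf ck y (n + P.w (ε n)) : ℝ) ≤ ck * Real.logb 2 (1 / y (n + P.w (ε n))) + 1 :=
    lg_le (mul_nonneg hck.le (by linarith))
  have a3 := lb_sub hck (by rw [abs_sub_comm]; exact hn.1 :
    |Real.log (y n) - Real.log (y (n + P.w (ε n)))| ≤ Real.log 2 / ck)
  have a4 : ck * Real.logb 2 (1 / y n) ≤ P.thp * Real.logb 2 (1 / y n) :=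
    mul_le_mul_of_nonneg_right hck1 (by linarith)
  have a5 : P.thp * (1 + 1 / P.thp) ≤ P.thp * Real.logb 2 (1 / y n) :=
    mul_le_mul_of_nonneg_left hl0 hth.le
  have a6 : P.thp * (1 + 1 / P.thp) = P.thp + 1 := by field_simp
  have a7 : P.thp * (5 / 4 * Real.logb 2 (1 / y n)) ≤
      P.thp * ((2 - 3 * σ) * Real.logb 2 (1 / y n)) :=
    mul_le_mul_of_nonneg_left (mul_le_mul_of_nonneg_right (by linarith) (by linarith)) hth.le
  have a8 : (kf ck y (n + P.w (ε n)) : ℝ) ≤ 3 * (P.w (ε n) : ℝ) := by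
    nlinarith
  exact_mod_cast a8

/-- `a ≤ π / 2`, and `a = 1 / (2/π + xs)` up to `y^(1+)` -/
lemma sf_a (h : SFlow P b σ c c1 q2 qx a y ε xs c' r q A N) :
    (∀ᶠ n in atTop, 0 ≤ a n ∧ a n ≤ Real.pi / 2) ∧
    ∀ᶠ n in atTop, |a n - invS xs n| ≤ y n ^ (1 + (q2 - 1) / 2) := by
  have hq := h.q21
  have hπ := Real.pi_pos
  obtain ⟨K, hK, hlow⟩ := h.t3.lower
  have hy := h.fl.y0
  have e1 : ∀ᶠ n in atTop, y n ^ (q2 - 1) ≤ 1 / (√K + 1) :=
    h.fl.ev_pow (by linarith) (by positivity)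
  have e2 : ∀ᶠ n in atTop, y n ^ ((q2 - 1) / 2) ≤ 1 / 4 :=
    h.fl.ev_pow (by linarith) (by norm_num)
  have key : ∀ᶠ n in atTop, 2 / Real.pi ≤ (a n)⁻¹ ∧ 0 < xs n ∧ 1 ≤ a n := by
    filter_upwards [hlow, e1, eventually_ge_atTop N] with n h1 h2 hn
    have h3 := h.near n hn
    have h4 : y n ≤ √K * xs n := by
      have h5 : y n ^ 2 ≤ (√K * xs n) ^ 2 := by
        rw [mul_pow, Real.sq_sqrt hK.le]
        exact h1.2
      exact le_of_sq_le_sq h5 (mul_nonneg (Real.sqrt_nonneg _) h1.1.le)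
    have h6 : y n ^ q2 = y n ^ (q2 - 1) * y n := by
      rw [← Real.rpow_add_one (hy n).ne']
      congr 1
      ring
    have h7 : y n ^ q2 ≤ xs n := by
      rw [h6]
      calc y n ^ (q2 - 1) * y n ≤ 1 / (√K + 1) * (√K * xs n) :=
            mul_le_mul h2 h4 (hy n).le (by positivity)
        _ = √K / (√K + 1) * xs n := by ring
        _ ≤ 1 * xs n := by
            refine mul_le_mul_of_nonneg_right ?_ h1.1.le
            rw [div_le_one (by positivity)]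
            linarith
        _ = xs n := one_mul _
    have h8 := (abs_le.1 h3).2
    have h9 : xa a n = (a n)⁻¹ - 2 / Real.pi := rfl
    exact ⟨by rw [h9] at h8; linarith, h1.1, h.a1 n hn⟩
  refine ⟨?_, ?_⟩
  · filter_upwards [key] with n hn
    refine ⟨by linarith [hn.2.2], ?_⟩
    have h1 : 0 < a n := by linarith [hn.2.2]
    have h2 := hn.1
    rw [div_le_iff₀ hπ, inv_mul_eq_div, le_div_iff₀ h1] at h2
    linarith
  · filter_upwards [key, e2, eventually_ge_atTop N] with n hn h2 hN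
    have ha : 0 < a n := by linarith [hn.2.2]
    have hu : 0 < (a n)⁻¹ := inv_pos.2 ha
    have hv : 0 < 2 / Real.pi + xs n := by have := hn.2.1; positivity
    have h3 : a n - invS xs n = (2 / Real.pi + xs n - (a n)⁻¹) * (a n * (1 / (2 / Real.pi + xs n))) := by
      unfold invS
      generalize 2 / Real.pi + xs n = v at hv
      have hv' := hv.ne'
      have ha' := ha.ne'
      field_simp
    have h4 := h.near n hN
    have h5 : 2 / Real.pi + xs n - (a n)⁻¹ = xs n - xa a n := by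
      have h9 : xa a n = (a n)⁻¹ - 2 / Real.pi := rfl
      rw [h9]
      ring
    have h6 : a n ≤ Real.pi / 2 := by
      have h2 := hn.1
      rw [div_le_iff₀ hπ, inv_mul_eq_div, le_div_iff₀ ha] at h2
      linarith
    have h7 : 1 / (2 / Real.pi + xs n) ≤ Real.pi / 2 := by
      rw [div_le_iff₀ hv]
      have : Real.pi / 2 * (2 / Real.pi + xs n) = 1 + Real.pi / 2 * xs n := by field_simp
      rw [this]
      have := hn.2.1
      have : 0 ≤ Real.pi / 2 * xs n := by positivity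
      linarith
    have h8 : 0 ≤ a n * (1 / (2 / Real.pi + xs n)) := by positivity
    have h9 : a n * (1 / (2 / Real.pi + xs n)) ≤ 4 := by
      have hp4 := Real.pi_lt_four
      have : a n * (1 / (2 / Real.pi + xs n)) ≤ Real.pi / 2 * (Real.pi / 2) :=
        mul_le_mul h6 h7 (by positivity) (by positivity)
      nlinarith
    rw [h3, h5, abs_mul, abs_of_nonneg h8]
    have h10 : y n ^ q2 = y n ^ ((q2 - 1) / 2) * y n ^ (1 + (q2 - 1) / 2) := by
      rw [← Real.rpow_add (hy n)]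
      congr 1
      ring
    have h11 : 0 < y n ^ (1 + (q2 - 1) / 2) := Real.rpow_pos_of_pos (hy n) _
    calc |xs n - xa a n| * (a n * (1 / (2 / Real.pi + xs n))) ≤ y n ^ q2 * 4 :=
          mul_le_mul h4 h9 h8 (Real.rpow_nonneg (hy n).le _)
      _ ≤ (1 / 4 * y n ^ (1 + (q2 - 1) / 2)) * 4 := by
          rw [h10]
          exact mul_le_mul_of_nonneg_right (mul_le_mul_of_nonneg_right h2 h11.le) (by norm_num)
      _ = y n ^ (1 + (q2 - 1) / 2) := by ring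

/-- **THE AMPLITUDE THEOREM FROM THE FLOW AND ONE STATEMENT PER LEVEL** -/
theorem s_final (hb : 0 < b) (hσ : σ ≤ 1 / 4)
    (h : SFlow P b σ c c1 q2 qx a y ε xs c' r q A N) {ck c3 c4 β : ℝ} (hck : 0 < ck)
    (hck1 : ck ≤ P.thp) (h3 : 0 < c3) (h4 : 0 < c4) (hβ : 1 / 4 < β) {Rc : ℕ → Prop}
    (hR : ∀ K1, ∃ K, K1 ≤ K ∧ Rc (2 ^ K) ∧ Rc (2 ^ (K - 1))) {i1 : ℕ}
    (hL : ∀ i, i1 ≤ i → ∃ (η : ∀ R, Ed (sd i R) → ℤ) (φ : ∀ R, V (sd i R) → ℝ), Pth i η ∧
      ∃ N1 : ℕ, ∀ n0, N1 ≤ n0 → Rc (Rb (kf ck y) (fun n => P.w (ε n)) n0 0) →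
        ∀ j, Kn b β i a (kf ck y) (fun n => P.w (ε n)) n0 j →
        ∀ n n', n = itw (fun n => P.w (ε n)) n0 j → n' = n + P.w (ε n) →
        LvOut b i η φ c3 c4 (y n) (a n) n n' (2 ^ (n + kf ck y n)) (2 ^ (n' + kf ck y n'))) :
    ∃ A : ℝ, 0 < A ∧ Tendsto (fun r : ℕ => Vale.Agent.P159.corrInf b ((r : ℤ), 0) /
      ((r : ℝ) ^ (-(1 / 4) : ℝ) * Real.log r ^ (1 / 8 : ℝ))) atTop (𝓝 A) := by
  obtain ⟨ha, hav⟩ := sf_a h
  obtain ⟨hk1, hk1'⟩ := sf_k1 h hck
  refine s_glue hb h.t3 (sf_wt h hσ) hk1 (sf_k3 h hσ hck hck1) ha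
    (c5 := (q2 - 1) / 2) (by have := h.q21; linarith) hav h3 h4 hβ (start_of hk1' hR) (i1 := i1)
    fun i hi => ?_
  obtain ⟨η, φ, hη, N1, hN1⟩ := hL i hi
  refine ⟨η, φ, hη, N1, fun n0 hn0 hr j hK => ?_⟩
  have h1 := hN1 n0 hn0 hr j hK (itw (fun n => P.w (ε n)) n0 j)
    (itw (fun n => P.w (ε n)) n0 (j + 1)) rfl (itw_succ _ _ _)
  exact h1

end flow

end

end Vale.Agent.P159.H37.Sf
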