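import Vale.Agent.P159.H37.Sf4
import Vale.Agent.P159.H276.Eta2

/-!
P159 (helper37), S: the field `stp` of a level in the letters of the flow. The contraction constant
of the window is at most `1 / 30` as soon as `D / ξ ≤ M^(1/2-)`.
-/

open MeasureTheory Filter Topology Finset Matrix

set_option linter.all false

namespace Vale.Agent.P159.H37.Sf

open Vale.Agent.P159.TM.Spec (V)
open Vale.Agent.P159.TM.SpecC (wT)
open Vale.Agent.P159.H686 (Stp rho2)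
open Vale.Agent.P159.H883 (nuM Psi BW Zp Wt)
open Vale.Agent.P159.H708 (Bx wd)
open Vale.Agent.P159.H462 (Dom)
open Vale.Agent.P159.H963 (Anm)
open Vale.Agent.P159.H773 (sd nuF PsF cMn wdF stp_F)
open Vale.Agent.P159.H972 (tn)

noncomputable section

/-- `Dom` of the massive form, constant `1 / b` -/
theorem dom_Anm' {N : ℕ} [NeZero N] {b t : ℝ} (hb : 0 < b) (ht : 0 < t) :
    Dom (Anm N b t) t (1 / b) :=
  H883.dom_Anm hb ht (by positivity) fun k hk => H276.Pin_ge hb ht hk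

lemma tn_ratio (n w : ℕ) : (1 / tn (n + w) - 1 / tn n) * tn n = 4 ^ w - 1 := by
  unfold tn
  have h4 : (4 : ℝ) ^ n ≠ 0 := by positivity
  rw [pow_add]
  field_simp

/-- **the contraction constant** `≤ 1/30`: `D / ξ ≤ 2^kd` with `4 kd ≤ (2 - s) w`, `w` large -/
lemma kap_num {b s : ℝ} (hb : 0 < b) (hs : 0 < s) : ∃ w0 : ℕ, 1 ≤ w0 ∧ ∀ w, w0 ≤ w →
    ∀ n D kd : ℕ, D ≤ 2 ^ (n + kd) → (4 * kd : ℝ) ≤ (2 - s) * w →
    √(Real.pi ^ 2 / 8) * rho2 2 D (1 / b) (tn n) (1 / tn (n + w) - 1 / tn n) ≤ 1 / 30 := by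
  set C : ℝ := 2 * (40800 * ((1 + 1 / b) / (1 / b)) ^ 2) with hC
  have hC0 : 0 ≤ C := by positivity
  set ρ : ℝ := (2 : ℝ) ^ (-s) with hρ
  have hρ0 : 0 < ρ := Real.rpow_pos_of_pos two_pos _
  have hρ1 : ρ < 1 := Real.rpow_lt_one_of_one_lt_of_neg one_lt_two (by linarith)
  have h1 : Tendsto (fun w : ℕ => C * ((1 + 2 * (w : ℝ)) * ρ ^ w)) atTop (𝓝 (C * (0 + 2 * 0))) := by
    have a1 := tendsto_pow_atTop_nhds_zero_of_lt_one hρ0.le hρ1
    have a2 := tendsto_pow_const_mul_const_pow_of_abs_lt_one 1 (r := ρ)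
      (by rw [abs_of_pos hρ0]; exact hρ1)
    have a3 := (a1.add (a2.const_mul 2)).const_mul C
    refine a3.congr fun w => ?_
    ring
  rw [mul_zero, zero_add, mul_zero] at h1
  obtain ⟨w0, hw0⟩ := eventually_atTop.1 (h1.eventually (ge_mem_nhds (show (0 : ℝ) < 1 / 900 by
    norm_num)))
  refine ⟨max w0 1, le_max_right _ _, fun w hw n D kd hD hk => ?_⟩
  have hw1 : 1 ≤ w := (le_max_right _ _).trans hw
  have h2 := hw0 w ((le_max_left _ _).trans hw)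
  have hr : (1 / tn (n + w) - 1 / tn n) * tn n = 4 ^ w - 1 := tn_ratio n w
  have h4w : (4 : ℝ) ≤ 4 ^ w := by
    calc (4 : ℝ) = 4 ^ 1 := (pow_one 4).symm
      _ ≤ 4 ^ w := pow_le_pow_right₀ (by norm_num) hw1
  have hS : (4 : ℝ) ^ w / 2 ≤ 4 ^ w - 1 := by linarith
  have hS0 : (0 : ℝ) < 4 ^ w - 1 := by linarith
  -- the logarithm
  have hlog : 1 + Real.log (4 ^ w - 1) ≤ 1 + 2 * (w : ℝ) := by
    have a1 : Real.log (4 ^ w - 1) ≤ Real.log (4 ^ w) := Real.log_le_log hS0 (by linarith)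
    rw [Real.log_pow] at a1
    have a2 : Real.log 4 ≤ 2 := by
      have : (4 : ℝ) = 2 ^ 2 := by norm_num
      rw [this, Real.log_pow]
      have := Real.log_two_lt_d9
      push_cast
      linarith
    have a3 := mul_le_mul_of_nonneg_left a2 (show (0 : ℝ) ≤ w by positivity)
    linarith
  have hlog0 : 0 ≤ 1 + Real.log (4 ^ w - 1) := by
    have := Real.log_nonneg (show (1 : ℝ) ≤ 4 ^ w - 1 by linarith)
    linarith
  -- `D⁴ ν² ≤ 16^kd`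
  have hDn : (D : ℝ) ^ 4 * tn n ^ 2 ≤ 2 ^ (4 * kd) := by
    have a1 : (D : ℝ) ≤ 2 ^ (n + kd) := by exact_mod_cast hD
    have a2 : (D : ℝ) ^ 4 ≤ (2 ^ (n + kd)) ^ 4 := pow_le_pow_left₀ (Nat.cast_nonneg _) a1 4
    have a3 : ((2 : ℝ) ^ (n + kd)) ^ 4 * tn n ^ 2 = 2 ^ (4 * kd) := by
      unfold tn
      have : (4 : ℝ) ^ n = (2 ^ n) ^ 2 := by
        rw [← pow_mul, mul_comm n 2, pow_mul]
        norm_num
      rw [this]
      field_simp
      ring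
    calc (D : ℝ) ^ 4 * tn n ^ 2 ≤ ((2 : ℝ) ^ (n + kd)) ^ 4 * tn n ^ 2 :=
          mul_le_mul_of_nonneg_right a2 (sq_nonneg _)
      _ = _ := a3
  have hpow : (2 : ℝ) ^ (4 * kd) ≤ (4 : ℝ) ^ w * ρ ^ w := by
    have a1 : (4 : ℝ) ^ w * ρ ^ w = (2 : ℝ) ^ ((2 - s) * (w : ℝ)) := by
      have e1 : (4 : ℝ) ^ w = (2 : ℝ) ^ (2 * (w : ℝ)) := by
        rw [Real.rpow_mul two_pos.le, Real.rpow_natCast]
        norm_num
      have e2 : ρ ^ w = (2 : ℝ) ^ (-s * (w : ℝ)) := by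
        rw [Real.rpow_mul two_pos.le, Real.rpow_natCast]
      rw [e1, e2, ← Real.rpow_add two_pos]
      congr 1
      ring
    rw [a1, ← Real.rpow_natCast]
    apply Real.rpow_le_rpow_of_exponent_le one_lt_two.le
    push_cast
    exact hk
  have hone : (1 : ℝ) ≤ 2 ^ (4 * kd) := one_le_pow₀ one_lt_two.le
  have hD2 : 1 + (D : ℝ) ^ 4 * tn n ^ 2 ≤ 2 * ((4 : ℝ) ^ w * ρ ^ w) := by linarith
  unfold rho2
  rw [← Real.sqrt_mul (by positivity), hr]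
  refine Real.sqrt_le_iff.2 ⟨by norm_num, ?_⟩
  have hπ : Real.pi ^ 2 / 8 ≤ 2 := by
    have := Real.pi_lt_four
    have := Real.pi_pos
    nlinarith
  set K : ℝ := ((1 + 1 / b) / (1 / b)) ^ 2 with hK
  have hK0 : 0 ≤ K := sq_nonneg _
  have hX : ((2 : ℕ) : ℝ) * (5100 * K * (1 + (D : ℝ) ^ 4 * tn n ^ 2) *
      (1 + Real.log (4 ^ w - 1)) / (4 ^ w - 1)) ≤
      40800 * K * ((1 + 2 * (w : ℝ)) * ρ ^ w) := by
    have b1 : 5100 * K * (1 + (D : ℝ) ^ 4 * tn n ^ 2) * (1 + Real.log (4 ^ w - 1)) ≤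
        5100 * K * (2 * ((4 : ℝ) ^ w * ρ ^ w)) * (1 + 2 * (w : ℝ)) :=
      mul_le_mul (mul_le_mul_of_nonneg_left hD2 (by positivity)) hlog hlog0 (by positivity)
    have b2 : 5100 * K * (1 + (D : ℝ) ^ 4 * tn n ^ 2) * (1 + Real.log (4 ^ w - 1)) / (4 ^ w - 1) ≤
        5100 * K * (2 * ((4 : ℝ) ^ w * ρ ^ w)) * (1 + 2 * (w : ℝ)) / (4 ^ w / 2) :=
      div_le_div₀ (by positivity) b1 (by positivity) hS
    have b3 : 5100 * K * (2 * ((4 : ℝ) ^ w * ρ ^ w)) * (1 + 2 * (w : ℝ)) / (4 ^ w / 2) =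
        20400 * K * ((1 + 2 * (w : ℝ)) * ρ ^ w) := by
      have : (4 : ℝ) ^ w ≠ 0 := by positivity
      field_simp
      ring
    rw [b3] at b2
    push_cast
    linarith
  have hX0 : 0 ≤ 40800 * K * ((1 + 2 * (w : ℝ)) * ρ ^ w) := by positivity
  calc Real.pi ^ 2 / 8 * (((2 : ℕ) : ℝ) * (5100 * K * (1 + (D : ℝ) ^ 4 * tn n ^ 2) *
      (1 + Real.log (4 ^ w - 1)) / (4 ^ w - 1)))
      ≤ Real.pi ^ 2 / 8 * (40800 * K * ((1 + 2 * (w : ℝ)) * ρ ^ w)) :=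
        mul_le_mul_of_nonneg_left hX (by positivity)
    _ ≤ 2 * (40800 * K * ((1 + 2 * (w : ℝ)) * ρ ^ w)) := mul_le_mul_of_nonneg_right hπ hX0
    _ = C * ((1 + 2 * (w : ℝ)) * ρ ^ w) := by rw [hC, hK]; ring
    _ ≤ 1 / 900 := h2
    _ = (1 / 30) ^ 2 := by norm_num

end

end Vale.Agent.P159.H37.Sf
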